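import Vale.Agent.P080.C1.Propagate

/-!
A8: the chain of ascents. From a saturated stencil of spread `ρ` the propagation theorem gives one
of spread in `[2ρ, 3ρ]` within `Rρ` in the frame of the window of radius `ρ`. That frame differs
from a fixed frame of radius `h` by a logarithm of `h / ρ`, so the displacements add up to `O(h)`.
-/

namespace Vale.Agent.P080.C1

open Set Filter Topology
open scoped RealInnerProductSpace

set_option linter.unusedSectionVars false

variable {F : Type*} [NormedAddCommGroup F] [InnerProductSpace ℝ F] [FiniteDimensional ℝ F]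
variable {C : ℝ} {w : ℝ → F → ℝ}

/-- The profile seen from `(t, y)` at the unit `ρ` in the frame of the window `(b, v)`. -/
noncomputable def ascFrame (w : ℝ → F → ℝ) (t : ℝ) (y : F) (ρ b : ℝ) (v : F) : ℝ → F → ℝ :=
  rescale (tilt (boost (shift w t y) v) (-b)) ρ

theorem ascFrame_apply (w : ℝ → F → ℝ) (t : ℝ) (y : F) (ρ b : ℝ) (v : F) (τ : ℝ) (z : F) :
    ascFrame w t y ρ b v τ z
      = (w (t + ρ * τ) (y + (ρ * τ) • v + ρ • z) - w t y - ⟪v, ρ • z⟫
          - (b + ‖v‖ ^ 2 / 2) * (ρ * τ)) / ρ := by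
  unfold ascFrame rescale tilt boost shift
  rw [add_assoc y, add_comm ((ρ * τ) • v)]
  ring

theorem spread_smul_pos {ι : Type*} [Fintype ι] {r : ℝ} (hr : 0 ≤ r) (l : ι → ℝ) (η : ι → F) :
    spread l (fun i => r • η i) = r * spread l η := by
  have h : ∑ i, l i * ‖r • η i‖ ^ 2 = r ^ 2 * ∑ i, l i * ‖η i‖ ^ 2 := by
    rw [Finset.mul_sum]
    exact Finset.sum_congr rfl fun i _ => by rw [norm_smul, Real.norm_of_nonneg hr]; ring
  unfold spread
  rw [h, Real.sqrt_mul (sq_nonneg r), Real.sqrt_sq hr]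

theorem isStencil_smul {ι : Type*} [Fintype ι] {l : ι → ℝ} {η : ι → F} (hs : IsStencil l η)
    (r : ℝ) : IsStencil l (fun i => r • η i) := by
  refine ⟨hs.1, hs.2.1, ?_⟩
  simp only [smul_comm _ r]
  rw [← Finset.smul_sum, hs.2.2, smul_zero]

theorem gap_ascFrame (w : ℝ → F → ℝ) (t : ℝ) (y : F) (ρ b : ℝ) (v : F) {ι : Type*} [Fintype ι]
    {l : ι → ℝ} {η : ι → F} (hs : IsStencil l η) (τ : ℝ) (z : F) :
    gap (ascFrame w t y ρ b v) τ z l η
      = gap w (t + ρ * τ) (y + (ρ * τ) • v + ρ • z) l (fun i => ρ • η i) / ρ := by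
  have h1 : ∑ i, l i * ⟪v, ρ • η i⟫ = 0 := by
    simp only [← real_inner_smul_right, ← inner_sum]
    rw [(isStencil_smul hs ρ).2.2, inner_zero_right]
  have h2 : ∀ i, ascFrame w t y ρ b v τ (z + η i)
      = ascFrame w t y ρ b v τ z
        + (w (t + ρ * τ) (y + (ρ * τ) • v + ρ • z + ρ • η i)
            - w (t + ρ * τ) (y + (ρ * τ) • v + ρ • z) - ⟪v, ρ • η i⟫) / ρ := fun i => by
    rw [ascFrame_apply, ascFrame_apply, smul_add, inner_add_right, ← add_assoc]
    ring
  simp only [gap, h2, mul_add, Finset.sum_add_distrib, ← Finset.sum_mul, hs.2.1, one_mul,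
    mul_div_assoc', ← Finset.sum_div, mul_sub, Finset.sum_sub_distrib, h1]
  ring

theorem isWin_ascFrame {t : ℝ} {y : F} {ρ b : ℝ} {v : F} (hρ : 0 < ρ)
    (hv : IsWin C w t y ρ b v) : IsWin C (ascFrame w t y ρ b v) 0 0 1 0 0 := by
  intro τ z hτ hz
  have h := hv (ρ * τ) (ρ • z)
    (by rw [abs_mul, abs_of_pos hρ]; exact mul_le_of_le_one_right hρ.le hτ)
    (by rw [norm_smul, Real.norm_of_nonneg hρ.le]; exact mul_le_of_le_one_right hρ.le hz)
  simp only [smul_zero, add_zero, zero_add, norm_zero, inner_zero_left, ne_eq, OfNat.ofNat_ne_zero,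
    not_false_eq_true, zero_pow, zero_div, zero_mul, sub_zero, ascFrame_apply, mul_zero, zero_smul,
    sub_self, inner_zero_right, mul_one]
  rw [abs_div, abs_of_pos hρ, div_le_iff₀ hρ]
  calc _ = |w (t + ρ * τ) (y + (ρ * τ) • v + ρ • z) - w t y - (b + ‖v‖ ^ 2 / 2) * (ρ * τ)
        - ⟪v, ρ • z⟫| := by congr 1; ring
    _ ≤ C * ρ := h

theorem gapLe_ascFrame {t : ℝ} {y : F} {ρ b : ℝ} {v : F} (hρ : 0 < ρ) {G : ℝ} (hg : GapLe G w) :
    GapLe G (ascFrame w t y ρ b v) := by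
  intro m τ z l η hs
  rw [gap_ascFrame w t y ρ b v hs, div_le_iff₀ hρ]
  calc gap w _ _ l (fun i => ρ • η i) ≤ G * spread l (fun i => ρ • η i) :=
        hg m _ _ l _ (isStencil_smul hs ρ)
    _ = G * spread l η * ρ := by rw [spread_smul_pos hρ.le]; ring

/-- One ascent, in the frame of any window of the radius of the spread. -/
theorem ascent_step (C G : ℝ) (hG : 0 < G) : ∃ R : ℝ, 0 < R ∧ ∀ {w : ℝ → F → ℝ},
    Prof C w → GapLe G w →
    ∀ {m : ℕ} {t : ℝ} {y : F} {l : Fin m → ℝ} {η : Fin m → F} {b : ℝ} {v : F},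
      Saturated G w t y l η → 0 < spread l η → IsWin C w t y (spread l η) b v →
      ∃ (τ : ℝ) (z : F) (l' : Fin (Module.finrank ℝ F + 2) → ℝ)
        (η' : Fin (Module.finrank ℝ F + 2) → F),
        Saturated G w (t + τ) (y + τ • v + z) l' η' ∧
          2 * spread l η ≤ spread l' η' ∧ spread l' η' ≤ 3 * spread l η ∧
          |τ| ≤ R * spread l η ∧ ‖z‖ ≤ R * spread l η := by
  obtain ⟨R, K, hR, -, hP⟩ := propagate (F := F) C G hG
  refine ⟨R, hR, ?_⟩
  intro w hw hg m t y l η b v hS hρ hv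
  set ρ := spread l η with hρdef
  have hw' : Prof C (ascFrame w t y ρ b v) := (((hw.shift t y).boost v).tilt (-b)).rescale hρ
  have h0 : ascFrame w t y ρ b v 0 0 = 0 := by simp [ascFrame_apply]
  have hη : (fun i => ρ • (ρ⁻¹ • η i)) = η :=
    funext fun i => by rw [smul_smul, mul_inv_cancel₀ hρ.ne', one_smul]
  have hsp : spread l (fun i => ρ⁻¹ • η i) = 1 := by
    rw [spread_smul_pos (inv_nonneg.2 hρ.le), ← hρdef, inv_mul_cancel₀ hρ.ne']
  have hS' : Saturated G (ascFrame w t y ρ b v) 0 0 l (fun i => ρ⁻¹ • η i) := by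
    refine ⟨isStencil_smul hS.1 _, ?_⟩
    rw [gap_ascFrame w t y ρ b v (isStencil_smul hS.1 _), hη, hsp]
    simp [hS.2, ← hρdef, hρ.ne']
  obtain ⟨τ, z, l', η', hS'', h2, h3, hτ, hz⟩ :=
    (hP hw' (gapLe_ascFrame hρ hg) h0 (isWin_ascFrame hρ hv) hS' hsp).2
  refine ⟨ρ * τ, ρ • z, l', fun i => ρ • η' i, ⟨isStencil_smul hS''.1 ρ, ?_⟩, ?_, ?_, ?_, ?_⟩
  · have h := hS''.2
    rw [gap_ascFrame w t y ρ b v hS''.1, div_eq_iff hρ.ne'] at h
    rw [h, spread_smul_pos hρ.le]; ring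
  · rw [spread_smul_pos hρ.le, mul_comm 2]; gcongr
  · rw [spread_smul_pos hρ.le, mul_comm 3]; gcongr
  · rw [abs_mul, abs_of_pos hρ, mul_comm R]; gcongr
  · rw [norm_smul, Real.norm_of_nonneg hρ.le, mul_comm R]; gcongr

/-- The budget of displacement of a chain of spread `ρ` inside a window of radius `h`. -/
theorem budget_step {α β h ρ ρ' : ℝ} (hα : 0 ≤ α) (hβ : 0 ≤ β) (hh : 0 ≤ h) (hρ : 0 ≤ ρ)
    (h2 : 2 * ρ ≤ ρ') :
    α * ρ + β * Real.sqrt (h * ρ) + (α * ρ + β / 3 * Real.sqrt (h * ρ))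
      ≤ α * ρ' + β * Real.sqrt (h * ρ') := by
  have h4 : 4 / 3 * Real.sqrt (h * ρ) ≤ Real.sqrt (h * ρ') := by
    apply Real.le_sqrt_of_sq_le
    rw [mul_pow, Real.sq_sqrt (mul_nonneg hh hρ)]
    nlinarith [mul_le_mul_of_nonneg_left h2 hh, mul_nonneg hh hρ]
  nlinarith [mul_le_mul_of_nonneg_left h2 hα, mul_le_mul_of_nonneg_left h4 hβ]

/-- A radius which absorbs the logarithm of itself. -/
theorem exists_absorbing {a e : ℝ} (ha : 0 ≤ a) (he : 0 ≤ e) :
    ∃ R : ℝ, 0 < R ∧ a + e * Real.log (1 + 2 * R) ≤ R := by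
  refine ⟨(4 * e + a + 1) ^ 2, by positivity, ?_⟩
  set u := 4 * e + a + 1 with hu
  have hu1 : 1 ≤ u := by linarith
  have h1 : Real.log (1 + 2 * u ^ 2) ≤ 4 * u := by
    calc Real.log (1 + 2 * u ^ 2) ≤ Real.log ((1 + 2 * u) ^ 2) :=
          Real.log_le_log (by positivity) (by nlinarith)
      _ = 2 * Real.log (1 + 2 * u) := by rw [Real.log_pow]; norm_num
      _ ≤ 4 * u := by
          have := Real.log_le_sub_one_of_pos (show (0 : ℝ) < 1 + 2 * u by linarith)
          linarith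
  nlinarith [mul_le_mul_of_nonneg_left h1 he, mul_le_mul_of_nonneg_left hu1
    (add_nonneg ha zero_le_one)]

/-- A saturated stencil has one at every larger scale nearby in the moving window. -/
theorem ascent_chain (C G : ℝ) (hG : 0 < G) : ∃ R : ℝ, 0 < R ∧ ∀ {w : ℝ → F → ℝ},
    Prof C w → GapLe G w →
    ∀ {m : ℕ} {t : ℝ} {y : F} {l : Fin m → ℝ} {η : Fin m → F} {h b : ℝ} {v : F},
      Saturated G w t y l η → 0 < spread l η → spread l η ≤ h → IsWin C w t y h b v →
      ∃ (τ : ℝ) (z : F) (l' : Fin (Module.finrank ℝ F + 2) → ℝ)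
        (η' : Fin (Module.finrank ℝ F + 2) → F),
        Saturated G w (t + τ) (y + τ • v + z) l' η' ∧ h ≤ spread l' η' ∧ spread l' η' ≤ 3 * h ∧
          |τ| ≤ R * h ∧ ‖z‖ ≤ R * h := by
  obtain ⟨R, hR, hA⟩ := ascent_step (F := F) C G hG
  obtain ⟨c₁, hc₁, hS⟩ := drift_space (F := F) C
  obtain ⟨c₂, hc₂, hT⟩ := drift_scale (F := F) C
  obtain ⟨R', hR', hR'eq⟩ := exists_absorbing
    (a := 3 * (R * (1 + c₁ + c₂)) + 12 * (R * c₂)) (e := 3 * (R * c₁))
    (by positivity) (by positivity)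
  refine ⟨R', hR', ?_⟩
  intro w hw hg m t y l η h b v hS₀ hρ₀ hρh hv
  have hh : 0 < h := hρ₀.trans_le hρh
  set L := Real.log (1 + 2 * R')
  have hL : 0 ≤ L := Real.log_nonneg (by linarith)
  set α := R * (1 + c₁ * (1 + L) + c₂) with hα
  set β := 6 * (R * c₂) with hβ
  have hα0 : 0 ≤ α := by positivity
  have hβ0 : 0 ≤ β := by positivity
  -- the budget at spread `ρ`
  let P : ℝ → ℝ := fun ρ => α * ρ + β * Real.sqrt (h * ρ)
  have hP3 : ∀ ρ, 0 ≤ ρ → ρ ≤ 3 * h → P ρ ≤ R' * h := by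
    intro ρ h1 h2
    have hsq : Real.sqrt (h * ρ) ≤ 2 * h := by
      rw [Real.sqrt_le_left (by linarith)]; nlinarith
    calc P ρ ≤ α * (3 * h) + β * (2 * h) := by simp only [P]; gcongr
      _ ≤ R' * h := by
          rw [hα, hβ]
          nlinarith [mul_le_mul_of_nonneg_right hR'eq hh.le]
  have step : ∀ {k : ℕ} {τ : ℝ} {z : F} {l : Fin k → ℝ} {η : Fin k → F},
      Saturated G w (t + τ) (y + τ • v + z) l η → 0 < spread l η → spread l η ≤ h →
      |τ| ≤ P (spread l η) → ‖z‖ ≤ P (spread l η) →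
      ∃ (τ' : ℝ) (z' : F) (l' : Fin (Module.finrank ℝ F + 2) → ℝ)
        (η' : Fin (Module.finrank ℝ F + 2) → F),
        Saturated G w (t + τ') (y + τ' • v + z') l' η' ∧ 2 * spread l η ≤ spread l' η' ∧
          spread l' η' ≤ 3 * spread l η ∧ |τ'| ≤ P (spread l' η') ∧ ‖z'‖ ≤ P (spread l' η') := by
    intro k τ z l η hsat hρ hle hτ hz
    obtain ⟨b', v', hv'⟩ := hw.window (t + τ) (y + τ • v + z) (spread l η) hρ
    obtain ⟨bh, vh, hvh⟩ := hw.window (t + τ) (y + τ • v + z) h hh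
    obtain ⟨σ, u, l', η', hsat', h2, h3, hσ, hu⟩ := hA hw hg hsat hρ hv'
    have hq : (|τ| + ‖z‖) / h ≤ 2 * R' := by
      rw [div_le_iff₀ hh]; linarith [hP3 _ hρ.le (by linarith)]
    obtain ⟨hvv, -⟩ := hS hw hh hv τ z hvh _ rfl
    have hD₁ : ‖vh - v‖ ≤ c₁ * (1 + L) := hvv.trans <| by
      refine mul_le_mul_of_nonneg_left (add_le_add_right ?_ 1) hc₁.le
      exact Real.log_le_log (by positivity) (by linarith)
    obtain ⟨hD₂, -⟩ := hT hw hρ hle hvh hv'
    have hlog : Real.log (h / spread l η) * spread l η ≤ 2 * Real.sqrt (h * spread l η) := by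
      have h1 : Real.log (h / spread l η) ≤ 2 * Real.sqrt (h / spread l η) := by
        have := Real.log_le_rpow_div (show (0 : ℝ) ≤ h / spread l η by positivity)
          (show (0 : ℝ) < 1 / 2 by norm_num)
        rw [← Real.sqrt_eq_rpow] at this
        linarith
      refine (mul_le_mul_of_nonneg_right h1 hρ.le).trans_eq ?_
      have : h * spread l η = h / spread l η * spread l η ^ 2 := by field_simp
      rw [this, Real.sqrt_mul (by positivity), Real.sqrt_sq hρ.le]; ring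
    have hD : R * spread l η * (1 + ‖v' - v‖)
        ≤ α * spread l η + β / 3 * Real.sqrt (h * spread l η) := by
      have hn := norm_sub_le_norm_sub_add_norm_sub v' vh v
      rw [hα, hβ]
      nlinarith [mul_le_mul_of_nonneg_left hlog (mul_nonneg hR.le hc₂.le),
        mul_le_mul_of_nonneg_left (hn.trans (add_le_add hD₂ hD₁)) (mul_nonneg hR.le hρ.le)]
    have hP' := budget_step hα0 hβ0 hh.le hρ.le h2
    have hnn : 0 ≤ R * spread l η * ‖v' - v‖ := by positivity
    have hτ' : |τ + σ| ≤ P (spread l' η') := by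
      simp only [P] at hτ ⊢
      nlinarith [abs_add_le τ σ]
    have hz' : ‖z + σ • (v' - v) + u‖ ≤ P (spread l' η') := by
      simp only [P] at hz ⊢
      have := norm_add_le (z + σ • (v' - v)) u
      have := norm_add_le z (σ • (v' - v))
      have hm : ‖σ • (v' - v)‖ ≤ R * spread l η * ‖v' - v‖ := by
        rw [norm_smul, Real.norm_eq_abs]; gcongr
      nlinarith
    refine ⟨τ + σ, z + σ • (v' - v) + u, l', η', ?_, h2, h3, hτ', hz'⟩
    have e : y + (τ + σ) • v + (z + σ • (v' - v) + u) = y + τ • v + z + σ • v' + u := by module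
    rw [e, ← add_assoc]
    exact hsat'
  suffices H : ∀ (N : ℕ) {k : ℕ} {τ : ℝ} {z : F} {l : Fin k → ℝ} {η : Fin k → F},
      Saturated G w (t + τ) (y + τ • v + z) l η → 0 < spread l η → spread l η ≤ h →
      h ≤ 2 ^ N * spread l η → |τ| ≤ P (spread l η) → ‖z‖ ≤ P (spread l η) →
      ∃ (τ : ℝ) (z : F) (l' : Fin (Module.finrank ℝ F + 2) → ℝ)
        (η' : Fin (Module.finrank ℝ F + 2) → F),
        Saturated G w (t + τ) (y + τ • v + z) l' η' ∧ h ≤ spread l' η' ∧ spread l' η' ≤ 3 * h ∧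
          |τ| ≤ R' * h ∧ ‖z‖ ≤ R' * h by
    obtain ⟨N, hN⟩ := pow_unbounded_of_one_lt (h / spread l η) (one_lt_two (α := ℝ))
    have hP0 : 0 ≤ P (spread l η) := by simp only [P]; positivity
    refine H N (τ := 0) (z := 0) (l := l) (η := η) ?_ hρ₀ hρh
      ((div_le_iff₀ hρ₀).1 hN.le) (by simpa using hP0) (by simpa using hP0)
    simpa using hS₀
  intro N
  induction N with
  | zero =>
    intro k τ z l η hsat hρ hle hN hτ hz
    obtain ⟨τ', z', l', η', hsat', h2, h3, hτ', hz'⟩ := step hsat hρ hle hτ hz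
    rw [pow_zero, one_mul] at hN
    exact ⟨τ', z', l', η', hsat', by linarith, h3.trans (by linarith),
      hτ'.trans (hP3 _ (by linarith) (h3.trans (by linarith))),
      hz'.trans (hP3 _ (by linarith) (h3.trans (by linarith)))⟩
  | succ N ih =>
    intro k τ z l η hsat hρ hle hN hτ hz
    obtain ⟨τ', z', l', η', hsat', h2, h3, hτ', hz'⟩ := step hsat hρ hle hτ hz
    rcases le_or_gt h (spread l' η') with hge | hlt
    · exact ⟨τ', z', l', η', hsat', hge, h3.trans (by linarith),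
        hτ'.trans (hP3 _ (by linarith) (h3.trans (by linarith))),
        hz'.trans (hP3 _ (by linarith) (h3.trans (by linarith)))⟩
    · refine ih hsat' (by linarith) hlt.le ?_ hτ' hz'
      calc h ≤ 2 ^ (N + 1) * spread l η := hN
        _ = 2 ^ N * (2 * spread l η) := by ring
        _ ≤ 2 ^ N * spread l' η' := by gcongr

end Vale.Agent.P080.C1
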