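import Mathlib

/-!
P080, full C¹: the class of blow-up profiles of infinity-harmonic functions in parabolically
scaled windows. A profile is a function of a time `t : ℝ` and a lateral point `y : F`; only the
three properties below are used (monotone Hopf-Lax slopes, affine windows at every scale, and
comparison with one quadratic barrier), each also for the mirror.
-/

namespace Vale.Agent.P080.C1

open Set
open scoped RealInnerProductSpace

variable {F : Type*} [NormedAddCommGroup F] [InnerProductSpace ℝ F]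

/-- The mirror `-w(-t, y)`. -/
def mir (w : ℝ → F → ℝ) : ℝ → F → ℝ := fun t y => -w (-t) y

/-- The forward Hopf-Lax value `sup_z w(t+h, y+z) - |z|²/2h`. -/
noncomputable def hlP (w : ℝ → F → ℝ) (h t : ℝ) (y : F) : ℝ :=
  sSup (range fun z => w (t + h) (y + z) - ‖z‖ ^ 2 / (2 * h))

/-- The backward Hopf-Lax value `inf_z w(t-h, y+z) + |z|²/2h`. -/
noncomputable def hlM (w : ℝ → F → ℝ) (h t : ℝ) (y : F) : ℝ :=
  -hlP (mir w) h (-t) y

/-- The forward slope. -/
noncomputable def Sp (w : ℝ → F → ℝ) (h t : ℝ) (y : F) : ℝ :=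
  (hlP w h t y - w t y) / h

/-- The backward slope. -/
noncomputable def Sm (w : ℝ → F → ℝ) (h t : ℝ) (y : F) : ℝ :=
  (w t y - hlM w h t y) / h

/-- The forward slopes increase with the step. -/
def Mono (w : ℝ → F → ℝ) : Prop :=
  ∀ t y, MonotoneOn (fun h => Sp w h t y) (Ioi 0)

/-- The slope pair `(b, v)` fits `w` on the window of radius `r` at `(t, y)` within `C r`. -/
def IsWin (C : ℝ) (w : ℝ → F → ℝ) (t : ℝ) (y : F) (r b : ℝ) (v : F) : Prop :=
  ∀ (τ : ℝ) (z : F), |τ| ≤ r → ‖z‖ ≤ r →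
    |w (t + τ) (y + τ • v + z) - w t y - (b + ‖v‖ ^ 2 / 2) * τ - ⟪v, z⟫| ≤ C * r

/-- At every point and every scale `r` the function is within `C r` of an affine function on the
window of radius `r` moving with the lateral slope. -/
def Window (C : ℝ) (w : ℝ → F → ℝ) : Prop :=
  ∀ t y r, 0 < r → ∃ (b : ℝ) (v : F), IsWin C w t y r b v

/-- The function seen backwards in time from `(t, y)` in the frame of velocity `k`. -/
noncomputable def back (w : ℝ → F → ℝ) (t : ℝ) (y k : F) (σ : ℝ) (z : F) : ℝ :=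
  w (t - σ) (y - σ • k + z) - ⟪k, z⟫ + ‖k‖ ^ 2 / 2 * σ

/-- Comparison backwards in time with the strict supersolutions `c + Kσ - Lσ² + M|z|²`. -/
def Barrier (w : ℝ → F → ℝ) : Prop :=
  ∀ (t : ℝ) (y k : F) (T R L M c K : ℝ), 0 < T → 0 < R → 0 ≤ M → 4 * M ^ 3 * R ^ 2 < L →
    (∀ (σ : ℝ) (z : F), 0 ≤ σ → σ ≤ T → ‖z‖ ≤ R → σ = 0 ∨ σ = T ∨ ‖z‖ = R →
      back w t y k σ z ≤ c + K * σ - L * σ ^ 2 + M * ‖z‖ ^ 2) →
    ∀ (σ : ℝ) (z : F), 0 ≤ σ → σ ≤ T → ‖z‖ ≤ R →
      back w t y k σ z ≤ c + K * σ - L * σ ^ 2 + M * ‖z‖ ^ 2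

/-- The class `E(C)` of profiles. -/
structure Prof (C : ℝ) (w : ℝ → F → ℝ) : Prop where
  mono : Mono w
  mono_mir : Mono (mir w)
  window : Window C w
  barrier : Barrier w
  barrier_mir : Barrier (mir w)

/-! The invariances. -/

/-- Translation of the base point to the origin. -/
def shift (w : ℝ → F → ℝ) (t₀ : ℝ) (y₀ : F) : ℝ → F → ℝ :=
  fun t y => w (t₀ + t) (y₀ + y) - w t₀ y₀

/-- The Galilean change of frame with velocity `k`. -/
noncomputable def boost (w : ℝ → F → ℝ) (k : F) : ℝ → F → ℝ :=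
  fun t y => w t (y + t • k) - ⟪k, y⟫ - ‖k‖ ^ 2 / 2 * t

/-- Addition of an affine function of the time. -/
def tilt (w : ℝ → F → ℝ) (b : ℝ) : ℝ → F → ℝ :=
  fun t y => w t y + b * t

/-- The blow-up by the factor `l`. -/
noncomputable def rescale (w : ℝ → F → ℝ) (l : ℝ) : ℝ → F → ℝ :=
  fun t y => w (l * t) (l • y) / l

/-! Stencils: finitely many weighted atoms around a centre in one time slice. -/

variable {ι : Type*} [Fintype ι]

/-- Weights of total mass one and offsets with vanishing mean. -/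
def IsStencil (l : ι → ℝ) (η : ι → F) : Prop :=
  (∀ i, 0 ≤ l i) ∧ ∑ i, l i = 1 ∧ ∑ i, l i • η i = 0

/-- The root mean square spread. -/
noncomputable def spread (l : ι → ℝ) (η : ι → F) : ℝ :=
  Real.sqrt (∑ i, l i * ‖η i‖ ^ 2)

/-- The Jensen gap of the slice at time `t` around `y`. -/
def gap (w : ℝ → F → ℝ) (t : ℝ) (y : F) (l : ι → ℝ) (η : ι → F) : ℝ :=
  ∑ i, l i * w t (y + η i) - w t y

/-- The potential: the atoms after one forward step minus the centre after two backward steps. -/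
noncomputable def pot (w : ℝ → F → ℝ) (s t : ℝ) (y : F) (l : ι → ℝ) (η : ι → F) : ℝ :=
  ∑ i, l i * hlP w s t (y + η i) - hlM w (2 * s) t y

/-- No stencil of `w` has a gap above `G` times its spread. -/
def GapLe (G : ℝ) (w : ℝ → F → ℝ) : Prop :=
  ∀ (m : ℕ) (t : ℝ) (y : F) (l : Fin m → ℝ) (η : Fin m → F), IsStencil l η →
    gap w t y l η ≤ G * spread l η

/-- A stencil attaining the bound `G`. -/
def Saturated (G : ℝ) (w : ℝ → F → ℝ) (t : ℝ) (y : F) (l : ι → ℝ) (η : ι → F) : Prop :=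
  IsStencil l η ∧ gap w t y l η = G * spread l η

end Vale.Agent.P080.C1
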