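import Vale.Agent.P080.Flat.Bridge

/-!
P080, full C¹: flat windows of an infinity-harmonic function on `E` itself.
-/

namespace Vale.Agent.P080.C1

open Metric Set
open scoped RealInnerProductSpace

variable {E : Type*} [NormedAddCommGroup E] [InnerProductSpace ℝ E] [FiniteDimensional ℝ E]

/-- A continuous viscosity solution on `s`, with all test functions. -/
structure Visc (s : Set E) (u : E → ℝ) : Prop where
  cont : ContinuousOn u s
  sub : ∀ z ∈ s, ∀ φ : E → ℝ, ContDiff ℝ 2 φ → IsLocalMax (fun y => u y - φ y) z →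
    0 ≤ fderiv ℝ (fderiv ℝ φ) z (gradient φ z) (gradient φ z)
  sup : ∀ z ∈ s, ∀ φ : E → ℝ, ContDiff ℝ 2 φ → IsLocalMin (fun y => u y - φ y) z →
    fderiv ℝ (fderiv ℝ φ) z (gradient φ z) (gradient φ z) ≤ 0

/-- Around `x` the function is within `δ T |p|` of the slope `p` on the window of length `T` and
width `4 T √δ` along `p`. -/
def FitWin (u : E → ℝ) (x p : E) (T δ : ℝ) : Prop :=
  ∀ d : E, |⟪p, d⟫| ≤ T * ‖p‖ → ‖d - (⟪p, d⟫ / ‖p‖ ^ 2) • p‖ ≤ 4 * T * Real.sqrt δ →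
    |u (x + d) - u x - ⟪p, d⟫| ≤ δ * T * ‖p‖

/-- Every point of `s` has a window with slope of length between one quarter and four. -/
def FlatOn (s : Set E) (u : E → ℝ) (T δ : ℝ) : Prop :=
  ∀ x ∈ s, ∃ p : E, 1 / 4 ≤ ‖p‖ ∧ ‖p‖ ≤ 4 ∧ FitWin u x p T δ

/-- Unit-length windows at every centre of the ball of radius four, with any slope of moderate
length: the standing hypothesis at the unit scale. -/
def Flat₁ (u : E → ℝ) (δ : ℝ) : Prop :=
  ∀ x ∈ ball (0 : E) 4, ∃ p : E, 1 / 16 ≤ ‖p‖ ∧ ‖p‖ ≤ 16 ∧ FitWin u x p 1 δ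

end Vale.Agent.P080.C1
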