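import Vale.Agent.P080.C1.HopfLax

/-!
A9: a point with constant slopes at all steps makes the profile affine.
-/

namespace Vale.Agent.P080.C1

open Set Filter Topology
open scoped RealInnerProductSpace

set_option linter.unusedSectionVars false

variable {F : Type*} [NormedAddCommGroup F] [InnerProductSpace ℝ F] [FiniteDimensional ℝ F]
variable {C : ℝ} {w : ℝ → F → ℝ}

/-- Velocities of the large windows at a fixed point grow at most logarithmically. -/
theorem window_vel_log (hw : Prof C w) (t : ℝ) (y : F) :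
    ∃ D : ℝ, 0 ≤ D ∧ ∀ (H b : ℝ) (v : F), 1 ≤ H → IsWin C w t y H b v →
      ‖v‖ ≤ D * (1 + Real.log H) := by
  obtain ⟨cs, hcs, hs⟩ := drift_space (F := F) C
  obtain ⟨cl, hcl, hl⟩ := drift_scale (F := F) C
  obtain ⟨b₁, v₁, h₁⟩ := hw.window 0 0 1 one_pos
  set A := ‖v₁‖ + cl
  set q₀ := |t| + ‖y‖ + |t| * A
  have hA : 0 ≤ A := by positivity
  have hq₀ : 0 ≤ q₀ := by positivity
  refine ⟨A + cs * (1 + q₀ + |t| * A), by positivity, fun H b v hH hv => ?_⟩
  obtain ⟨b₀, v₀, h₀⟩ := hw.window 0 0 H (by linarith)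
  have hlog : 0 ≤ Real.log H := Real.log_nonneg hH
  have e1 := (hl hw (by norm_num : (0:ℝ) < 1) hH h₀ h₁).1
  rw [div_one] at e1
  have hv₀ : ‖v₀‖ ≤ A * (1 + Real.log H) := by
    have e2 := norm_le_norm_add_norm_sub v₁ v₀
    nlinarith [mul_nonneg (norm_nonneg v₁) hlog]
  have hv' : IsWin C w (0 + t) (0 + t • v₀ + (y - t • v₀)) H b v := by
    rw [zero_add, zero_add, add_sub_cancel]; exact hv
  set q := (|t| + ‖y - t • v₀‖) / H
  have e3 := (hs hw (by linarith) h₀ t (y - t • v₀) hv' q rfl).1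
  have hq : 0 ≤ q := by positivity
  have hq1 : q ≤ q₀ + |t| * A := by
    have e4 : ‖y - t • v₀‖ ≤ ‖y‖ + |t| * (A * (1 + Real.log H)) := by
      refine (norm_sub_le _ _).trans (add_le_add le_rfl ?_)
      rw [norm_smul, Real.norm_eq_abs]
      exact mul_le_mul_of_nonneg_left hv₀ (abs_nonneg t)
    have e5 : Real.log H ≤ H := Real.log_le_self (by linarith)
    have e6 : (|t| + ‖y‖) ≤ (|t| + ‖y‖) * H := le_mul_of_one_le_right (by positivity) hH
    rw [div_le_iff₀ (by linarith)]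
    nlinarith [mul_nonneg (abs_nonneg t) hA]
  have e7 : Real.log (1 + q) ≤ q := by linarith [Real.log_le_sub_one_of_pos (by linarith : 0 < 1 + q)]
  have e8 := norm_le_norm_add_norm_sub v₀ v
  rw [norm_sub_rev] at e3
  nlinarith [mul_nonneg hcs.le hlog, mul_nonneg hq₀ hlog, mul_nonneg (abs_nonneg t) hA,
    mul_nonneg (abs_nonneg t) hlog, mul_le_mul_of_nonneg_left (e7.trans hq1) hcs.le]

/-- A point with forward slope `c` at all steps bounds every forward slope by `c`. -/
theorem Sp_le_of_flat (hw : Prof C w) {c : ℝ} (hp : ∀ h, 0 < h → Sp w h 0 0 = c) :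
    ∀ (t : ℝ) (y : F) (h : ℝ), 0 < h → Sp w h t y ≤ c := by
  intro t y h hh
  obtain ⟨k, hk, hb⟩ := hlP_bound (F := F) C
  obtain ⟨D, hD, hv⟩ := window_vel_log hw t y
  set a := w 0 0 - w t y + c * t
  -- the loss at the step `H`
  set err : ℝ → ℝ := fun H => |a| / H + (‖y‖ ^ 2 / H ^ 2 + 2 * ‖y‖ * ((D + k) * (1 + Real.log H)) / H)
      + |t| * (((D + k) * (1 + Real.log H)) ^ 2 / H)
  have key : ∀ H, h ≤ H → 1 ≤ H → 2 * |t| ≤ H → Sp w h t y ≤ c + err H := by
    intro H hhH hH1 ht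
    have hH : 0 < H := by linarith
    refine (hw.mono t y hh hH hhH).trans ?_
    obtain ⟨b, v, hv'⟩ := hw.window t y H hH
    obtain ⟨z, hz⟩ := hlP_attained hw hH t y
    have hzb := (hb hw hH hv').2.2.1 z hz
    set V := (D + k) * (1 + Real.log H) with hV
    have hlog : 0 ≤ Real.log H := Real.log_nonneg hH1
    have hzV : ‖z‖ ≤ V * H := by
      have e1 := norm_le_norm_add_norm_sub (H • v) z
      rw [norm_smul, Real.norm_of_nonneg hH.le, norm_sub_rev] at e1
      have e2 := mul_le_mul_of_nonneg_left (hv H b v hH1 hv') hH.le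
      nlinarith [mul_nonneg (mul_nonneg hk.le hlog) hH.le]
    have htH : 0 < t + H := by linarith [neg_abs_le t, abs_nonneg t]
    have e3 := le_hlP hw htH 0 0 (y + z)
    rw [zero_add, zero_add] at e3
    have e4 := hp _ htH
    rw [Sp, div_eq_iff htH.ne'] at e4
    have e5 : ‖y + z‖ ^ 2 / (2 * (t + H)) - ‖z‖ ^ 2 / (2 * H) ≤
        ‖y‖ ^ 2 / H + 2 * ‖y‖ * V + |t| * V ^ 2 := by
      have hn : ‖y + z‖ ^ 2 ≤ (‖y‖ + ‖z‖) ^ 2 :=
        pow_le_pow_left₀ (norm_nonneg _) (norm_add_le y z) 2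
      have h2 : H ≤ 2 * (t + H) := by linarith [neg_abs_le t]
      rw [div_sub_div _ _ (by positivity) (by positivity), div_le_iff₀ (by positivity)]
      have hr : 0 ≤ ‖y‖ ^ 2 / H + 2 * ‖y‖ * V + |t| * V ^ 2 := by
        have : 0 ≤ V := by positivity
        positivity
      have hfac := mul_le_mul_of_nonneg_left
        (mul_le_mul_of_nonneg_right h2 (by positivity : (0:ℝ) ≤ 2 * H)) hr
      have hid : (‖y‖ ^ 2 / H + 2 * ‖y‖ * V + |t| * V ^ 2) * (H * (2 * H)) =
          2 * H * ‖y‖ ^ 2 + 4 * H ^ 2 * ‖y‖ * V + 2 * |t| * (V * H) ^ 2 := by field_simp; ring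
      nlinarith [mul_le_mul_of_nonneg_left hn (by positivity : (0:ℝ) ≤ 2 * H),
        mul_le_mul_of_nonneg_left hzV (by positivity : (0:ℝ) ≤ 4 * H * ‖y‖),
        mul_le_mul_of_nonneg_right (neg_abs_le t) (sq_nonneg ‖z‖),
        mul_le_mul_of_nonneg_left (pow_le_pow_left₀ (norm_nonneg z) hzV 2)
          (by positivity : (0:ℝ) ≤ 2 * |t|)]
    have e6 : err H * H = |a| + (‖y‖ ^ 2 / H + 2 * ‖y‖ * V + |t| * V ^ 2) := by
      simp only [err, hV]; field_simp; ring
    show (hlP w H t y - w t y) / H ≤ c + err H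
    rw [div_le_iff₀ hH, add_mul, e6, hz]
    linarith [le_abs_self a]
  have hlim : Tendsto (fun H => c + err H) atTop (𝓝 c) := by
    have l1 : Tendsto (fun H : ℝ => Real.log H / H) atTop (𝓝 0) :=
      Real.isLittleO_log_id_atTop.tendsto_div_nhds_zero
    have l2 : Tendsto (fun H : ℝ => Real.log H ^ 2 / H) atTop (𝓝 0) :=
      (Real.isLittleO_pow_log_id_atTop (n := 2)).tendsto_div_nhds_zero
    have l0 : Tendsto (fun H : ℝ => H⁻¹) atTop (𝓝 0) := tendsto_inv_atTop_zero
    have := (((l0.const_mul |a|).add (((l0.mul l0).const_mul (‖y‖ ^ 2)).add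
      ((l0.add l1).const_mul (2 * ‖y‖ * (D + k))))).add
        (((l0.add (l1.const_mul 2)).add l2).const_mul (|t| * (D + k) ^ 2))).const_add c
    convert this using 2 with H
    · simp only [err]; ring
    · ring
  refine ge_of_tendsto hlim ?_
  filter_upwards [eventually_ge_atTop h, eventually_ge_atTop 1, eventually_ge_atTop (2 * |t|)]
    with H a b c using key H a b c

/-- A bound on all forward slopes is the one-step inequality. -/
theorem step_le {c : ℝ} (hw : Prof C w) (hS : ∀ (t : ℝ) (y : F) (h : ℝ), 0 < h → Sp w h t y ≤ c)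
    {t h : ℝ} (hh : 0 < h) (y z : F) :
    w (t + h) (y + z) ≤ w t y + c * h + ‖z‖ ^ 2 / (2 * h) := by
  have e := hS t y h hh
  rw [Sp, div_le_iff₀ hh] at e
  linarith [le_hlP hw hh t y z]

theorem flat_mir_mir (w : ℝ → F → ℝ) : mir (mir w) = w := by
  funext t y; simp [mir]

theorem flat_Sp_mir (w : ℝ → F → ℝ) (h : ℝ) (t : ℝ) (y : F) : Sp (mir w) h t y = Sm w h (-t) y := by
  simp only [Sp, Sm, hlM, neg_neg, mir]; ring

theorem flat_Sm_mir (w : ℝ → F → ℝ) (h : ℝ) (t : ℝ) (y : F) : Sm (mir w) h t y = Sp w h (-t) y := by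
  simp only [Sp, Sm, hlM, flat_mir_mir]; simp only [mir]; ring

/-- Half of the equality of the two slopes. -/
theorem flat_slope_le (hw : Prof C w) {c c' : ℝ} (hp : ∀ h, 0 < h → Sp w h 0 0 = c)
    (hm : ∀ h, 0 < h → Sm w h 0 0 = c') : c' ≤ c := by
  obtain ⟨z, hz⟩ := hlM_attained hw one_pos 0 (0 : F)
  have e := step_le hw (Sp_le_of_flat hw hp) (t := 0 - 1) one_pos (0 + z) (-z)
  rw [norm_neg, sub_add_cancel, add_neg_cancel_right] at e
  have := hm 1 one_pos
  rw [Sm, div_one] at this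
  linarith

/-- The flat point lemma. -/
theorem flat_point_affine (hw : Prof C w) {c c' : ℝ} (hp : ∀ h, 0 < h → Sp w h 0 0 = c)
    (hm : ∀ h, 0 < h → Sm w h 0 0 = c') :
    ∃ (a b : ℝ) (v : F), ∀ t y, w t y = a + b * t + ⟪v, y⟫ := by
  have h1 := flat_slope_le hw hp hm
  have h2 := flat_slope_le hw.mirror (c := c') (c' := c)
    (fun h hh => by rw [flat_Sp_mir, neg_zero]; exact hm h hh)
    (fun h hh => by rw [flat_Sm_mir, neg_zero]; exact hp h hh)
  obtain rfl : c = c' := le_antisymm h2 h1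
  have hst := fun {t h : ℝ} (hh : 0 < h) (y z : F) => step_le hw (Sp_le_of_flat hw hp) (t := t) hh y z
  -- the exact forward and backward points lie on one line
  have hpos : ∀ h, 0 < h → ∃ z : F, w h z = w 0 0 + c * h + ‖z‖ ^ 2 / (2 * h) := by
    intro h hh
    obtain ⟨z, hz⟩ := hlP_attained hw hh 0 (0 : F)
    have e := hp h hh
    rw [Sp, div_eq_iff hh.ne', hz, zero_add, zero_add] at e
    exact ⟨z, by linarith⟩
  have hneg : ∀ h, 0 < h → ∃ z : F, w (-h) z = w 0 0 - c * h - ‖z‖ ^ 2 / (2 * h) := by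
    intro h hh
    obtain ⟨z, hz⟩ := hlM_attained hw hh 0 (0 : F)
    have e := hm h hh
    rw [Sm, div_eq_iff hh.ne', hz, zero_sub, zero_add] at e
    exact ⟨z, by linarith⟩
  have opp : ∀ {h h' : ℝ} {p m : F}, 0 < h → 0 < h' →
      w h p = w 0 0 + c * h + ‖p‖ ^ 2 / (2 * h) →
      w (-h') m = w 0 0 - c * h' - ‖m‖ ^ 2 / (2 * h') → h' • p + h • m = 0 := by
    intro h h' p m hh hh' ep em
    have e := hst (t := -h') (by linarith : 0 < h + h') m (p - m)
    rw [add_sub_cancel, show -h' + (h + h') = h by ring, ep, em] at e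
    have e2 : ‖p‖ ^ 2 / (2 * h) + ‖m‖ ^ 2 / (2 * h') - ‖p - m‖ ^ 2 / (2 * (h + h')) =
        ‖h' • p + h • m‖ ^ 2 / (2 * h * h' * (h + h')) := by
      simp only [norm_add_sq_real, norm_sub_sq_real, norm_smul, inner_smul_left, inner_smul_right,
        Real.norm_eq_abs, abs_of_pos hh, abs_of_pos hh', RCLike.conj_to_real]
      field_simp
      ring
    have e3 : ‖h' • p + h • m‖ ^ 2 / (2 * h * h' * (h + h')) ≤ 0 := by linarith
    rw [div_le_iff₀ (by positivity), zero_mul] at e3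
    exact norm_eq_zero.1 (pow_eq_zero_iff two_ne_zero |>.1 (le_antisymm e3 (sq_nonneg _)))
  obtain ⟨k, hk⟩ := hpos 1 one_pos
  obtain ⟨m₁, hm₁⟩ := hneg 1 one_pos
  have hmk : m₁ = -k := by
    have := opp one_pos one_pos hk hm₁
    rw [one_smul, one_smul] at this
    exact eq_neg_of_add_eq_zero_right this
  have line : ∀ s : ℝ, w s (s • k) = w 0 0 + c * s + ‖k‖ ^ 2 / 2 * s := by
    intro s
    rcases lt_trichotomy s 0 with hs | hs | hs
    · obtain ⟨m, hms⟩ := hneg (-s) (by linarith)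
      have := opp one_pos (by linarith : 0 < -s) hk hms
      rw [one_smul, neg_smul, neg_add_eq_zero] at this
      rw [neg_neg, ← this, norm_smul, Real.norm_eq_abs, mul_pow, sq_abs] at hms
      rw [hms]; field_simp; ring
    · simp [hs]
    · obtain ⟨p, hps⟩ := hpos s hs
      have := opp hs one_pos hps hm₁
      rw [one_smul, hmk, smul_neg, ← sub_eq_add_neg, sub_eq_zero] at this
      rw [this, norm_smul, Real.norm_eq_abs, mul_pow, sq_abs] at hps
      rw [hps]; field_simp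
  refine ⟨w 0 0, c - ‖k‖ ^ 2 / 2, k, fun t y => ?_⟩
  set d := y - t • k with hd
  have hy : y = t • k + d := by rw [hd]; abel
  have hsq : ∀ n : ℝ, n ≠ 0 → ‖n • k + d‖ ^ 2 / (2 * n) =
      ‖k‖ ^ 2 / 2 * n + ⟪k, d⟫ + ‖d‖ ^ 2 / 2 * n⁻¹ := by
    intro n hn
    rw [norm_add_sq_real, norm_smul, inner_smul_left, Real.norm_eq_abs, mul_pow, sq_abs,
      RCLike.conj_to_real]
    field_simp
  have lim : ∀ r : ℝ, Tendsto (fun n : ℝ => r + ‖d‖ ^ 2 / 2 * n⁻¹) atTop (𝓝 r) := fun r => by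
    simpa using (tendsto_inv_atTop_zero.const_mul (‖d‖ ^ 2 / 2)).const_add r
  set r := w 0 0 + c * t + ‖k‖ ^ 2 / 2 * t + ⟪k, d⟫ with hr
  have up : w t y ≤ r := by
    refine ge_of_tendsto (lim r) ?_
    filter_upwards [eventually_gt_atTop 0] with n hn
    have e := hst (t := t - n) hn ((t - n) • k) (n • k + d)
    rw [sub_add_cancel, ← add_assoc, ← add_smul, sub_add_cancel, ← hy, line, hsq n hn.ne'] at e
    linarith
  have lo : r ≤ w t y := by
    have := le_of_tendsto ((tendsto_inv_atTop_zero.const_mul (‖d‖ ^ 2 / 2)).const_sub r)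
      (b := w t y) ?_
    · simpa using this
    filter_upwards [eventually_gt_atTop 0] with n hn
    have e := hst (t := t) hn y ((t + n) • k - y)
    rw [add_sub_cancel, line, show (t + n) • k - y = -((-n) • k + d) by rw [hd]; module, norm_neg,
      show 2 * n = -(2 * -n) by ring, div_neg, hsq (-n) (by linarith), inv_neg] at e
    linarith
  have hi : ⟪k, d⟫ = ⟪k, y⟫ - t * ‖k‖ ^ 2 := by
    rw [hd, inner_sub_right, inner_smul_right, real_inner_self_eq_norm_sq]
  rw [le_antisymm up lo, hr, hi]; ring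

end Vale.Agent.P080.C1
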