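import Vale.Agent.P080.C1.Fin

/-!
B8: from a Hölder gradient near flat points to the interior estimate and `C¹` everywhere.
-/

namespace Vale.Agent.P080.C1

open Metric Set Flat
open scoped RealInnerProductSpace

set_option linter.unusedSectionVars false

/-- Where a solution is `ε|p|`-close to slope `p` on a ball, its gradient is Hölder on a smaller
concentric ball. -/
def FlatHolder (E : Type) [NormedAddCommGroup E] [InnerProductSpace ℝ E] [FiniteDimensional ℝ E]
    (ε m α c : ℝ) : Prop :=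
  ∀ (u : E → ℝ) (x p : E) (σ : ℝ), 0 < σ → p ≠ 0 → Visc (ball x σ) u →
    (∀ y ∈ ball x σ, |u y - u x - ⟪p, y - x⟫| ≤ ε * σ * ‖p‖) →
    ∀ z ∈ ball x (m * σ), ∀ w ∈ ball x (m * σ),
      DifferentiableAt ℝ u z ∧
        ‖gradient u z - gradient u w‖ ≤ c * ‖p‖ * (dist z w / σ) ^ α

variable {E : Type} [NormedAddCommGroup E] [InnerProductSpace ℝ E] [FiniteDimensional ℝ E]

theorem Visc.mono {s t : Set E} {u : E → ℝ} (h : Visc s u) (hts : t ⊆ s) : Visc t u :=
  ⟨h.cont.mono hts, fun z hz => h.sub z (hts hz), fun z hz => h.sup z (hts hz)⟩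

theorem Visc.neg_sub {s : Set E} {u : E → ℝ} (h : Visc s u) :
    ∀ z ∈ s, ∀ φ : E → ℝ, ContDiff ℝ 2 φ → IsLocalMax (fun y => -u y - φ y) z →
      0 ≤ fderiv ℝ (fderiv ℝ φ) z (gradient φ z) (gradient φ z) := by
  intro z hz φ hφ hmax
  have h1 := h.sup z hz (fun y => -φ y) hφ.neg
    (hmax.neg.congr (Filter.Eventually.of_forall fun y => by simp; ring))
  rw [infLap_neg] at h1
  linarith

theorem norm_gradient_eq (u : E → ℝ) (z : E) : ‖gradient u z‖ = ‖fderiv ℝ u z‖ := by
  rw [gradient, LinearIsometryEquiv.norm_map]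

theorem norm_gradient_le {u : E → ℝ} {x : E} {σ L : ℝ} (hL : 0 ≤ L)
    (hlip : ∀ y ∈ ball x σ, ∀ z ∈ ball x σ, u y - u z ≤ L * dist y z) {z : E}
    (hz : z ∈ ball x σ) : ‖gradient u z‖ ≤ L := by
  rw [norm_gradient_eq]
  refine norm_fderiv_le_of_lip' ℝ hL ?_
  filter_upwards [isOpen_ball.mem_nhds hz] with y hy
  rw [← dist_eq_norm, ← dist_eq_norm, Real.dist_eq, abs_le]
  have := hlip z hz y hy
  rw [dist_comm] at this
  exact ⟨by linarith, hlip y hy z hz⟩

/-- Either the gradient is Hölder close by, or the Lipschitz constant drops. -/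
theorem dichotomy {ε m α c : ℝ} (hε : 0 < ε) (hm : 0 < m) (hα : 0 ≤ α) (hc : 0 ≤ c)
    (H : FlatHolder E ε m α c) :
    ∃ ν : ℝ, 0 < ν ∧ ν ≤ 1 / 4 ∧ ∀ (u : E → ℝ) (x : E) (σ L : ℝ), 0 < σ → 0 ≤ L →
      Visc (ball x σ) u → (∀ y ∈ ball x σ, ∀ z ∈ ball x σ, u y - u z ≤ L * dist y z) →
      (∀ y ∈ ball x (ν * σ), ∀ z ∈ ball x (ν * σ), DifferentiableAt ℝ u y ∧
        ‖gradient u y - gradient u z‖ ≤ c * (2 * L) * (dist y z / (ν * σ)) ^ α) ∨
      (∀ y ∈ ball x (ν * σ), ∀ z ∈ ball x (ν * σ), u y - u z ≤ 3 / 4 * L * dist y z) := by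
  set e := min (ε / 4) (1 / 32) with he
  have he0 : 0 < e := lt_min (by linarith) (by norm_num)
  obtain ⟨θ₀, hθ₀, hflat⟩ := uniform_flat he0
  set θ := min θ₀ (1 / 4) with hθdef
  have hθ : 0 < θ := lt_min hθ₀ (by norm_num)
  set k := min m (1 / 8) with hkdef
  have hk : 0 < k := lt_min hm (by norm_num)
  have hk8 : k ≤ 1 / 8 := min_le_right _ _
  have hθ4 : θ ≤ 1 / 4 := min_le_right _ _
  refine ⟨k * θ, by positivity, by nlinarith, fun u x σ L hσ hL hu hlip => ?_⟩
  set r := θ * σ with hrdef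
  have hr : 0 < r := by positivity
  have hr4 : r ≤ σ / 4 := by rw [hrdef]; nlinarith
  have hνr : k * θ * σ ≤ r / 8 := by
    rw [mul_assoc, ← hrdef]; nlinarith [mul_le_mul_of_nonneg_right hk8 hr.le]
  have hνm : k * θ * σ ≤ m * r := by
    rw [mul_assoc, ← hrdef]; exact mul_le_mul_of_nonneg_right (min_le_left _ _) hr.le
  obtain ⟨p, hp⟩ := (hflat x σ (2 * L * σ) u hσ hu.cont hu.sub hu.sup (fun z hz w hw =>
      (hlip z hz w hw).trans (by
        rw [mem_ball] at hz hw
        nlinarith [dist_triangle_right z w x]))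
    x (mem_closedBall_self (by linarith))).2 r hr
    (mul_le_mul_of_nonneg_right (min_le_left _ _) hσ.le)
  have hE : e * (2 * L * σ) / σ * r = 2 * e * L * r := by field_simp
  simp only [hE] at hp
  have hsub : closedBall x r ⊆ ball x σ := closedBall_subset_ball (by linarith)
  have hes : e ≤ 1 / 32 := min_le_right _ _
  rcases lt_or_ge (L / 2) ‖p‖ with hbig | hsmall
  · left
    have hp0 : p ≠ 0 := by
      rintro rfl; rw [norm_zero] at hbig; linarith
    have hn : 0 < ‖p‖ := norm_pos_iff.2 hp0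
    have hyr : x + (r / ‖p‖) • p ∈ closedBall x r := by
      rw [mem_closedBall, dist_eq_norm, add_sub_cancel_left, norm_smul,
        Real.norm_of_nonneg (by positivity), div_mul_cancel₀ _ hn.ne']
    have hp2 : ‖p‖ ≤ 2 * L := by
      have h1 := (abs_le.1 (hp _ hyr)).1
      have h2 := hlip _ (hsub hyr) x (mem_ball_self hσ)
      rw [add_sub_cancel_left, real_inner_smul_right, real_inner_self_eq_norm_sq] at h1
      have h3 : r / ‖p‖ * ‖p‖ ^ 2 = r * ‖p‖ := by field_simp
      rw [mem_closedBall] at hyr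
      have h4 := mul_le_mul_of_nonneg_left hyr hL
      have h5 : r * ‖p‖ ≤ (2 * L) * r := by
        nlinarith [mul_le_mul_of_nonneg_right hes (mul_nonneg hL hr.le)]
      nlinarith
    have hH := H u x p r hr hp0 (hu.mono (ball_subset_closedBall.trans hsub)) fun y hy =>
      (hp y (ball_subset_closedBall hy)).trans (by
        nlinarith [mul_le_mul_of_nonneg_right (min_le_left (ε / 4) (1 / 32)) (mul_nonneg hr.le hL),
          mul_le_mul_of_nonneg_left hbig.le (mul_nonneg hε.le hr.le)])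
    intro y hy z hz
    obtain ⟨hd, hg⟩ := hH y (ball_subset_ball hνm hy) z (ball_subset_ball hνm hz)
    refine ⟨hd, hg.trans ?_⟩
    have hmono : (dist y z / r) ^ α ≤ (dist y z / (k * θ * σ)) ^ α := by
      refine Real.rpow_le_rpow (by positivity) ?_ hα
      exact div_le_div_of_nonneg_left dist_nonneg (by positivity) (by linarith)
    exact mul_le_mul (mul_le_mul_of_nonneg_left hp2 hc) hmono (Real.rpow_nonneg (by positivity) _)
      (by positivity)
  · right
    intro y hy z hz
    rw [mem_ball] at hy hz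
    have hsub' : closedBall z (r / 2) ⊆ ball x σ :=
      (closedBall_subset_closedBall' (by linarith)).trans hsub
    have hcone := cone_le hu.cont hu.sub (b := u z) hsub' (by positivity : 0 ≤ 3 / 4 * L) le_rfl
      (fun w hw => by
        rw [mem_sphere, dist_eq_norm] at hw
        have hwx : w ∈ closedBall x r := by
          rw [mem_closedBall]
          linarith [dist_triangle w z x, (dist_eq_norm w z).trans hw]
        have hzx : z ∈ closedBall x r := by rw [mem_closedBall]; linarith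
        have h1 := (abs_le.1 (hp w hwx)).2
        have h2 := (abs_le.1 (hp z hzx)).1
        have h3 : ⟪p, w - z⟫ = ⟪p, w - x⟫ - ⟪p, z - x⟫ := by
          rw [← inner_sub_right, sub_sub_sub_cancel_right]
        have h4 := real_inner_le_norm p (w - z)
        rw [hw] at h4
        nlinarith [mul_le_mul_of_nonneg_right hsmall (by linarith : (0 : ℝ) ≤ r / 2),
          mul_le_mul_of_nonneg_right hes (mul_nonneg hL hr.le)])
      (x := y) (by linarith [dist_triangle_right y z x])
    linarith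

/-- A solution with a Lipschitz bound is differentiable at the centre. -/
theorem differentiableAt_centre {ν α c : ℝ} (hν : 0 < ν) (hν1 : ν ≤ 1 / 4)
    (D : ∀ (u : E → ℝ) (x : E) (σ L : ℝ), 0 < σ → 0 ≤ L →
      Visc (ball x σ) u → (∀ y ∈ ball x σ, ∀ z ∈ ball x σ, u y - u z ≤ L * dist y z) →
      (∀ y ∈ ball x (ν * σ), ∀ z ∈ ball x (ν * σ), DifferentiableAt ℝ u y ∧
        ‖gradient u y - gradient u z‖ ≤ c * (2 * L) * (dist y z / (ν * σ)) ^ α) ∨
      (∀ y ∈ ball x (ν * σ), ∀ z ∈ ball x (ν * σ), u y - u z ≤ 3 / 4 * L * dist y z))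
    {u : E → ℝ} {x : E} {σ L : ℝ} (hσ : 0 < σ) (hL : 0 ≤ L) (hu : Visc (ball x σ) u)
    (hlip : ∀ y ∈ ball x σ, ∀ z ∈ ball x σ, u y - u z ≤ L * dist y z) :
    DifferentiableAt ℝ u x := by
  by_contra hnd
  have hall : ∀ n : ℕ, ∀ y ∈ ball x (ν ^ n * σ), ∀ z ∈ ball x (ν ^ n * σ),
      u y - u z ≤ (3 / 4) ^ n * L * dist y z := by
    intro n
    induction n with
    | zero => simpa using hlip
    | succ n ih =>
      have hsub : ball x (ν ^ n * σ) ⊆ ball x σ :=
        ball_subset_ball (mul_le_of_le_one_left hσ.le (pow_le_one₀ hν.le (by linarith)))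
      rcases D u x _ _ (by positivity) (by positivity) (hu.mono hsub) ih with h | h
      · exact absurd (h x (mem_ball_self (by positivity)) x (mem_ball_self (by positivity))).1 hnd
      · intro y hy z hz
        rw [pow_succ', mul_assoc] at hy hz
        exact (h y hy z hz).trans_eq (by ring)
  refine hnd (HasFDerivAt.differentiableAt (f' := 0)
    (.of_isLittleO (Asymptotics.isLittleO_iff.2 fun e he => ?_)))
  obtain ⟨n, hn⟩ := exists_pow_lt_of_lt_one (y := (3 / 4 : ℝ))
    (div_pos he (by linarith : 0 < L + 1)) (by norm_num)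
  rw [lt_div_iff₀ (by linarith)] at hn
  have hr : 0 < ν ^ n * σ := by positivity
  filter_upwards [ball_mem_nhds x hr] with y hy
  rw [zero_apply, sub_zero, Real.norm_eq_abs, ← dist_eq_norm, abs_le]
  have h1 := hall n y hy x (mem_ball_self hr)
  have h2 := hall n x (mem_ball_self hr) y hy
  rw [dist_comm] at h2
  have hq : (3 / 4 : ℝ) ^ n * L ≤ e := by
    nlinarith [pow_nonneg (show (0 : ℝ) ≤ 3 / 4 by norm_num) n]
  have h3 := mul_le_mul_of_nonneg_right hq (dist_nonneg (x := y) (y := x))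
  constructor <;> linarith

/-- Hölder continuity of the gradient at the centre of a ball with a Lipschitz bound. -/
theorem gradient_centre {ε m α c : ℝ} (hε : 0 < ε) (hm : 0 < m) (hα : 0 < α) (hc : 0 ≤ c)
    (H : FlatHolder E ε m α c) : ∃ β C : ℝ, 0 < β ∧ 2 ≤ C ∧
    ∀ (u : E → ℝ) (x : E) (σ L : ℝ), 0 < σ → 0 ≤ L → Visc (ball x σ) u →
      (∀ y ∈ ball x σ, ∀ z ∈ ball x σ, u y - u z ≤ L * dist y z) →
      DifferentiableAt ℝ u x ∧
        ∀ y ∈ ball x σ, ‖gradient u y - gradient u x‖ ≤ C * L * (dist y x / σ) ^ β := by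
  obtain ⟨ν, hν, hν4, D⟩ := dichotomy hε hm hα.le hc H
  set β₀ := Real.logb ν (3 / 4) with hβ₀
  have hβ₀pos : 0 < β₀ :=
    Real.logb_pos_of_base_lt_one hν (by linarith) (by norm_num) (by norm_num)
  set β := min α β₀ with hβdef
  have hβ : 0 < β := lt_min hα hβ₀pos
  have hνβ : 3 / 4 ≤ ν ^ β := by
    have h := Real.rpow_le_rpow_of_exponent_ge hν (by linarith) (min_le_right α β₀)
    rwa [hβ₀, Real.rpow_logb hν (by linarith) (by norm_num)] at h
  set C := 3 + 3 * c with hC
  refine ⟨β, C, hβ, by linarith, fun u x σ L hσ hL hu hlip =>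
    ⟨differentiableAt_centre hν hν4 D hσ hL hu hlip, fun y hy => ?_⟩⟩
  rw [mem_ball] at hy
  rcases eq_or_ne y x with rfl | hne
  · rw [sub_self, norm_zero]
    positivity
  obtain ⟨n, hn⟩ := exists_pow_lt_of_lt_one (y := ν)
    (div_pos (dist_pos.2 hne) hσ) (by linarith)
  rw [lt_div_iff₀ hσ] at hn
  clear hne
  induction n generalizing σ L with
  | zero => linarith [hn, hy, one_mul σ ▸ (pow_zero ν).symm ▸ hn]
  | succ n ih =>
    have hq : 0 ≤ dist y x / σ := by positivity
    have hsplit : (dist y x / (ν * σ)) ^ β * ν ^ β = (dist y x / σ) ^ β := by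
      rw [← Real.mul_rpow (by positivity) hν.le]
      congr 1
      field_simp
    rcases le_or_gt (ν * σ) (dist y x) with hfar | hnear
    · have h1 := norm_gradient_le hL hlip (mem_ball.2 hy)
      have h2 := norm_gradient_le hL hlip (mem_ball_self hσ)
      have h3 : ν ^ β ≤ (dist y x / σ) ^ β :=
        Real.rpow_le_rpow hν.le ((le_div_iff₀ hσ).2 hfar) hβ.le
      have h4 := norm_sub_le (gradient u y) (gradient u x)
      nlinarith [mul_le_mul_of_nonneg_left (hνβ.trans h3) (mul_nonneg hc hL),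
        mul_le_mul_of_nonneg_left (hνβ.trans h3) hL]
    have hνσ : ν * σ ≤ σ := mul_le_of_le_one_left hσ.le (by linarith)
    rcases D u x σ L hσ hL hu hlip with h | h
    · refine (h y (mem_ball.2 hnear) x (mem_ball_self (by positivity))).2.trans ?_
      have h5 : (dist y x / (ν * σ)) ^ α ≤ (dist y x / (ν * σ)) ^ β :=
        Real.rpow_le_rpow_of_exponent_ge' (by positivity)
          ((div_le_one (by positivity)).2 hnear.le) hβ.le (min_le_left _ _)
      have h6 : (dist y x / (ν * σ)) ^ β * (3 / 4) ≤ (dist y x / σ) ^ β :=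
        (mul_le_mul_of_nonneg_left hνβ (Real.rpow_nonneg (by positivity) _)).trans_eq hsplit
      have hcl : 0 ≤ c * L := mul_nonneg hc hL
      have h7 : 0 ≤ L * (dist y x / σ) ^ β := mul_nonneg hL (Real.rpow_nonneg hq _)
      nlinarith [mul_le_mul_of_nonneg_left h5 hcl, mul_le_mul_of_nonneg_left h6 hcl,
        mul_nonneg hc h7]
    · have h1 := ih (ν * σ) (3 / 4 * L) (by positivity) (by positivity)
        (hu.mono (ball_subset_ball hνσ)) h hnear (by rw [pow_succ] at hn; linarith)
      refine h1.trans ?_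
      have h6 : (dist y x / (ν * σ)) ^ β * (3 / 4) ≤ (dist y x / σ) ^ β :=
        (mul_le_mul_of_nonneg_left hνβ (Real.rpow_nonneg (by positivity) _)).trans_eq hsplit
      have hCL : 0 ≤ C * L := mul_nonneg (by linarith) hL
      nlinarith [mul_le_mul_of_nonneg_left h6 hCL]

/-- The interior estimate. -/
theorem c1alpha_of {ε m α c : ℝ} (hε : 0 < ε) (hm : 0 < m) (hα : 0 < α) (hc : 0 ≤ c)
    (H : FlatHolder E ε m α c) : ∃ β C : ℝ, 0 < β ∧ 0 < C ∧
    ∀ {x₀ : E} {R K : ℝ} {u : E → ℝ}, 0 < R → Visc (ball x₀ R) u →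
      (∀ z ∈ ball x₀ R, ∀ w ∈ ball x₀ R, u z - u w ≤ K) →
      ∀ x ∈ closedBall x₀ (R / 2), ∀ y ∈ closedBall x₀ (R / 2),
        DifferentiableAt ℝ u x ∧
          ‖gradient u x - gradient u y‖ ≤ C * K / R * (‖x - y‖ / R) ^ β := by
  obtain ⟨β, C, hβ, hC, hcentre⟩ := gradient_centre hε hm hα hc H
  refine ⟨β, 8 * C * (8 : ℝ) ^ β, hβ, by positivity, fun {x₀ R K u} hR hu hosc x hx y hy => ?_⟩
  have hK : 0 ≤ K := by simpa using hosc x₀ (mem_ball_self hR) x₀ (mem_ball_self hR)
  set σ := R / 8 with hσ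
  have hsub : ∀ z ∈ closedBall x₀ (R / 2), closedBall z (2 * σ) ⊆ ball x₀ R := fun z hz =>
    closedBall_subset_ball' (by rw [mem_closedBall] at hz; linarith)
  have hlip : ∀ z ∈ closedBall x₀ (R / 2), ∀ a ∈ ball z σ, ∀ b ∈ ball z σ,
      u a - u b ≤ K / σ * dist a b := fun z hz a ha b hb =>
    (abs_le.1 (lip_of_osc hu.cont hu.sub (by positivity) (hsub z hz)
      (fun v hv w hw => hosc v (hsub z hz hv) w (hsub z hz hw))
      a (ball_subset_closedBall ha) b (ball_subset_closedBall hb))).2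
  have hv : ∀ z ∈ closedBall x₀ (R / 2), Visc (ball z σ) u := fun z hz =>
    hu.mono ((ball_subset_closedBall.trans (closedBall_subset_closedBall (by linarith))).trans
      (hsub z hz))
  obtain ⟨hd, hg⟩ := hcentre u x σ (K / σ) (by positivity) (by positivity) (hv x hx) (hlip x hx)
  refine ⟨hd, ?_⟩
  rw [norm_sub_rev (gradient u x), norm_sub_rev x y, ← dist_eq_norm y x]
  have h8 : (dist y x / σ) ^ β = (8 : ℝ) ^ β * (dist y x / R) ^ β := by
    rw [← Real.mul_rpow (by norm_num) (by positivity)]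
    congr 1
    rw [hσ]; field_simp
  have hKσ : K / σ = 8 * (K / R) := by rw [hσ]; field_simp
  rcases lt_or_ge (dist y x) σ with h | h
  · refine (hg y (mem_ball.2 h)).trans_eq ?_
    rw [h8, hKσ]; ring
  · have h1 := norm_gradient_le (by positivity) (hlip x hx) (mem_ball_self (by positivity : 0 < σ))
    have h2 := norm_gradient_le (by positivity) (hlip y hy) (mem_ball_self (by positivity : 0 < σ))
    have h3 := norm_sub_le (gradient u y) (gradient u x)
    have h4 : 1 ≤ (dist y x / σ) ^ β :=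
      Real.one_le_rpow ((one_le_div (by positivity)).2 h) hβ.le
    have h5 : 2 * (K / σ) ≤ C * (K / σ) * (dist y x / σ) ^ β := by
      have : 0 ≤ K / σ := by positivity
      calc 2 * (K / σ) ≤ C * (K / σ) * 1 := by nlinarith
        _ ≤ _ := mul_le_mul_of_nonneg_left h4 (by positivity)
    rw [h8, hKσ] at h5
    rw [hKσ] at h1 h2
    linarith [show 8 * C * (8 : ℝ) ^ β * K / R * (dist y x / R) ^ β
      = C * (8 * (K / R)) * ((8 : ℝ) ^ β * (dist y x / R) ^ β) by ring]

/-- Continuous differentiability on every open set. -/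
theorem contDiffOn_one_of {β C : ℝ} (hβ : 0 < β)
    (hest : ∀ {x₀ : E} {R K : ℝ} {u : E → ℝ}, 0 < R → Visc (ball x₀ R) u →
      (∀ z ∈ ball x₀ R, ∀ w ∈ ball x₀ R, u z - u w ≤ K) →
      ∀ x ∈ closedBall x₀ (R / 2), ∀ y ∈ closedBall x₀ (R / 2),
        DifferentiableAt ℝ u x ∧
          ‖gradient u x - gradient u y‖ ≤ C * K / R * (‖x - y‖ / R) ^ β)
    {s : Set E} {u : E → ℝ} (hs : IsOpen s) (hu : Visc s u) : ContDiffOn ℝ 1 u s := by
  have key : ∀ x ∈ s, ∃ R > 0, ∃ A : ℝ, ∀ a ∈ closedBall x (R / 2),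
      DifferentiableAt ℝ u a ∧ ‖gradient u a - gradient u x‖ ≤ A * (dist a x / R) ^ β := by
    intro x hx
    obtain ⟨R, hR, hball⟩ := Metric.nhds_basis_closedBall.mem_iff.1 (hs.mem_nhds hx)
    have hc : IsCompact (u '' closedBall x R) :=
      (isCompact_closedBall x R).image_of_continuousOn (hu.cont.mono hball)
    obtain ⟨lo, hlo⟩ := hc.bddBelow
    obtain ⟨hi, hhi⟩ := hc.bddAbove
    refine ⟨R, hR, C * (hi - lo) / R, fun a ha => ?_⟩
    rw [dist_eq_norm]
    exact hest hR (hu.mono (ball_subset_closedBall.trans hball))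
      (fun z hz w hw => by
        linarith [hhi ⟨z, ball_subset_closedBall hz, rfl⟩, hlo ⟨w, ball_subset_closedBall hw, rfl⟩])
      a ha x (mem_closedBall_self (by linarith))
  have hdiff : ∀ x ∈ s, DifferentiableAt ℝ u x := fun x hx => by
    obtain ⟨R, hR, A, h⟩ := key x hx
    exact (h x (mem_closedBall_self (by linarith))).1
  have hcont : ContinuousOn (gradient u) s := fun x hx => by
    obtain ⟨R, hR, A, h⟩ := key x hx
    refine ContinuousAt.continuousWithinAt ?_
    rw [ContinuousAt, tendsto_iff_norm_sub_tendsto_zero]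
    refine squeeze_zero' (Filter.Eventually.of_forall fun a => norm_nonneg _)
      (g := fun a => A * (dist a x / R) ^ β) ?_ ?_
    · filter_upwards [closedBall_mem_nhds x (half_pos hR)] with a ha
      exact (h a ha).2
    · have hc : Continuous fun a => A * (dist a x / R) ^ β := by fun_prop (disch := positivity)
      simpa [Real.zero_rpow hβ.ne'] using hc.tendsto x
  rw [show (1 : WithTop ℕ∞) = 0 + 1 from (zero_add _).symm,
    contDiffOn_succ_iff_fderiv_of_isOpen hs]
  refine ⟨fun x hx => (hdiff x hx).differentiableWithinAt, by simp, contDiffOn_zero.2 ?_⟩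
  have he : fderiv ℝ u = fun x => InnerProductSpace.toDual ℝ E (gradient u x) := by
    funext x; simp [gradient]
  rw [he]
  exact (InnerProductSpace.toDual ℝ E).continuous.comp_continuousOn hcont

end Vale.Agent.P080.C1
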