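import Vale.Agent.P080.C1.Link

/-!
A2: the Hopf-Lax values of a profile.

In the window `(b, v)` of radius `h` at `(t, y)` the forward objective at `z = h v + z'` is
`w + h b - ‖z'‖²/2h` up to the growth error, which is of lower order. So the supremum is attained
within a bounded number of steps from `h v`. The backward value is the forward one of the mirror.
-/

namespace Vale.Agent.P080.C1

open Set Filter Topology
open scoped RealInnerProductSpace

set_option linter.unusedSectionVars false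

variable {F : Type*} [NormedAddCommGroup F] [InnerProductSpace ℝ F] [FiniteDimensional ℝ F]
variable {C : ℝ} {w : ℝ → F → ℝ}

private theorem isWin_mir {t r b : ℝ} {y v : F} (hW : IsWin C w t y r b v) :
    IsWin C (mir w) (-t) y r b (-v) := by
  intro τ z hτ hz
  have h := hW (-τ) z (by simpa using hτ) hz
  have e : |(-(w (t + -τ) (y + (-τ) • v + z) - w t y - (b + ‖v‖ ^ 2 / 2) * -τ - ⟪v, z⟫))|
      ≤ C * r := by rwa [abs_neg]
  simp only [mir, neg_add, neg_neg, norm_neg, inner_neg_left, smul_neg]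
  simp only [neg_smul] at e
  convert e using 2
  ring

/-- The error `c (2 + u)^{3/2}` is absorbed by the quadratic term. -/
private theorem absorb {c u : ℝ} (hu : 0 ≤ u) :
    c * ((2 + u) * Real.sqrt (2 + u)) ≤ 3 * u ^ 2 / 8 + (1 + 4 * c ^ 2 + 8 * c ^ 4) := by
  have hs := Real.sq_sqrt (show 0 ≤ 2 + u by linarith)
  set x := Real.sqrt (2 + u)
  have e : (x ^ 2 - 4 * c * x) ^ 2
      = (2 + u) ^ 2 - 8 * (c * ((2 + u) * x)) + 16 * (c ^ 2 * (2 + u)) := by
    rw [← hs]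
    ring
  nlinarith [sq_nonneg (x ^ 2 - 4 * c * x), sq_nonneg (u - 8 * c ^ 2), sq_nonneg (u - 2)]

/-- The objective in a window. -/
private theorem objective (C : ℝ) : ∃ c : ℝ, 0 < c ∧ ∀ {w : ℝ → F → ℝ}, Prof C w →
    ∀ {t : ℝ} {y : F} {h b : ℝ} {v : F}, 0 < h → IsWin C w t y h b v →
      w t y + h * b - c * h ≤ w (t + h) (y + h • v) - ‖h • v‖ ^ 2 / (2 * h) ∧
      ∀ z, w (t + h) (y + z) - ‖z‖ ^ 2 / (2 * h)
        ≤ w t y + h * b + c * h - ‖z - h • v‖ ^ 2 / (8 * h) := by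
  obtain ⟨c, hc, H⟩ := growth (F := F) C
  refine ⟨max (3 * c) (1 + 4 * c ^ 2 + 8 * c ^ 4), lt_max_of_lt_left (by linarith),
    fun {w} hw {t y h b v} hh hW => ?_⟩
  have hG : ∀ z : F, |w (t + h) (y + z) - ‖z‖ ^ 2 / (2 * h)
      - (w t y + h * b - ‖z - h • v‖ ^ 2 / (2 * h))|
      ≤ c * h * ((2 + ‖z - h • v‖ / h) * Real.sqrt (2 + ‖z - h • v‖ / h)) := by
    intro z
    have e := H hw hh hW h (z - h • v)
    have e1 : y + h • v + (z - h • v) = y + z := by abel
    have e2 : 1 + (|h| + ‖z - h • v‖) / h = 2 + ‖z - h • v‖ / h := by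
      rw [abs_of_pos hh]
      field_simp
      ring
    rw [e1, e2] at e
    convert e using 2
    rw [inner_sub_right, norm_sub_sq_real, inner_smul_right, inner_smul_right,
      real_inner_self_eq_norm_sq, norm_smul, Real.norm_eq_abs, abs_of_pos hh, real_inner_comm v z]
    field_simp
    ring
  constructor
  · have e := (abs_le.1 (hG (h • v))).1
    simp only [sub_self, norm_zero, zero_div, add_zero, ne_eq, OfNat.ofNat_ne_zero,
      not_false_eq_true, zero_pow, sub_zero] at e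
    have h2 : Real.sqrt 2 ≤ 3 / 2 := Real.sqrt_le_iff.2 ⟨by norm_num, by norm_num⟩
    nlinarith [le_max_left (3 * c) (1 + 4 * c ^ 2 + 8 * c ^ 4),
      mul_le_mul_of_nonneg_left h2 (mul_nonneg hc.le hh.le)]
  · intro z
    have e := (abs_le.1 (hG z)).2
    obtain ⟨u, hu, hu'⟩ : ∃ u, 0 ≤ u ∧ ‖z - h • v‖ = u * h :=
      ⟨‖z - h • v‖ / h, by positivity, by field_simp⟩
    rw [hu', mul_div_assoc, div_self hh.ne', mul_one,
      show (u * h) ^ 2 / (2 * h) = u ^ 2 * h / 2 by field_simp] at e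
    rw [hu', show (u * h) ^ 2 / (8 * h) = u ^ 2 * h / 8 by field_simp]
    nlinarith [mul_le_mul_of_nonneg_left (absorb (c := c) hu) hh.le,
      mul_le_mul_of_nonneg_right (le_max_right (3 * c) (1 + 4 * c ^ 2 + 8 * c ^ 4)) hh.le]

theorem le_hlP (hw : Prof C w) {h : ℝ} (hh : 0 < h) (t : ℝ) (y z : F) :
    w (t + h) (y + z) - ‖z‖ ^ 2 / (2 * h) ≤ hlP w h t y := by
  obtain ⟨c, hc, H⟩ := objective (F := F) C
  obtain ⟨b, v, hW⟩ := hw.window t y h hh
  refine le_csSup ⟨w t y + h * b + c * h, ?_⟩ (mem_range_self z)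
  rintro a ⟨x, rfl⟩
  exact ((H hw hh hW).2 x).trans (sub_le_self _ (by positivity))

theorem hlP_attained (hw : Prof C w) {h : ℝ} (hh : 0 < h) (t : ℝ) (y : F) :
    ∃ z, hlP w h t y = w (t + h) (y + z) - ‖z‖ ^ 2 / (2 * h) := by
  obtain ⟨c, hc, H⟩ := objective (F := F) C
  obtain ⟨b, v, hW⟩ := hw.window t y h hh
  obtain ⟨hlo, hup⟩ := H hw hh hW
  have hcont : Continuous fun z => w (t + h) (y + z) - ‖z‖ ^ 2 / (2 * h) :=
    (hw.continuous.comp (continuous_const.prodMk (continuous_const.add continuous_id))).sub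
      ((continuous_norm.pow 2).div_const _)
  have hR : 0 ≤ (16 * c + 1) * h := by positivity
  obtain ⟨z, -, hz⟩ := (isCompact_closedBall (h • v) ((16 * c + 1) * h)).exists_isMaxOn
    ⟨h • v, Metric.mem_closedBall_self hR⟩ hcont.continuousOn
  refine ⟨z, le_antisymm (csSup_le (range_nonempty _) ?_) (le_hlP hw hh t y z)⟩
  rintro a ⟨x, rfl⟩
  by_cases hx : x ∈ Metric.closedBall (h • v) ((16 * c + 1) * h)
  · exact hz hx
  rw [Metric.mem_closedBall, dist_eq_norm, not_le] at hx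
  refine ((hup x).trans ?_).trans (hlo.trans (hz (Metric.mem_closedBall_self hR)))
  have hsq : 16 * c * h ^ 2 ≤ ‖x - h • v‖ ^ 2 := by
    nlinarith [mul_self_le_mul_self hR hx.le]
  have : 2 * c * h ≤ ‖x - h • v‖ ^ 2 / (8 * h) := by
    rw [le_div_iff₀ (by positivity)]
    linarith
  linarith

theorem hlM_le (hw : Prof C w) {h : ℝ} (hh : 0 < h) (t : ℝ) (y z : F) :
    hlM w h t y ≤ w (t - h) (y + z) + ‖z‖ ^ 2 / (2 * h) := by
  have e := le_hlP hw.mirror hh (-t) y z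
  simp only [mir, show -(-t + h) = t - h by ring] at e
  rw [hlM, neg_le]
  linarith

theorem hlM_attained (hw : Prof C w) {h : ℝ} (hh : 0 < h) (t : ℝ) (y : F) :
    ∃ z, hlM w h t y = w (t - h) (y + z) + ‖z‖ ^ 2 / (2 * h) := by
  obtain ⟨z, hz⟩ := hlP_attained hw.mirror hh (-t) y
  refine ⟨z, ?_⟩
  rw [hlM, hz]
  simp only [mir, show -(-t + h) = t - h by ring]
  ring

/-- Maximisers move with the window velocity; the slopes are the window slopes. -/
theorem hlP_bound (C : ℝ) : ∃ c : ℝ, 0 < c ∧ ∀ {w : ℝ → F → ℝ}, Prof C w →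
    ∀ {t : ℝ} {y : F} {h b : ℝ} {v : F}, 0 < h → IsWin C w t y h b v →
      |Sp w h t y - b| ≤ c ∧ |Sm w h t y - b| ≤ c ∧
      (∀ z, hlP w h t y = w (t + h) (y + z) - ‖z‖ ^ 2 / (2 * h) → ‖z - h • v‖ ≤ c * h) ∧
      ∀ z, hlM w h t y = w (t - h) (y + z) + ‖z‖ ^ 2 / (2 * h) → ‖z + h • v‖ ≤ c * h := by
  obtain ⟨c, hc, H⟩ := objective (F := F) C
  refine ⟨16 * c + 1, by positivity, fun {w} hw {t y h b v} hh hW => ?_⟩
  have key : ∀ {u : ℝ → F → ℝ}, Prof C u → ∀ {s : ℝ} {p : F}, IsWin C u s y h b p →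
      |Sp u h s y - b| ≤ 16 * c + 1 ∧
      ∀ z, hlP u h s y = u (s + h) (y + z) - ‖z‖ ^ 2 / (2 * h) →
        ‖z - h • p‖ ≤ (16 * c + 1) * h := by
    intro u hu s p hp
    obtain ⟨hlo, hup⟩ := H hu hh hp
    have h1 := hlo.trans (le_hlP hu hh s y (h • p))
    constructor
    · obtain ⟨z, hz⟩ := hlP_attained hu hh s y
      have h2 := hup z
      have h3 : 0 ≤ ‖z - h • p‖ ^ 2 / (8 * h) := by positivity
      rw [abs_le, Sp, le_sub_iff_add_le, sub_le_iff_le_add, le_div_iff₀ hh, div_le_iff₀ hh]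
      constructor <;> nlinarith [mul_pos hc hh]
    · intro z hz
      have h2 := hup z
      rw [← hz] at h2
      have h4 : ‖z - h • p‖ ^ 2 / (8 * h) ≤ 2 * c * h := by linarith
      rw [div_le_iff₀ (by positivity)] at h4
      nlinarith [norm_nonneg (z - h • p), mul_pos hc hh]
  obtain ⟨a1, a2⟩ := key hw hW
  obtain ⟨b1, b2⟩ := key hw.mirror (isWin_mir hW)
  have eSm : Sm w h t y = Sp (mir w) h (-t) y := by
    simp only [Sm, Sp, hlM, mir, neg_neg]
    ring
  refine ⟨a1, eSm ▸ b1, a2, fun z hz => ?_⟩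
  have e : hlP (mir w) h (-t) y = mir w (-t + h) (y + z) - ‖z‖ ^ 2 / (2 * h) := by
    rw [hlM] at hz
    simp only [mir, show -(-t + h) = t - h by ring]
    linarith
  simpa using b2 z e

/-- The quadratic costs of two steps. -/
private theorem cost_le {h k : ℝ} (hh : 0 < h) (hk : 0 < k) (z x : F) :
    ‖z + x‖ ^ 2 / (2 * (h + k)) ≤ ‖z‖ ^ 2 / (2 * h) + ‖x‖ ^ 2 / (2 * k) := by
  have h1 : ‖z + x‖ ^ 2 ≤ (‖z‖ + ‖x‖) ^ 2 :=
    pow_le_pow_left₀ (norm_nonneg _) (norm_add_le z x) 2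
  rw [div_add_div _ _ (by positivity) (by positivity), div_le_div_iff₀ (by positivity)
    (by positivity)]
  nlinarith [sq_nonneg (‖z‖ * k - ‖x‖ * h), mul_le_mul_of_nonneg_left h1 (mul_pos hh hk).le]

theorem hlP_semigroup (hw : Prof C w) {h k : ℝ} (hh : 0 < h) (hk : 0 < k) (t : ℝ) (y : F) :
    hlP (hlP w k) h t y = hlP w (h + k) t y := by
  have hb : ∀ z : F, hlP w k (t + h) (y + z) - ‖z‖ ^ 2 / (2 * h) ≤ hlP w (h + k) t y := by
    intro z
    obtain ⟨x, hx⟩ := hlP_attained hw hk (t + h) (y + z)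
    have e := le_hlP hw (add_pos hh hk) t y (z + x)
    rw [← add_assoc t h k, ← add_assoc y z x] at e
    linarith [cost_le hh hk z x]
  refine le_antisymm (csSup_le (range_nonempty _) (by rintro a ⟨z, rfl⟩; exact hb z)) ?_
  obtain ⟨Z, hZ⟩ := hlP_attained hw (add_pos hh hk) t y
  obtain ⟨z, hzd⟩ : ∃ z : F, z = (h / (h + k)) • Z := ⟨_, rfl⟩
  obtain ⟨x, hxd⟩ : ∃ x : F, x = (k / (h + k)) • Z := ⟨_, rfl⟩
  have eZ : z + x = Z := by
    rw [hzd, hxd, ← add_smul, ← add_div, div_self (by positivity), one_smul]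
  have ec : ‖Z‖ ^ 2 / (2 * (h + k)) = ‖z‖ ^ 2 / (2 * h) + ‖x‖ ^ 2 / (2 * k) := by
    rw [hzd, hxd, norm_smul, norm_smul, mul_pow, mul_pow, Real.norm_eq_abs, Real.norm_eq_abs,
      sq_abs, sq_abs]
    field_simp
  have e1 : hlP w k (t + h) (y + z) - ‖z‖ ^ 2 / (2 * h) ≤ hlP (hlP w k) h t y :=
    le_csSup ⟨hlP w (h + k) t y, by rintro a ⟨x', rfl⟩; exact hb x'⟩ ⟨z, rfl⟩
  have e2 := le_hlP hw hk (t + h) (y + z) x
  rw [add_assoc t h k, add_assoc y z x, eZ] at e2
  linarith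

/-- The forward value is a subsolution of the two-sided step. -/
theorem hlP_sub (hw : Prof C w) {s : ℝ} (hs : 0 < s) (t : ℝ) (y : F) :
    2 * hlP w s t y ≤ hlP (hlP w s) s t y + hlM (hlP w s) s t y := by
  have h1 : w t y ≤ hlM (hlP w s) s t y := by
    rw [hlM, le_neg]
    refine csSup_le (range_nonempty _) ?_
    rintro a ⟨z, rfl⟩
    have e := le_hlP hw hs (t - s) (y + z) (-z)
    rw [sub_add_cancel, add_neg_cancel_right, norm_neg] at e
    simp only [mir, show -(-t + s) = t - s by ring]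
    linarith
  have h2 : Sp w s t y ≤ Sp w (s + s) t y := hw.mono t y hs (add_pos hs hs) (by linarith)
  rw [Sp, Sp, div_le_div_iff₀ hs (add_pos hs hs)] at h2
  rw [hlP_semigroup hw hs hs]
  nlinarith

/-- The backward value is a supersolution of the two-sided step. -/
theorem hlM_super (hw : Prof C w) {s : ℝ} (hs : 0 < s) (t : ℝ) (y : F) :
    hlP (hlM w s) s t y + hlM (hlM w s) s t y ≤ 2 * hlM w s t y := by
  have e : mir (hlM w s) = hlP (mir w) s := by
    funext τ x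
    simp [mir, hlM]
  have e1 : hlP (hlM w s) s t y = -hlM (hlP (mir w) s) s (-t) y := by
    conv_rhs => rw [hlM, ← e, mir_mir, neg_neg, neg_neg]
  have h := hlP_sub hw.mirror hs (-t) y
  rw [e1, show hlM w s t y = -hlP (mir w) s (-t) y from rfl,
    show hlM (hlM w s) s t y = -hlP (mir (hlM w s)) s (-t) y from rfl, e]
  linarith

end Vale.Agent.P080.C1
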