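import Vale.Agent.P080.C1.Loc.Zoom
import Vale.Agent.P080.C1.Loc.FirstLimit

/-!
B6: one step of the improvement of flatness.

A sequence of counterexamples is normalised to slope one along a fixed unit vector by a linear
isometry and a positive factor. Its scaled functions tend to a member of `K1`, which is almost
affine on the window of length `θ`; the affine function gives the improved slope.
-/

namespace Vale.Agent.P080.C1

open Metric Set Filter Topology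
open scoped RealInnerProductSpace

set_option linter.unusedSectionVars false

variable {E : Type*} [NormedAddCommGroup E] [InnerProductSpace ℝ E] [FiniteDimensional ℝ E]

/-- A linear isometry of the variable and a factor scale the infinity Laplacian. -/
theorem infLap_comp_isometry {φ : E → ℝ} (hφ : ContDiff ℝ 2 φ) (K : ℝ) (M : E ≃ₗᵢ[ℝ] E) (z : E) :
    fderiv ℝ (fderiv ℝ (fun w => K * φ (M w))) z (gradient (fun w => K * φ (M w)) z)
        (gradient (fun w => K * φ (M w)) z)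
      = K ^ 3 * fderiv ℝ (fderiv ℝ φ) (M z) (gradient φ (M z)) (gradient φ (M z)) := by
  set A : E →L[ℝ] E := (M.toContinuousLinearEquiv : E →L[ℝ] E)
  have hd : Differentiable ℝ φ := hφ.differentiable (by norm_num)
  have hd' : Differentiable ℝ (fderiv ℝ φ) :=
    (hφ.fderiv_right (m := 1) (by norm_num)).differentiable one_ne_zero
  have h1 : fderiv ℝ (fun w => K * φ (M w)) = fun w => K • (fderiv ℝ φ (A w)).comp A := by
    funext w
    exact (((hd (A w)).hasFDerivAt.comp w A.hasFDerivAt).const_mul K).fderiv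
  have h2 : HasFDerivAt (fun w => K • (fderiv ℝ φ (A w)).comp A)
      (K • (((ContinuousLinearMap.compL ℝ E E ℝ).flip A).comp
        ((fderiv ℝ (fderiv ℝ φ) (A z)).comp A))) z :=
    ((((ContinuousLinearMap.compL ℝ E E ℝ).flip A).hasFDerivAt).comp z
      ((hd' (A z)).hasFDerivAt.comp z A.hasFDerivAt)).const_smul K
  have hg : gradient (fun w => K * φ (M w)) z = K • M.symm (gradient φ (M z)) := by
    refine ext_inner_right ℝ fun v => ?_
    rw [gradient, InnerProductSpace.toDual_symm_apply, h1, real_inner_smul_left,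
      ← M.inner_map_map, M.apply_symm_apply, gradient, InnerProductSpace.toDual_symm_apply]
    rfl
  rw [hg, h1, h2.fderiv]
  have hA : ∀ v, A v = M v := fun _ => rfl
  simp only [smul_apply, ContinuousLinearMap.comp_apply,
    ContinuousLinearMap.flip_apply, ContinuousLinearMap.compL_apply, hA, map_smul,
    LinearIsometryEquiv.apply_symm_apply, smul_eq_mul]
  ring

/-- Rotating the variable and dividing by a positive number preserves solutions on centred balls. -/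
theorem Visc.normalise {u : E → ℝ} {r K : ℝ} (h : Visc (ball 0 r) u) (L : E ≃ₗᵢ[ℝ] E)
    (hK : 0 < K) : Visc (ball 0 r) (fun z => u (L z) / K) := by
  have hmem : ∀ z ∈ ball (0 : E) r, L z ∈ ball (0 : E) r := fun z hz => by
    simpa using hz
  have hcd : ∀ φ : E → ℝ, ContDiff ℝ 2 φ → ContDiff ℝ 2 fun w => K * φ (L.symm w) := fun φ hφ =>
    contDiff_const.mul (hφ.comp L.symm.toContinuousLinearEquiv.contDiff)
  have hlim : ∀ z : E, Tendsto L.symm (𝓝 (L z)) (𝓝 z) := fun z =>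
    L.symm.continuous.tendsto' _ _ (L.symm_apply_apply z)
  have hid : ∀ (φ : E → ℝ) (y : E), K * (u y / K - φ (L.symm y)) = u y - K * φ (L.symm y) :=
    fun φ y => by field_simp
  refine ⟨(h.cont.comp L.continuous.continuousOn hmem).div_const K, fun z hz φ hφ hmax => ?_,
    fun z hz φ hφ hmin => ?_⟩
  · have hmax' : IsLocalMax (fun y => u y - K * φ (L.symm y)) (L z) := by
      filter_upwards [(hlim z).eventually hmax] with y hy
      simp only [L.apply_symm_apply] at hy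
      have h1 := mul_le_mul_of_nonneg_left hy hK.le
      rw [hid] at h1
      simpa [mul_sub, mul_div_cancel₀ _ hK.ne'] using h1
    have h0 := h.sub _ (hmem z hz) _ (hcd φ hφ) hmax'
    rw [infLap_comp_isometry hφ, L.symm_apply_apply] at h0
    exact nonneg_of_mul_nonneg_right h0 (by positivity)
  · have hmin' : IsLocalMin (fun y => u y - K * φ (L.symm y)) (L z) := by
      filter_upwards [(hlim z).eventually hmin] with y hy
      simp only [L.apply_symm_apply] at hy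
      have h1 := mul_le_mul_of_nonneg_left hy hK.le
      rw [hid] at h1
      simpa [mul_sub, mul_div_cancel₀ _ hK.ne'] using h1
    have h0 := h.sup _ (hmem z hz) _ (hcd φ hφ) hmin'
    rw [infLap_comp_isometry hφ, L.symm_apply_apply] at h0
    by_contra hc
    rw [not_le] at hc
    linarith [mul_pos (pow_pos hK 3) hc]

/-- Windows after the rotation and the division. -/
theorem FitWin.normalise {u : E → ℝ} {x p : E} {T δ K : ℝ} (L : E ≃ₗᵢ[ℝ] E) (hK : 0 < K)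
    (h : FitWin u (L x) (K • L p) T δ) : FitWin (fun z => u (L z) / K) x p T δ := by
  intro d h1 h2
  have hn : ‖K • L p‖ = K * ‖p‖ := by rw [norm_smul, Real.norm_of_nonneg hK.le, L.norm_map]
  have hi : ⟪K • L p, L d⟫ = K * ⟪p, d⟫ := by rw [real_inner_smul_left, L.inner_map_map]
  have key : L d - (⟪K • L p, L d⟫ / ‖K • L p‖ ^ 2) • (K • L p)
      = L (d - (⟪p, d⟫ / ‖p‖ ^ 2) • p) := by
    rw [map_sub, map_smul, smul_smul, hn, hi]
    congr 2
    field_simp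
  have h3 := h (L d) (by
      rw [hn, hi, abs_mul, abs_of_pos hK]
      calc K * |⟪p, d⟫| ≤ K * (T * ‖p‖) := mul_le_mul_of_nonneg_left h1 hK.le
        _ = T * (K * ‖p‖) := by ring)
    (by rw [key, L.norm_map]; exact h2)
  rw [hn, hi] at h3
  dsimp only
  rw [map_add, ← sub_div, div_sub' hK.ne', abs_div, abs_of_pos hK, div_le_iff₀ hK]
  calc |u (L x + L d) - u (L x) - K * ⟪p, d⟫| ≤ δ * T * (K * ‖p‖) := h3
    _ = δ * T * ‖p‖ * K := by ring

/-- The inverse of the normalisation. -/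
theorem FitWin.unnormalise {u : E → ℝ} {x p : E} {T δ K : ℝ} (L : E ≃ₗᵢ[ℝ] E) (hK : 0 < K)
    (h : FitWin (fun z => u (L z) / K) x p T δ) : FitWin u (L x) (K • L p) T δ := by
  have h' : FitWin (fun z => (fun y => u (L y) / K) (L.symm z) / K⁻¹) (L x) (K • L p) T δ :=
    FitWin.normalise (u := fun z => u (L z) / K) L.symm (inv_pos.2 hK) (by
      rwa [L.symm_apply_apply, map_smul, L.symm_apply_apply, inv_smul_smul₀ hK.ne'])
  simpa [div_inv_eq_mul, div_mul_cancel₀ _ hK.ne'] using h'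

/-- An almost affine scaled function gives the improved window. -/
theorem fitWin_of_scaled {v : E → ℝ} {e : E} {δ θ b c : ℝ} {k : (ℝ ∙ e)ᗮ} (he : ‖e‖ = 1)
    (hδ : 0 < δ) (hθ : 0 < θ) (hb : |b| ≤ c) (hk : ‖k‖ ≤ c)
    (hsmall : Real.sqrt δ * (1 + c) ^ 2 ≤ 1 / 4)
    (hW : ∀ (t : ℝ) (ξ : (ℝ ∙ e)ᗮ), |t| ≤ 2 * θ → ‖ξ - t • k‖ ≤ 8 * θ →
      |scaled v 0 e 1 δ t ξ - b * t - ⟪k, ξ⟫| ≤ θ / 32) :
    FitWin v 0 ((1 + δ * b) • e + Real.sqrt δ • (k : E)) θ (δ / 4) ∧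
      ‖(1 + δ * b) • e + Real.sqrt δ • (k : E) - e‖ ≤ 2 * c * Real.sqrt δ := by
  obtain ⟨s, hs, hss⟩ : ∃ s, 0 < s ∧ Real.sqrt δ = s := ⟨_, Real.sqrt_pos.2 hδ, rfl⟩
  have hsq : δ = s * s := by rw [← hss, Real.mul_self_sqrt hδ.le]
  rw [hss] at hsmall ⊢
  have hc : 0 ≤ c := (abs_nonneg b).trans hb
  have hs4 : s ≤ 1 / 4 := by
    have : s * 1 ≤ s * (1 + c) ^ 2 :=
      mul_le_mul_of_nonneg_left (one_le_pow₀ (by linarith)) hs.le
    linarith
  have hsc : s * c ≤ 1 / 4 ∧ s * c * c ≤ 1 / 4 := by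
    have e : s * (1 + c) ^ 2 = s + 2 * (s * c) + s * c * c := by ring
    exact ⟨by linarith [mul_nonneg (mul_nonneg hs.le hc) hc, mul_nonneg hs.le hc],
      by linarith [mul_nonneg hs.le hc]⟩
  have hδb : |δ * b| ≤ c * s := by
    rw [abs_mul, abs_of_pos hδ, hsq]
    calc s * s * |b| ≤ 1 * s * c := by gcongr; linarith
      _ = c * s := by ring
  have hek : ⟪e, (k : E)⟫ = 0 := Submodule.mem_orthogonal_singleton_iff_inner_right.1 k.2
  set q := (1 + δ * b) • e + s • (k : E) with hq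
  have hqe : ‖q - e‖ ≤ 2 * c * s := by
    have : q - e = (δ * b) • e + s • (k : E) := by rw [hq]; module
    rw [this]
    calc _ ≤ |δ * b| * 1 + s * c := by
          refine (norm_add_le _ _).trans ?_
          rw [norm_smul, norm_smul, he, Real.norm_eq_abs, Real.norm_of_nonneg hs.le]
          exact add_le_add le_rfl (mul_le_mul_of_nonneg_left hk hs.le)
      _ ≤ 2 * c * s := by linarith
  refine ⟨fun d h1 h2 => ?_, hqe⟩
  have hqe' : ⟪e, q⟫ = 1 + δ * b := by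
    rw [hq, inner_add_right, real_inner_smul_right, real_inner_smul_right, hek,
      real_inner_self_eq_norm_sq, he]
    ring
  have hqn : 3 / 4 ≤ ‖q‖ := by
    have := real_inner_le_norm e q
    rw [hqe', he, one_mul] at this
    linarith [(abs_le.1 hδb).1, hsc.1]
  set a := ⟪q, d⟫ / ‖q‖ ^ 2 with ha_def
  set ζ := d - a • q with hζ
  have hsqrt : Real.sqrt (δ / 4) = s / 2 := by
    rw [hsq, show s * s / 4 = (s / 2) * (s / 2) by ring, Real.sqrt_mul_self (by linarith)]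
  rw [hsqrt] at h2
  have hζn : ‖ζ‖ ≤ 2 * θ * s := h2.trans (by linarith)
  have haq : |a| * ‖q‖ ≤ θ := by
    rw [ha_def, abs_div, abs_pow, abs_norm, div_mul_eq_mul_div, div_le_iff₀ (by positivity)]
    calc |⟪q, d⟫| * ‖q‖ ≤ θ * ‖q‖ * ‖q‖ := mul_le_mul_of_nonneg_right h1 (norm_nonneg _)
      _ = θ * ‖q‖ ^ 2 := by ring
  have ha2 : |a| ≤ 2 * θ := by
    have : |a| * (3 / 4) ≤ |a| * ‖q‖ := mul_le_mul_of_nonneg_left hqn (abs_nonneg _)
    linarith [abs_nonneg a]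
  obtain ⟨t, ht_def⟩ : ∃ t, t = ⟪e, d⟫ := ⟨_, rfl⟩
  have hproj : d - t • e ∈ (ℝ ∙ e)ᗮ := by
    rw [Submodule.mem_orthogonal_singleton_iff_inner_right, inner_sub_right, real_inner_smul_right,
      real_inner_self_eq_norm_sq, he, ← ht_def]
    ring
  obtain ⟨ξ, hξ⟩ : ∃ ξ : (ℝ ∙ e)ᗮ, t • e + s • (ξ : E) = d :=
    ⟨s⁻¹ • ⟨d - t • e, hproj⟩, by rw [Submodule.coe_smul, smul_inv_smul₀ hs.ne']; simp⟩
  have hte : t = a * (1 + δ * b) + ⟪e, ζ⟫ := by
    rw [hζ, inner_sub_right, real_inner_smul_right, hqe', ht_def]; ring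
  have hez : |⟪e, ζ⟫| ≤ 2 * θ * s := by
    have := abs_real_inner_le_norm e ζ
    rw [he, one_mul] at this
    linarith
  have hδa : |a * (δ * b)| ≤ 2 * θ * (c * s) := by
    rw [abs_mul]; exact mul_le_mul ha2 hδb (abs_nonneg _) (by linarith)
  have hθs : θ * s ≤ θ * (1 / 4) := mul_le_mul_of_nonneg_left hs4 hθ.le
  have ht : |t| ≤ 2 * θ := by
    have hd : ‖d‖ ≤ θ + 2 * θ * s := by
      calc ‖d‖ = ‖a • q + ζ‖ := by rw [hζ, add_sub_cancel]
        _ ≤ |a| * ‖q‖ + ‖ζ‖ := by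
            refine (norm_add_le _ _).trans ?_
            rw [norm_smul, Real.norm_eq_abs]
        _ ≤ _ := add_le_add haq hζn
    have := abs_real_inner_le_norm e d
    rw [he, one_mul, ← ht_def] at this
    linarith
  have hta : |t - a| ≤ 2 * θ * (c * s) + 2 * θ * s := by
    rw [show t - a = a * (δ * b) + ⟪e, ζ⟫ by rw [hte]; ring]
    exact (abs_add_le _ _).trans (add_le_add hδa hez)
  have hlat : ‖ξ - t • k‖ ≤ 8 * θ := by
    have hb' : s • ((ξ - t • k : (ℝ ∙ e)ᗮ) : E) = ζ - ⟪e, ζ⟫ • e + (a - t) • s • (k : E) := by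
      rw [Submodule.coe_sub, Submodule.coe_smul, smul_sub, eq_sub_of_add_eq' hξ, hte, hζ, hq]
      module
    have hn : s * ‖ξ - t • k‖ ≤ s * (8 * θ) := by
      calc s * ‖ξ - t • k‖ = ‖s • ((ξ - t • k : (ℝ ∙ e)ᗮ) : E)‖ := by
            rw [norm_smul, Real.norm_of_nonneg hs.le, Submodule.coe_norm]
        _ ≤ ‖ζ‖ + |⟪e, ζ⟫| + |t - a| * (s * c) := by
            rw [hb']
            refine (norm_add_le _ _).trans (add_le_add ((norm_sub_le _ _).trans ?_) ?_)
            · rw [norm_smul, he, mul_one, Real.norm_eq_abs]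
            · rw [norm_smul, norm_smul, Real.norm_eq_abs, abs_sub_comm,
                Real.norm_of_nonneg hs.le, ← Submodule.coe_norm]
              gcongr
        _ ≤ 2 * θ * s + 2 * θ * s + (2 * θ * (c * s) + 2 * θ * s) * (s * c) := by gcongr
        _ = s * (4 * θ + 2 * θ * (s * c * c) + 2 * θ * (s * c)) := by ring
        _ ≤ s * (8 * θ) := by
            refine mul_le_mul_of_nonneg_left ?_ hs.le
            linarith [mul_le_mul_of_nonneg_left hsc.1 hθ.le, mul_le_mul_of_nonneg_left hsc.2 hθ.le]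
    exact le_of_mul_le_mul_left hn hs
  have hv := hW t ξ ht hlat
  have hinner : ⟪q, d⟫ = (1 + δ * b) * t + δ * ⟪k, ξ⟫ := by
    have h0 : ⟪e, (ξ : E)⟫ = 0 := Submodule.mem_orthogonal_singleton_iff_inner_right.1 ξ.2
    have h0' : ⟪(k : E), e⟫ = 0 := by rw [real_inner_comm]; exact hek
    conv_lhs => rw [← hξ, hq]
    simp only [inner_add_left, inner_add_right, real_inner_smul_left, real_inner_smul_right,
      real_inner_self_eq_norm_sq, he, h0, h0', Submodule.coe_inner, hsq]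
    ring
  have hval : v (0 + d) - v 0 - ⟪q, d⟫ = δ * (scaled v 0 e 1 δ t ξ - b * t - ⟪k, ξ⟫) := by
    rw [hinner, scaled, one_smul, one_mul, one_mul, hss, hξ]
    field_simp
    ring
  rw [hval, abs_mul, abs_of_pos hδ]
  calc δ * |scaled v 0 e 1 δ t ξ - b * t - ⟪k, ξ⟫| ≤ δ * (θ / 32) :=
        mul_le_mul_of_nonneg_left hv hδ.le
    _ ≤ δ / 4 * θ * ‖q‖ := by
        linarith [mul_le_mul_of_nonneg_left hqn (show 0 ≤ δ / 4 * θ by positivity),
          mul_pos hδ hθ]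

/-- Improvement of flatness. -/
theorem improvement : ∃ θ δ₀ c : ℝ, 0 < θ ∧ θ ≤ 1 / 4 ∧ 0 < δ₀ ∧ 0 < c ∧
    ∀ {u : E → ℝ} {δ : ℝ}, Visc (ball 0 8) u → 0 < δ → δ ≤ δ₀ → FlatOn (ball 0 4) u 1 δ →
      ∀ p : E, 1 / 4 ≤ ‖p‖ → ‖p‖ ≤ 4 → FitWin u 0 p 1 δ →
        ∃ p' : E, ‖p' - p‖ ≤ c * Real.sqrt δ ∧ FitWin u 0 p' θ (δ / 4) := by
  by_cases hne : ∃ e : E, ‖e‖ = 1
  swap
  · refine ⟨1 / 4, 1, 1, by norm_num, le_rfl, one_pos, one_pos, ?_⟩
    intro u δ _ _ _ _ p hp _ _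
    have h0 : ‖p‖ ≠ 0 := by linarith
    exact absurd ⟨‖p‖⁻¹ • p, by rw [norm_smul, norm_inv, norm_norm, inv_mul_cancel₀ h0]⟩ hne
  obtain ⟨e, he⟩ := hne
  obtain ⟨T₀, h₀, C, hT₀, hh₀, -, hlim⟩ := first_limit (E := E)
  obtain ⟨θ, c, hθ, hθ4, hθT, hc, hloc⟩ :=
    loc_improvement (F := (ℝ ∙ e)ᗮ) T₀ h₀ C hT₀ hh₀
  by_contra hcon
  have hbad : ∀ n : ℕ, ∃ (u : E → ℝ) (δ : ℝ) (p : E), Visc (ball 0 8) u ∧ 0 < δ ∧
      δ ≤ 1 / ((n : ℝ) + 1) ∧ FlatOn (ball 0 4) u 1 δ ∧ 1 / 4 ≤ ‖p‖ ∧ ‖p‖ ≤ 4 ∧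
      FitWin u 0 p 1 δ ∧ ∀ p' : E, ‖p' - p‖ ≤ 8 * c * Real.sqrt δ → ¬ FitWin u 0 p' θ (δ / 4) := by
    intro n
    by_contra hn
    refine hcon ⟨θ, 1 / ((n : ℝ) + 1), 8 * c, hθ, hθ4, by positivity, by positivity, ?_⟩
    intro u δ hu hδ hδ' hfl p hp1 hp2 hpw
    by_contra hno
    exact hn ⟨u, δ, p, hu, hδ, hδ', hfl, hp1, hp2, hpw, fun p' h h' => hno ⟨p', h, h'⟩⟩
  choose u δ p hu hδ hδn hfl hp1 hp2 hpw hno using hbad
  have hKpos : ∀ n, 0 < ‖p n‖ := fun n => lt_of_lt_of_le (by norm_num) (hp1 n)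
  have hunit : ∀ n, ‖e‖ = ‖‖p n‖⁻¹ • p n‖ := fun n => by
    rw [he, norm_smul, norm_inv, norm_norm, inv_mul_cancel₀ (hKpos n).ne']
  set L : ℕ → E ≃ₗᵢ[ℝ] E :=
    fun n => (ℝ ∙ (e - ‖p n‖⁻¹ • p n))ᗮ.reflection
  have hLe : ∀ n, ‖p n‖ • L n e = p n := fun n => by
    simp only [L]
    rw [Submodule.reflection_sub (hunit n), smul_inv_smul₀ (hKpos n).ne']
  set v : ℕ → E → ℝ := fun n z => u n (L n z) / ‖p n‖
  have hδ0 : Tendsto δ atTop (𝓝 0) :=
    squeeze_zero (fun n => (hδ n).le) hδn tendsto_one_div_add_atTop_nhds_zero_nat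
  have hflat : ∀ n, Flat₁ (v n) (δ n) := by
    intro n x hx
    obtain ⟨q, hq1, hq2, hqw⟩ := hfl n (L n x) (by simpa using hx)
    have hnq : ‖‖p n‖⁻¹ • (L n).symm q‖ = ‖q‖ / ‖p n‖ := by
      rw [norm_smul, norm_inv, norm_norm, LinearIsometryEquiv.norm_map, inv_mul_eq_div]
    refine ⟨‖p n‖⁻¹ • (L n).symm q, ?_, ?_, FitWin.normalise (L n) (hKpos n) ?_⟩
    · rw [hnq, le_div_iff₀ (hKpos n)]; linarith [hp2 n]
    · rw [hnq, div_le_iff₀ (hKpos n)]; linarith [hp1 n]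
    · rwa [map_smul, LinearIsometryEquiv.apply_symm_apply, smul_inv_smul₀ (hKpos n).ne']
  have hwin : ∀ n, FitWin (v n) 0 e 1 (δ n) := fun n =>
    FitWin.normalise (L n) (hKpos n) (by rw [map_zero, hLe]; exact hpw n)
  obtain ⟨φ, w, hφ, hw, hconv⟩ :=
    hlim he v δ hδ hδ0 (fun n => (hu n).normalise (L n) (hKpos n)) hflat hwin
  obtain ⟨b, k, hb, hk, haff⟩ := hloc hw
  have hev := (Metric.tendstoUniformlyOn_iff.1 (hconv (8 * θ + 2 * θ * c)) (θ / 64) (by positivity))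
  have hsm : ∀ᶠ n in atTop, Real.sqrt (δ (φ n)) * (1 + c) ^ 2 ≤ 1 / 4 := by
    have : Tendsto (fun n => Real.sqrt (δ (φ n)) * (1 + c) ^ 2) atTop (𝓝 0) := by
      simpa using (((hδ0.comp hφ.tendsto_atTop).sqrt).mul_const ((1 + c) ^ 2))
    exact this.eventually (ge_mem_nhds (by norm_num))
  obtain ⟨n, hn, hn'⟩ := (hev.and hsm).exists
  set N := φ n
  obtain ⟨hfit, hclose⟩ := fitWin_of_scaled (v := v N) (k := k) he (hδ N) hθ hb hk hn' (by
    intro t ξ ht hξ
    have hξn : ‖ξ‖ ≤ 8 * θ + 2 * θ * c := by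
      have h1 : ‖t • k‖ ≤ 2 * θ * c := by
        rw [norm_smul, Real.norm_eq_abs]
        exact mul_le_mul ht hk (norm_nonneg _) (by linarith)
      linarith [norm_le_insert' ξ (t • k)]
    have hmem : (t, ξ) ∈ Icc (-(T₀ / 2)) (T₀ / 2) ×ˢ closedBall (0 : (ℝ ∙ e)ᗮ) (8 * θ + 2 * θ * c) :=
      ⟨mem_Icc.2 (abs_le.1 (by linarith)), mem_closedBall_zero_iff.2 hξn⟩
    have h1 : |w t ξ - scaled (v N) 0 e 1 (δ N) t ξ| < θ / 64 := hn (t, ξ) hmem
    have h2 := haff t ξ ht hξ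
    rw [abs_lt] at h1
    rw [abs_le] at h2 ⊢
    constructor <;> linarith [h1.1, h1.2, h2.1, h2.2])
  have hres := FitWin.unnormalise (L N) (hKpos N) hfit
  rw [map_zero] at hres
  refine hno N _ ?_ hres
  calc ‖‖p N‖ • L N _ - p N‖ = ‖p N‖ * ‖(1 + δ N * b) • e + Real.sqrt (δ N) • (k : E) - e‖ := by
        conv_lhs => arg 1; arg 2; rw [← hLe N]
        rw [← smul_sub, ← map_sub, norm_smul, norm_norm, LinearIsometryEquiv.norm_map]
    _ ≤ 4 * (2 * c * Real.sqrt (δ N)) :=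
        mul_le_mul (hp2 N) hclose (norm_nonneg _) (by norm_num)
    _ = 8 * c * Real.sqrt (δ N) := by ring

end Vale.Agent.P080.C1
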