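import Vale.Agent.P080.C1.Defs

/-!
A0: the invariances of the class.
-/

namespace Vale.Agent.P080.C1

open Set Filter Topology
open scoped RealInnerProductSpace

set_option linter.unusedSectionVars false

variable {F : Type*} [NormedAddCommGroup F] [InnerProductSpace ℝ F] [FiniteDimensional ℝ F]
variable {C : ℝ} {w : ℝ → F → ℝ}

theorem mir_mir (w : ℝ → F → ℝ) : mir (mir w) = w := by
  funext t y; simp [mir]

theorem Window.nonneg (hw : Window C w) : 0 ≤ C := by
  obtain ⟨b, v, h⟩ := hw 0 0 1 one_pos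
  simpa using h 0 0 (by simp) (by simp)

theorem IsWin.mirror {t r b : ℝ} {y v : F} (h : IsWin C w (-t) y r b v) :
    IsWin C (mir w) t y r b (-v) := fun τ z hτ hz => by
  have := h (-τ) z (by rwa [abs_neg]) hz
  rw [neg_smul, ← smul_neg, show -t + -τ = -(t + τ) by ring] at this
  simp only [mir, norm_neg, inner_neg_left]
  rw [← abs_neg]
  convert this using 2
  ring

theorem Window.mirror (hw : Window C w) : Window C (mir w) := fun t y r hr => by
  obtain ⟨b, v, h⟩ := hw (-t) y r hr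
  exact ⟨b, -v, h.mirror⟩

theorem Prof.mirror (hw : Prof C w) : Prof C (mir w) :=
  ⟨hw.mono_mir, by rw [mir_mir]; exact hw.mono, hw.window.mirror, hw.barrier_mir,
    by rw [mir_mir]; exact hw.barrier⟩

/-- Windows at two radii of ratio two have nearly the same slopes. -/
theorem win_double {t r b b' : ℝ} {y v v' : F} (hr : 0 < r) (hC : 0 ≤ C)
    (h : IsWin C w t y r b v) (h' : IsWin C w t y (2 * r) b' v') :
    ‖v' - v‖ ≤ 3 * C ∧ |b' - b| ≤ 3 * C * (3 * C + 1) + (3 * C) ^ 2 := by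
  have hv : ‖v' - v‖ ≤ 3 * C := by
    rcases eq_or_ne (v' - v) 0 with h0 | h0
    · rw [h0, norm_zero]; positivity
    have hn : 0 < ‖v' - v‖ := norm_pos_iff.2 h0
    obtain ⟨z, hz⟩ : ∃ z, z = (r / ‖v' - v‖) • (v' - v) := ⟨_, rfl⟩
    have hzn : ‖z‖ = r := by
      rw [hz, norm_smul, Real.norm_of_nonneg (by positivity), div_mul_cancel₀ _ hn.ne']
    have e1 := abs_le.1 (h 0 z (by simpa using hr.le) hzn.le)
    have e2 := abs_le.1 (h' 0 z (by simpa using hr.le) (by linarith))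
    have e3 : ⟪v', z⟫ - ⟪v, z⟫ = r * ‖v' - v‖ := by
      rw [← inner_sub_left, hz, real_inner_smul_right, real_inner_self_eq_norm_sq]
      field_simp
    simp only [zero_smul, add_zero, mul_zero, sub_zero] at e1 e2
    nlinarith
  refine ⟨hv, ?_⟩
  obtain ⟨τ, hτ⟩ : ∃ τ, τ = r / (3 * C + 1) := ⟨_, rfl⟩
  have hτ0 : 0 < τ := hτ ▸ by positivity
  have hτr : τ ≤ r := by rw [hτ, div_le_iff₀ (by positivity)]; nlinarith
  have hzn : ‖τ • (v - v')‖ ≤ 2 * r := by
    rw [norm_smul, Real.norm_of_nonneg hτ0.le, norm_sub_rev]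
    have : τ * (3 * C + 1) = r := by rw [hτ]; field_simp
    nlinarith [norm_nonneg (v' - v)]
  have e1 := abs_le.1 (h τ 0 (by rwa [abs_of_pos hτ0]) (by simpa using hr.le))
  have e2 := abs_le.1 (h' τ (τ • (v - v')) (by rw [abs_of_pos hτ0]; linarith) hzn)
  rw [show y + τ • v' + τ • (v - v') = y + τ • v + 0 by module, real_inner_smul_right,
    inner_sub_right, real_inner_self_eq_norm_sq] at e2
  simp only [inner_zero_right, sub_zero] at e1
  have e3 := norm_sub_sq_real v' v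
  have hd : |b' - b - ‖v' - v‖ ^ 2 / 2| * τ ≤ 3 * C * r := by
    rw [← abs_of_pos hτ0, ← abs_mul, abs_le]
    constructor <;> nlinarith
  have hr' : r = τ * (3 * C + 1) := by rw [hτ]; field_simp
  have hd' : |b' - b - ‖v' - v‖ ^ 2 / 2| ≤ 3 * C * (3 * C + 1) :=
    le_of_mul_le_mul_right (a := τ) (by rw [hr'] at hd; linarith) hτ0
  have hsq := pow_le_pow_left₀ (norm_nonneg _) hv 2
  rw [abs_le] at hd' ⊢
  constructor <;> nlinarith [sq_nonneg ‖v' - v‖]

theorem sq_le_five_two_pow : ∀ n : ℕ, ((n : ℝ) + 1) ^ 2 ≤ 5 * 2 ^ n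
  | 0 => by norm_num
  | 1 => by norm_num
  | 2 => by norm_num
  | n + 3 => by
    have := sq_le_five_two_pow (n + 2)
    push_cast at this ⊢
    rw [show (2 : ℝ) ^ (n + 3) = 2 ^ (n + 2) * 2 from pow_succ 2 (n + 2)]
    nlinarith [sq_nonneg (n : ℝ), n.cast_nonneg (α := ℝ)]

/-- A power of two in a given range, above a given one. -/
theorem exists_two_pow (n₀ : ℕ) {x : ℝ} (hx : 0 ≤ x) :
    ∃ n : ℕ, (2 : ℝ) ^ n₀ ≤ 2 ^ n ∧ x ≤ 2 ^ n ∧ (2 : ℝ) ^ n ≤ 2 ^ n₀ * (1 + 2 * x) := by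
  have hp : (1 : ℝ) ≤ 2 ^ n₀ := one_le_pow₀ one_le_two
  rcases le_or_gt x 1 with h1 | h1
  · exact ⟨n₀, le_rfl, h1.trans hp, le_mul_of_one_le_right (by positivity) (by linarith)⟩
  obtain ⟨m, hm1, hm2⟩ := exists_nat_pow_near h1.le (one_lt_two : (1 : ℝ) < 2)
  have h2 : (1 : ℝ) ≤ 2 ^ (m + 1) := one_le_pow₀ one_le_two
  refine ⟨m + 1 + n₀, ?_, ?_, ?_⟩ <;> rw [pow_add]
  · exact le_mul_of_one_le_left (by positivity) h2
  · exact hm2.le.trans (le_mul_of_one_le_right (by positivity) hp)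
  · rw [mul_comm, pow_succ]
    exact mul_le_mul_of_nonneg_left (by linarith) (by positivity)

/-- The slopes of the dyadic windows at one point grow at most linearly. -/
theorem dyadic_growth {t h : ℝ} {y : F} {b : ℕ → ℝ} {v : ℕ → F} (hC : 0 ≤ C) (hh : 0 < h)
    (hwin : ∀ n, IsWin C w t y (2 ^ n * h) (b n) (v n)) :
    ∃ K, 0 ≤ K ∧ ∀ n : ℕ, ‖v n‖ ≤ K * (n + 1) ∧ |b n| ≤ K * (n + 1) := by
  obtain ⟨D, hD⟩ : ∃ D, D = 3 * C * (3 * C + 1) + (3 * C) ^ 2 + 3 * C := ⟨_, rfl⟩
  have hD0 : 0 ≤ D := hD ▸ by positivity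
  refine ⟨|b 0| + ‖v 0‖ + D, by positivity, fun n => ?_⟩
  have hb0 := abs_nonneg (b 0)
  have hv0 := norm_nonneg (v 0)
  induction n with
  | zero => constructor <;> norm_num <;> linarith
  | succ n ih =>
    have h2 := hwin (n + 1)
    rw [pow_succ, show (2 : ℝ) ^ n * 2 * h = 2 * (2 ^ n * h) by ring] at h2
    obtain ⟨hv, hb⟩ := win_double (by positivity) hC (hwin n) h2
    have hv' := norm_le_norm_add_norm_sub' (v (n + 1)) (v n)
    have hb' := abs_sub_abs_le_abs_sub (b (n + 1)) (b n)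
    have h3 : (0 : ℝ) ≤ (3 * C) ^ 2 := sq_nonneg _
    have h4 : 0 ≤ 3 * C * (3 * C + 1) := by positivity
    obtain ⟨ih1, ih2⟩ := ih
    push_cast
    constructor <;> nlinarith

/-- Below one dyadic window a point grows linearly in the radius, up to a small square. -/
theorem win_upper {t h b K X : ℝ} {y v z : F} (hh : 0 < h) (hX1 : 1 ≤ X)
    (hX : 20 * K ^ 2 + 1 ≤ X) (hzX : 2 * ‖z‖ / h ≤ X) (hw : IsWin C w t y (X * h) b v)
    (hv : ‖v‖ ^ 2 ≤ 5 * K ^ 2 * X) (hb : |b| ≤ 5 * K * X) :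
    w (t + h) (y + z) - w t y ≤
      (20 * K ^ 2 * h + 5 * K * h + C * h) * X + ‖z‖ ^ 2 / (8 * h) := by
  have hv2 : ‖v‖ ≤ X / 2 := by
    refine (abs_le_of_sq_le_sq' ?_ (by positivity)).2
    nlinarith
  have hzn : ‖z - h • v‖ ≤ X * h := by
    refine (norm_sub_le _ _).trans ?_
    rw [norm_smul, Real.norm_of_nonneg hh.le]
    rw [div_le_iff₀ hh] at hzX
    nlinarith
  have e := abs_le.1 (hw h (z - h • v)
    (by rw [abs_of_pos hh]; exact le_mul_of_one_le_left hh.le hX1) hzn)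
  rw [show y + h • v + (z - h • v) = y + z by abel, inner_sub_right, real_inner_smul_right,
    real_inner_self_eq_norm_sq] at e
  have hi := (abs_le.1 (abs_real_inner_le_norm v z)).2
  have hdiv : ‖v‖ * ‖z‖ ≤ ‖z‖ ^ 2 / (8 * h) + 2 * h * ‖v‖ ^ 2 := by
    rw [div_add' _ _ _ (by positivity), le_div_iff₀ (by positivity)]
    nlinarith [sq_nonneg (‖z‖ - 4 * h * ‖v‖)]
  nlinarith [le_abs_self b, mul_le_mul_of_nonneg_left hv hh.le,
    mul_le_mul_of_nonneg_left hb hh.le, mul_nonneg hh.le (sq_nonneg ‖v‖),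
    mul_nonneg (mul_nonneg hh.le (sq_nonneg K)) (zero_le_one.trans hX1)]

/-- A linear term is absorbed by the square. -/
theorem linear_le_sq {h A x : ℝ} (hh : 0 < h) :
    A * x + x ^ 2 / (8 * h) ≤ A ^ 2 * (2 * h) + x ^ 2 / (2 * h) := by
  have h1 : A * x ≤ x ^ 2 / (8 * h) + A ^ 2 * (2 * h) := by
    rw [div_add' _ _ _ (by positivity), le_div_iff₀ (by positivity)]
    nlinarith [sq_nonneg (x - 4 * h * A)]
  have h2 : x ^ 2 / (8 * h) + x ^ 2 / (8 * h) ≤ x ^ 2 / (2 * h) := by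
    rw [← add_div, div_le_div_iff₀ (by positivity) (by positivity)]
    nlinarith [mul_nonneg hh.le (sq_nonneg x)]
  linarith

/-- The forward values are finite. -/
theorem Window.bdd (hw : Window C w) {h : ℝ} (hh : 0 < h) (t : ℝ) (y : F) :
    BddAbove (range fun z => w (t + h) (y + z) - ‖z‖ ^ 2 / (2 * h)) := by
  have hC := hw.nonneg
  choose b v hwin using fun n : ℕ => hw t y (2 ^ n * h) (by positivity)
  obtain ⟨K, hK0, hg⟩ := dyadic_growth hC hh hwin
  obtain ⟨Q, hQ⟩ : ∃ Q, Q = 20 * K ^ 2 * h + 5 * K * h + C * h := ⟨_, rfl⟩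
  obtain ⟨n₀, hn₀⟩ := pow_unbounded_of_one_lt (20 * K ^ 2 + 1) (one_lt_two : (1 : ℝ) < 2)
  have hQ0 : 0 ≤ Q := hQ ▸ by positivity
  refine ⟨w t y + Q * 2 ^ n₀ + (4 * Q * 2 ^ n₀ / h) ^ 2 * (2 * h), ?_⟩
  rintro _ ⟨z, rfl⟩
  dsimp only
  obtain ⟨n, hn1, hn2, hn3⟩ := exists_two_pow n₀ (x := 2 * ‖z‖ / h) (by positivity)
  obtain ⟨hv, hb⟩ := hg n
  have hsq := sq_le_five_two_pow n
  have hn : (0 : ℝ) ≤ n := n.cast_nonneg
  have hvv : ‖v n‖ ^ 2 ≤ 5 * K ^ 2 * 2 ^ n := by
    refine (pow_le_pow_left₀ (norm_nonneg _) hv 2).trans ?_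
    rw [mul_pow, show 5 * K ^ 2 * (2 : ℝ) ^ n = K ^ 2 * (5 * 2 ^ n) by ring]
    exact mul_le_mul_of_nonneg_left hsq (sq_nonneg K)
  have hbb : |b n| ≤ 5 * K * 2 ^ n := hb.trans <| by
    rw [show 5 * K * (2 : ℝ) ^ n = K * (5 * 2 ^ n) by ring]
    exact mul_le_mul_of_nonneg_left (by nlinarith) hK0
  have hmain := win_upper hh (one_le_pow₀ one_le_two) (by linarith) hn2 (hwin n) hvv hbb
  rw [← hQ] at hmain
  have h9 := mul_le_mul_of_nonneg_left hn3 hQ0
  have h10 : Q * (2 ^ n₀ * (1 + 2 * (2 * ‖z‖ / h))) =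
      Q * 2 ^ n₀ + 4 * Q * 2 ^ n₀ / h * ‖z‖ := by ring
  have h11 := linear_le_sq (A := 4 * Q * 2 ^ n₀ / h) (x := ‖z‖) hh
  linarith

/-- The forward value of an affine modification. -/
theorem hlP_congr {w w' : ℝ → F → ℝ} {h h' t t' a c : ℝ} {y y' : F} (ha : 0 < a) (g : F → F)
    (hg : Function.Surjective g)
    (hb : BddAbove (range fun z => w (t + h) (y + z) - ‖z‖ ^ 2 / (2 * h)))
    (e : ∀ z, w' (t' + h') (y' + z) - ‖z‖ ^ 2 / (2 * h') =
      a * (w (t + h) (y + g z) - ‖g z‖ ^ 2 / (2 * h)) + c) :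
    hlP w' h' t' y' = a * hlP w h t y + c := by
  obtain ⟨f, hf⟩ : ∃ f : F → ℝ, f = fun z => w (t + h) (y + z) - ‖z‖ ^ 2 / (2 * h) := ⟨_, rfl⟩
  have hm : Monotone fun x => a * x + c := fun p q hpq => by
    have := mul_le_mul_of_nonneg_left hpq ha.le; dsimp only; linarith
  rw [hlP, hlP, ← hf, funext e]
  rw [← hf] at hb
  have hr : (range fun z => a * f (g z) + c) = (fun x => a * x + c) '' range f := by
    rw [← range_comp, ← hg.range_comp ((fun x => a * x + c) ∘ f)]
    rfl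
  rw [hf] at hr ⊢
  rw [hr, ← hm.map_csSup_of_continuousAt (Continuous.continuousAt (by fun_prop)) (range_nonempty _)
    (hf ▸ hb)]

theorem mir_shift (w : ℝ → F → ℝ) (t₀ : ℝ) (y₀ : F) :
    mir (C1.shift w t₀ y₀) = C1.shift (mir w) (-t₀) y₀ := by
  funext t y
  simp only [mir, C1.shift]
  rw [show -(-t₀ + t) = t₀ + -t by ring, neg_neg]
  ring

theorem Mono.shift (hm : Mono w) (hw : Window C w) (t₀ : ℝ) (y₀ : F) :
    Mono (C1.shift w t₀ y₀) := fun t y h (hh : 0 < h) k (hk : 0 < k) hhk => by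
  have e : ∀ h, 0 < h → Sp (C1.shift w t₀ y₀) h t y = Sp w h (t₀ + t) (y₀ + y) := fun h hh => by
    rw [Sp, Sp, hlP_congr (a := 1) (c := -w t₀ y₀) one_pos id Function.surjective_id
      (hw.bdd hh (t₀ + t) (y₀ + y)) (fun z => by simp [C1.shift, add_assoc]; ring)]
    simp only [C1.shift]
    ring
  dsimp only
  rw [e h hh, e k hk]
  exact hm (t₀ + t) (y₀ + y) hh hk hhk

theorem Barrier.shift (hB : Barrier w) (t₀ : ℝ) (y₀ : F) : Barrier (C1.shift w t₀ y₀) := by
  intro t y k T R L M c K hT hR hM hL hbd σ z hσ hσT hz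
  have e : ∀ (σ : ℝ) (z : F), back (C1.shift w t₀ y₀) t y k σ z =
      back w (t₀ + t) (y₀ + y) k σ z - w t₀ y₀ := fun σ z => by
    simp only [back, C1.shift]
    rw [show t₀ + (t - σ) = t₀ + t - σ by ring,
      show y₀ + (y - σ • k + z) = y₀ + y - σ • k + z by abel]
    ring
  simp only [e] at hbd ⊢
  have := hB (t₀ + t) (y₀ + y) k T R L M (c + w t₀ y₀) K hT hR hM hL
    (fun s x a b c d => by linarith [hbd s x a b c d]) σ z hσ hσT hz
  linarith

theorem Window.shift (hw : Window C w) (t₀ : ℝ) (y₀ : F) : Window C (C1.shift w t₀ y₀) :=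
  fun t y r hr => by
    obtain ⟨b, v, h⟩ := hw (t₀ + t) (y₀ + y) r hr
    refine ⟨b, v, fun τ z hτ hz => ?_⟩
    have := h τ z hτ hz
    simp only [C1.shift]
    rw [show t₀ + (t + τ) = t₀ + t + τ by ring,
      show y₀ + (y + τ • v + z) = y₀ + y + τ • v + z by abel]
    convert this using 2
    ring

theorem Prof.shift (hw : Prof C w) (t₀ : ℝ) (y₀ : F) : Prof C (shift w t₀ y₀) :=
  ⟨hw.mono.shift hw.window t₀ y₀,
    by rw [mir_shift]; exact hw.mono_mir.shift hw.window.mirror _ _,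
    hw.window.shift t₀ y₀, hw.barrier.shift t₀ y₀,
    by rw [mir_shift]; exact hw.barrier_mir.shift _ _⟩

theorem mir_boost (w : ℝ → F → ℝ) (k : F) : mir (C1.boost w k) = C1.boost (mir w) (-k) := by
  funext t y
  simp only [mir, C1.boost, smul_neg, neg_smul, inner_neg_left, norm_neg]
  ring

theorem Mono.boost (hm : Mono w) (hw : Window C w) (k : F) : Mono (C1.boost w k) :=
  fun t y h (hh : 0 < h) h' (hh' : 0 < h') hle => by
    have e : ∀ h, 0 < h → Sp (C1.boost w k) h t y = Sp w h t (y + t • k) := fun h hh => by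
      rw [Sp, Sp, hlP_congr (a := 1) (c := -⟪k, y⟫ - ‖k‖ ^ 2 / 2 * t) one_pos (· + h • k)
        (fun x => ⟨x - h • k, sub_add_cancel x _⟩) (hw.bdd hh t (y + t • k)) fun z => ?_]
      · simp only [C1.boost]; ring
      · simp only [C1.boost]
        rw [show y + z + (t + h) • k = y + t • k + (z + h • k) by module, norm_add_sq_real,
          norm_smul, Real.norm_of_nonneg hh.le, inner_add_right, real_inner_smul_right,
          real_inner_comm z k]
        field_simp
        ring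
    dsimp only
    rw [e h hh, e h' hh']
    exact hm t (y + t • k) hh hh' hle

theorem Barrier.boost (hB : Barrier w) (k : F) : Barrier (C1.boost w k) := by
  intro t y q T R L M c K hT hR hM hL hbd σ z hσ hσT hz
  obtain ⟨d, hd⟩ : ∃ d, d = -⟪k, y⟫ - ‖k‖ ^ 2 / 2 * t := ⟨_, rfl⟩
  have e : ∀ (σ : ℝ) (z : F), back (C1.boost w k) t y q σ z =
      back w t (y + t • k) (q + k) σ z + d := fun σ z => by
    simp only [back, C1.boost, hd]
    rw [show y - σ • q + z + (t - σ) • k = y + t • k - σ • (q + k) + z by module,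
      inner_add_right, inner_sub_right, real_inner_smul_right, inner_add_left, norm_add_sq_real,
      real_inner_comm q k]
    ring
  simp only [e] at hbd ⊢
  have := hB t (y + t • k) (q + k) T R L M (c - d) K hT hR hM hL
    (fun s x a b c d => by linarith [hbd s x a b c d]) σ z hσ hσT hz
  linarith

theorem Window.boost (hw : Window C w) (k : F) : Window C (C1.boost w k) := fun t y r hr => by
  obtain ⟨b, v, h⟩ := hw t (y + t • k) r hr
  refine ⟨b, v - k, fun τ z hτ hz => ?_⟩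
  have := h τ z hτ hz
  simp only [C1.boost]
  rw [show y + τ • (v - k) + z + (t + τ) • k = y + t • k + τ • v + z by module, norm_sub_sq_real,
    inner_sub_left, inner_add_right, inner_add_right, real_inner_smul_right, inner_sub_right,
    real_inner_self_eq_norm_sq, real_inner_comm v k]
  convert this using 2
  ring

theorem Prof.boost (hw : Prof C w) (k : F) : Prof C (boost w k) :=
  ⟨hw.mono.boost hw.window k, by rw [mir_boost]; exact hw.mono_mir.boost hw.window.mirror _,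
    hw.window.boost k, hw.barrier.boost k, by rw [mir_boost]; exact hw.barrier_mir.boost _⟩

theorem mir_tilt (w : ℝ → F → ℝ) (b : ℝ) : mir (C1.tilt w b) = C1.tilt (mir w) b := by
  funext t y; simp only [mir, C1.tilt]; ring

theorem Mono.tilt (hm : Mono w) (hw : Window C w) (b : ℝ) : Mono (C1.tilt w b) :=
  fun t y h (hh : 0 < h) k (hk : 0 < k) hhk => by
    have e : ∀ h, 0 < h → Sp (C1.tilt w b) h t y = Sp w h t y + b := fun h hh => by
      rw [Sp, Sp, hlP_congr (a := 1) (c := b * (t + h)) one_pos id Function.surjective_id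
        (hw.bdd hh t y) (fun z => by simp [C1.tilt]; ring)]
      simp only [C1.tilt]
      field_simp
      ring
    dsimp only
    rw [e h hh, e k hk]
    exact add_le_add (hm t y hh hk hhk) le_rfl

theorem Barrier.tilt (hB : Barrier w) (b : ℝ) : Barrier (C1.tilt w b) := by
  intro t y k T R L M c K hT hR hM hL hbd σ z hσ hσT hz
  have e : ∀ (σ : ℝ) (z : F), back (C1.tilt w b) t y k σ z = back w t y k σ z + b * t - b * σ :=
    fun σ z => by simp only [back, C1.tilt]; ring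
  simp only [e] at hbd ⊢
  have := hB t y k T R L M (c - b * t) (K + b) hT hR hM hL
    (fun s x a b c d => by linarith [hbd s x a b c d]) σ z hσ hσT hz
  linarith

theorem Window.tilt (hw : Window C w) (b : ℝ) : Window C (C1.tilt w b) := fun t y r hr => by
  obtain ⟨b', v, h⟩ := hw t y r hr
  refine ⟨b' + b, v, fun τ z hτ hz => ?_⟩
  have := h τ z hτ hz
  simp only [C1.tilt]
  convert this using 2
  ring

theorem Prof.tilt (hw : Prof C w) (b : ℝ) : Prof C (tilt w b) :=
  ⟨hw.mono.tilt hw.window b, by rw [mir_tilt]; exact hw.mono_mir.tilt hw.window.mirror b,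
    hw.window.tilt b, hw.barrier.tilt b, by rw [mir_tilt]; exact hw.barrier_mir.tilt b⟩

theorem mir_rescale (w : ℝ → F → ℝ) (l : ℝ) :
    mir (C1.rescale w l) = C1.rescale (mir w) l := by
  funext t y; simp [mir, C1.rescale, neg_div]

theorem Mono.rescale (hm : Mono w) (hw : Window C w) {l : ℝ} (hl : 0 < l) :
    Mono (C1.rescale w l) := fun t y h (hh : 0 < h) k (hk : 0 < k) hhk => by
  have e : ∀ h, 0 < h → Sp (C1.rescale w l) h t y = Sp w (l * h) (l * t) (l • y) := fun h hh => by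
    rw [Sp, Sp, hlP_congr (a := 1 / l) (c := 0) (by positivity) (l • ·)
      (fun x => ⟨l⁻¹ • x, smul_inv_smul₀ hl.ne' x⟩) (hw.bdd (mul_pos hl hh) (l * t) (l • y))
      fun z => ?_]
    · simp only [C1.rescale]; field_simp; ring
    · simp only [C1.rescale]
      rw [mul_add, smul_add, norm_smul, Real.norm_of_nonneg hl.le]
      field_simp
      ring
  dsimp only
  rw [e h hh, e k hk]
  exact hm (l * t) (l • y) (mul_pos hl hh) (mul_pos hl hk) (mul_le_mul_of_nonneg_left hhk hl.le)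

theorem Barrier.rescale (hB : Barrier w) {l : ℝ} (hl : 0 < l) : Barrier (C1.rescale w l) := by
  intro t y k T R L M c K hT hR hM hL hbd σ z hσ hσT hz
  have e : ∀ (σ : ℝ) (z : F), back (C1.rescale w l) t y k σ z =
      back w (l * t) (l • y) k (l * σ) (l • z) / l := fun σ z => by
    simp only [back, C1.rescale]
    rw [mul_sub, smul_add, smul_sub, smul_smul, real_inner_smul_right]
    field_simp
  have hr : ∀ (σ : ℝ) (z : F), l * c + K * (l * σ) - L / l * (l * σ) ^ 2 + M / l * ‖l • z‖ ^ 2 =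
      l * (c + K * σ - L * σ ^ 2 + M * ‖z‖ ^ 2) := fun σ z => by
    rw [norm_smul, Real.norm_of_nonneg hl.le]; field_simp
  simp only [e] at hbd ⊢
  have hn : ∀ x : F, ‖l • x‖ = l * ‖x‖ := fun x => by rw [norm_smul, Real.norm_of_nonneg hl.le]
  have := hB (l * t) (l • y) k (l * T) (l * R) (L / l) (M / l) (l * c) K (mul_pos hl hT)
    (mul_pos hl hR) (div_nonneg hM hl.le)
    (by
      rw [show 4 * (M / l) ^ 3 * (l * R) ^ 2 = 4 * M ^ 3 * R ^ 2 / l by field_simp]
      exact (div_lt_div_iff_of_pos_right hl).2 hL)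
    (fun s x hs hsT hx hor => ?_) (l * σ) (l • z) (mul_nonneg hl.le hσ)
    (mul_le_mul_of_nonneg_left hσT hl.le) (by rw [hn]; exact mul_le_mul_of_nonneg_left hz hl.le)
  · rw [hr] at this
    rwa [div_le_iff₀ hl, mul_comm _ l]
  · obtain ⟨σ', rfl⟩ : ∃ σ', l * σ' = s := ⟨s / l, mul_div_cancel₀ s hl.ne'⟩
    obtain ⟨x', rfl⟩ : ∃ x', l • x' = x := ⟨l⁻¹ • x, smul_inv_smul₀ hl.ne' x⟩
    rw [hn] at hx hor
    have h2 := hbd σ' x' (nonneg_of_mul_nonneg_right hs hl) (le_of_mul_le_mul_left hsT hl)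
      (le_of_mul_le_mul_left hx hl) (hor.imp (fun h => (mul_eq_zero.1 h).resolve_left hl.ne')
        (Or.imp (mul_left_cancel₀ hl.ne') (mul_left_cancel₀ hl.ne')))
    rw [hr]
    rw [div_le_iff₀ hl] at h2
    linarith

theorem Window.rescale (hw : Window C w) {l : ℝ} (hl : 0 < l) : Window C (C1.rescale w l) :=
  fun t y r hr => by
    obtain ⟨b, v, h⟩ := hw (l * t) (l • y) (l * r) (mul_pos hl hr)
    refine ⟨b, v, fun τ z hτ hz => ?_⟩
    have := h (l * τ) (l • z) (by rw [abs_mul, abs_of_pos hl]; gcongr)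
      (by rw [norm_smul, Real.norm_of_nonneg hl.le]; gcongr)
    simp only [C1.rescale]
    rw [mul_add, smul_add, smul_add, smul_smul]
    rw [real_inner_smul_right] at this
    rw [← mul_le_mul_iff_right₀ hl, ← abs_of_pos hl, ← abs_mul, abs_of_pos hl]
    refine le_of_eq_of_le ?_ (this.trans_eq (by ring))
    congr 1
    field_simp

theorem Prof.rescale (hw : Prof C w) {l : ℝ} (hl : 0 < l) : Prof C (rescale w l) :=
  ⟨hw.mono.rescale hw.window hl,
    by rw [mir_rescale]; exact hw.mono_mir.rescale hw.window.mirror hl,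
    hw.window.rescale hl, hw.barrier.rescale hl,
    by rw [mir_rescale]; exact hw.barrier_mir.rescale hl⟩

end Vale.Agent.P080.C1
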