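import Vale.Agent.P080.C1.Holder

/-!
B7: the improvement of flatness iterated at every centre gives a Hölder gradient near a flat point.
-/

namespace Vale.Agent.P080.C1

open Metric Set Filter Topology
open scoped RealInnerProductSpace

set_option linter.unusedSectionVars false

variable {E : Type} [NormedAddCommGroup E] [InnerProductSpace ℝ E] [FiniteDimensional ℝ E]

/-- One step of the improvement of flatness, with fixed constants. -/
def StepImprove (E : Type) [NormedAddCommGroup E] [InnerProductSpace ℝ E] [FiniteDimensional ℝ E]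
    (θ δ₀ c : ℝ) : Prop :=
  ∀ (u : E → ℝ) (δ : ℝ), Visc (ball 0 8) u → 0 < δ → δ ≤ δ₀ → FlatOn (ball 0 4) u 1 δ →
    ∀ p : E, 1 / 4 ≤ ‖p‖ → ‖p‖ ≤ 4 → FitWin u 0 p 1 δ →
      ∃ p' : E, ‖p' - p‖ ≤ c * Real.sqrt δ ∧ FitWin u 0 p' θ (δ / 4)

/-- An affine change of variables scales the infinity Laplacian. -/
theorem infLap_affine {φ : E → ℝ} (hφ : ContDiff ℝ 2 φ) (k a : ℝ) (c z : E) :
    fderiv ℝ (fderiv ℝ (fun w => k * φ (a • (w - c)))) z
        (gradient (fun w => k * φ (a • (w - c))) z) (gradient (fun w => k * φ (a • (w - c))) z)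
      = k ^ 3 * a ^ 4 * fderiv ℝ (fderiv ℝ φ) (a • (z - c)) (gradient φ (a • (z - c)))
          (gradient φ (a • (z - c))) := by
  have hd : Differentiable ℝ φ := hφ.differentiable (by norm_num)
  have hd' : Differentiable ℝ (fderiv ℝ φ) :=
    (hφ.fderiv_right (m := 1) (by norm_num)).differentiable one_ne_zero
  have hA : ∀ w : E, HasFDerivAt (fun y : E => a • (y - c)) (a • ContinuousLinearMap.id ℝ E) w :=
    fun w => ((hasFDerivAt_id w).sub_const c).const_smul a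
  have h1 : fderiv ℝ (fun w => k * φ (a • (w - c)))
      = fun w => (k * a) • fderiv ℝ φ (a • (w - c)) := by
    funext w
    refine (((hd _).hasFDerivAt.comp w (hA w)).const_mul k).fderiv.trans ?_
    ext v
    simp
    ring
  have h2 : HasFDerivAt (fun w => (k * a) • fderiv ℝ φ (a • (w - c)))
      ((k * a) • (fderiv ℝ (fderiv ℝ φ) (a • (z - c))).comp (a • ContinuousLinearMap.id ℝ E)) z :=
    ((hd' _).hasFDerivAt.comp z (hA z)).const_smul (k * a)
  have hg : gradient (fun w => k * φ (a • (w - c))) z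
      = (k * a) • gradient φ (a • (z - c)) := by
    simp only [gradient, h1, map_smul]
  rw [hg, h1, h2.fderiv]
  simp
  ring

/-- Solutions are preserved by blow-up and multiplication by a positive constant. -/
theorem Visc.scale {s t : Set E} {u : E → ℝ} (h : Visc s u) {x : E} {μ K : ℝ} (hμ : 0 < μ)
    (hK : 0 < K) (ht : ∀ z ∈ t, x + μ • z ∈ s) : Visc t fun z => u (x + μ • z) / K := by
  have key : ∀ z : E, μ⁻¹ • (x + μ • z - x) = z := fun z => by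
    rw [add_sub_cancel_left, inv_smul_smul₀ hμ.ne']
  have ev : ∀ (φ : E → ℝ) (z : E) (r : ℝ → ℝ → Prop),
      (∀ᶠ y in 𝓝 z, r (u (x + μ • y) / K - φ y) (u (x + μ • z) / K - φ z)) →
      ∀ᶠ w in 𝓝 (x + μ • z), r (u w / K - φ (μ⁻¹ • (w - x)))
        (u (x + μ • z) / K - φ (μ⁻¹ • (x + μ • z - x))) := by
    intro φ z r hr
    have htend : Tendsto (fun w : E => μ⁻¹ • (w - x)) (𝓝 (x + μ • z)) (𝓝 z) :=
      (by fun_prop : Continuous fun w : E => μ⁻¹ • (w - x)).tendsto' _ _ (key z)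
    filter_upwards [htend.eventually hr] with w hw
    rw [key z]
    simpa [smul_inv_smul₀ hμ.ne'] using hw
  have e : ∀ a b : ℝ, a - K * b = K * (a / K - b) := fun a b => by field_simp
  have hcd : ∀ φ : E → ℝ, ContDiff ℝ 2 φ → ContDiff ℝ 2 fun w => K * φ (μ⁻¹ • (w - x)) :=
    fun φ hφ => contDiff_const.mul (hφ.comp ((contDiff_id.sub contDiff_const).const_smul μ⁻¹))
  refine ⟨((h.cont.comp (by fun_prop) fun z hz => ht z hz).div_const K), ?_, ?_⟩
  · intro z hz φ hφ hmax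
    have hmax' : IsLocalMax (fun w => u w - K * φ (μ⁻¹ • (w - x))) (x + μ • z) := by
      filter_upwards [ev φ z (· ≤ ·) hmax] with w hw
      simp only [e]
      exact mul_le_mul_of_nonneg_left hw hK.le
    have h0 := h.sub _ (ht z hz) _ (hcd φ hφ) hmax'
    rw [infLap_affine hφ, key] at h0
    exact nonneg_of_mul_nonneg_right h0 (by positivity)
  · intro z hz φ hφ hmin
    have hmin' : IsLocalMin (fun w => u w - K * φ (μ⁻¹ • (w - x))) (x + μ • z) := by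
      filter_upwards [ev φ z (fun a b => b ≤ a) hmin] with w hw
      simp only [e]
      exact mul_le_mul_of_nonneg_left hw hK.le
    have h0 := h.sup _ (ht z hz) _ (hcd φ hφ) hmin'
    rw [infLap_affine hφ, key] at h0
    exact nonpos_of_mul_nonpos_right h0 (by positivity)

theorem fitWin_zoom {u : E → ℝ} {c z p : E} {μ T δ : ℝ} (hμ : 0 < μ) :
    FitWin (Flat.zoom u c μ) z p T δ ↔ FitWin u (c + μ • z) p (μ * T) δ := by
  have key : ∀ d : E,
      (|⟪p, μ • d⟫| ≤ μ * T * ‖p‖ ↔ |⟪p, d⟫| ≤ T * ‖p‖) ∧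
      (‖μ • d - (⟪p, μ • d⟫ / ‖p‖ ^ 2) • p‖ ≤ 4 * (μ * T) * Real.sqrt δ ↔
        ‖d - (⟪p, d⟫ / ‖p‖ ^ 2) • p‖ ≤ 4 * T * Real.sqrt δ) ∧
      (|u (c + μ • z + μ • d) - u (c + μ • z) - ⟪p, μ • d⟫| ≤ δ * (μ * T) * ‖p‖ ↔
        |Flat.zoom u c μ (z + d) - Flat.zoom u c μ z - ⟪p, d⟫| ≤ δ * T * ‖p‖) := by
    intro d
    refine ⟨?_, ?_, ?_⟩
    · rw [real_inner_smul_right, abs_mul, abs_of_pos hμ, mul_assoc, mul_le_mul_iff_of_pos_left hμ]
    · rw [real_inner_smul_right, mul_div_assoc, mul_smul, ← smul_sub, norm_smul,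
        Real.norm_of_nonneg hμ.le, show 4 * (μ * T) * Real.sqrt δ = μ * (4 * T * Real.sqrt δ) by ring,
        mul_le_mul_iff_of_pos_left hμ]
    · have e : u (c + μ • z + μ • d) - u (c + μ • z) - ⟪p, μ • d⟫
          = μ * (Flat.zoom u c μ (z + d) - Flat.zoom u c μ z - ⟪p, d⟫) := by
        simp only [Flat.zoom, smul_add, real_inner_smul_right, add_assoc]
        field_simp
      rw [e, abs_mul, abs_of_pos hμ,
        show δ * (μ * T) * ‖p‖ = μ * (δ * T * ‖p‖) by ring, mul_le_mul_iff_of_pos_left hμ]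
  constructor
  · intro h d h1 h2
    obtain ⟨k1, k2, k3⟩ := key (μ⁻¹ • d)
    rw [smul_inv_smul₀ hμ.ne'] at k1 k2 k3
    exact k3.2 (h _ (k1.1 h1) (k2.1 h2))
  · intro h d h1 h2
    obtain ⟨k1, k2, k3⟩ := key d
    exact k3.1 (h _ (k1.2 h1) (k2.2 h2))

theorem norm_sub_proj_le (p d : E) : ‖d - (⟪p, d⟫ / ‖p‖ ^ 2) • p‖ ≤ ‖d‖ := by
  refine le_of_sq_le_sq ?_ (norm_nonneg d)
  rw [norm_sub_sq_real, norm_smul, mul_pow, Real.norm_eq_abs, sq_abs, real_inner_smul_right,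
    real_inner_comm p d]
  rcases eq_or_ne p 0 with rfl | hp
  · simp
  have hp' : ‖p‖ ≠ 0 := norm_ne_zero_iff.2 hp
  have e : (⟪p, d⟫ / ‖p‖ ^ 2) ^ 2 * ‖p‖ ^ 2 = ⟪p, d⟫ / ‖p‖ ^ 2 * ⟪p, d⟫ := by field_simp
  have h0 : 0 ≤ ⟪p, d⟫ / ‖p‖ ^ 2 * ⟪p, d⟫ := by
    rw [div_mul_eq_mul_div]; exact div_nonneg (mul_self_nonneg _) (sq_nonneg _)
  linarith

/-- A window contains the ball whose radius is its width. -/
theorem FitWin.on_ball_four {u : E → ℝ} {x p d : E} {T δ : ℝ} (h : FitWin u x p T δ) (hp : ‖p‖ ≤ 4)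
    (hT : 0 ≤ T) (hδ : 0 ≤ δ) (hs : 4 * Real.sqrt δ ≤ 1) (hd : ‖d‖ ≤ 4 * T * Real.sqrt δ) :
    |u (x + d) - u x - ⟪p, d⟫| ≤ 4 * (δ * T) := by
  refine (h d ?_ ((norm_sub_proj_le p d).trans hd)).trans ?_
  · refine (abs_real_inner_le_norm p d).trans ?_
    rw [mul_comm T]
    refine mul_le_mul_of_nonneg_left (hd.trans ?_) (norm_nonneg p)
    nlinarith [Real.sqrt_nonneg δ]
  · rw [mul_comm 4]; exact mul_le_mul_of_nonneg_left hp (by positivity)

/-- Windows of one length at two nearby centres have nearby slopes. -/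
theorem slopes_near {u : E → ℝ} {x y p q : E} {T δ : ℝ} (hT : 0 < T) (hδ : 0 < δ)
    (hs : 4 * Real.sqrt δ ≤ 1) (hp4 : ‖p‖ ≤ 4) (hq4 : ‖q‖ ≤ 4) (hp : FitWin u x p T δ)
    (hq : FitWin u y q T δ) (hxy : ‖x - y‖ ≤ 2 * T * Real.sqrt δ) :
    ‖p - q‖ ≤ 6 * Real.sqrt δ := by
  rcases eq_or_ne p q with rfl | hne
  · rw [sub_self, norm_zero]; positivity
  have hn : 0 < ‖p - q‖ := norm_pos_iff.2 (sub_ne_zero.2 hne)
  have hS : 0 < T * Real.sqrt δ := mul_pos hT (Real.sqrt_pos.2 hδ)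
  set z : E := (2 * T * Real.sqrt δ / ‖p - q‖) • (p - q) with hz
  have hzn : ‖z‖ = 2 * T * Real.sqrt δ := by
    rw [hz, norm_smul, Real.norm_of_nonneg (by positivity), div_mul_cancel₀ _ hn.ne']
  have hval : ⟪p - q, z⟫ = 2 * T * Real.sqrt δ * ‖p - q‖ := by
    rw [hz, real_inner_smul_right, real_inner_self_eq_norm_sq]; field_simp
  have h1 := abs_le.1 (hp.on_ball_four hp4 hT.le hδ.le hs (d := z) (by linarith))
  have h2 := abs_le.1 (hq.on_ball_four hq4 hT.le hδ.le hs (d := x - y) (by linarith))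
  have h3 := abs_le.1 (hq.on_ball_four hq4 hT.le hδ.le hs (d := x - y + z)
    (by linarith [norm_add_le (x - y) z]))
  rw [← add_assoc, add_sub_cancel, inner_add_right] at h3
  rw [add_sub_cancel] at h2
  rw [inner_sub_left] at hval
  refine le_of_mul_le_mul_left ?_ (show 0 < 2 * (T * Real.sqrt δ) by linarith)
  have e : 2 * (T * Real.sqrt δ) * (6 * Real.sqrt δ) = 12 * (δ * T) := by
    linear_combination (12 * T) * Real.mul_self_sqrt hδ.le
  rw [e]
  linarith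

theorem sqrt_level {δ : ℝ} (hδ : 0 ≤ δ) (k : ℕ) :
    Real.sqrt (δ / 4 ^ k) = Real.sqrt δ / 2 ^ k := by
  rw [Real.sqrt_div hδ, show (4 : ℝ) ^ k = (2 ^ k) ^ 2 by rw [← pow_mul, pow_mul']; norm_num,
    Real.sqrt_sq (by positivity)]

theorem exists_level {b ρ : ℝ} (hb : 0 < b) (hb1 : b < 1) (hρ : 0 < ρ) (hρ1 : ρ ≤ 1) :
    ∃ k : ℕ, ρ ≤ b ^ k ∧ b ^ (k + 1) ≤ ρ ∧
      (1 / 2 : ℝ) ^ k ≤ 2 * ρ ^ Real.logb b (1 / 2) := by
  obtain ⟨k, h1, h2⟩ := exists_nat_pow_near_of_lt_one hρ hρ1 hb hb1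
  refine ⟨k, h2, h1.le, ?_⟩
  have hα : 0 ≤ Real.logb b (1 / 2) :=
    (Real.logb_pos_of_base_lt_one hb hb1 (by norm_num) (by norm_num)).le
  have h3 := Real.rpow_le_rpow (by positivity) h1.le hα
  rw [← Real.rpow_natCast, ← Real.rpow_mul hb.le, mul_comm ((k + 1 : ℕ) : ℝ), Real.rpow_mul hb.le,
    Real.rpow_logb hb hb1.ne (by norm_num), Real.rpow_natCast, pow_succ] at h3
  linarith

/-- The windows over one centre and their limit. -/
theorem exists_slopes {θ δ₀ c : ℝ} (hθ : 0 < θ) (hθ4 : θ ≤ 1 / 4) (hc : 0 < c)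
    (H : StepImprove E θ δ₀ c) {v : E → ℝ} {δ : ℝ} (hδ : 0 < δ) (hδ0 : δ ≤ δ₀)
    (hcδ : 8 * c * Real.sqrt δ ≤ 1) (hv : Visc (ball 0 16) v)
    (hw : ∀ y : E, ‖y‖ ≤ 8 → ∃ p, |‖p‖ - 1| ≤ 1 / 4 ∧ FitWin v y p 1 δ)
    {x : E} (hx : ‖x‖ ≤ 2) :
    ∃ (P : ℕ → E) (g : E), ∀ k, ‖P k‖ ≤ 4 ∧ FitWin v x (P k) (θ ^ k) (δ / 4 ^ k) ∧
      ‖P k - g‖ ≤ 2 * c * Real.sqrt δ / 2 ^ k ∧ ‖g‖ ≤ 4 := by
  set B := c * Real.sqrt δ with hB
  have hB0 : 0 ≤ B := by positivity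
  have step : ∀ k : ℕ, (∀ y : E, ‖y‖ ≤ 2 + 6 * θ ^ k → ∃ p,
      |‖p‖ - 1| ≤ 1 / 4 + 2 * B - 2 * B / 2 ^ k ∧ FitWin v y p (θ ^ k) (δ / 4 ^ k)) →
      ∀ y : E, ‖y‖ ≤ 2 + 6 * θ ^ (k + 1) → ∀ p,
        |‖p‖ - 1| ≤ 1 / 4 + 2 * B - 2 * B / 2 ^ k → FitWin v y p (θ ^ k) (δ / 4 ^ k) →
        ∃ p', |‖p'‖ - 1| ≤ 1 / 4 + 2 * B - 2 * B / 2 ^ (k + 1) ∧
          FitWin v y p' (θ ^ (k + 1)) (δ / 4 ^ (k + 1)) ∧ ‖p' - p‖ ≤ B / 2 ^ k := by
    intro k hk y hy p hp hfit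
    have hμ : 0 < θ ^ k := pow_pos hθ k
    have hμ1 : θ ^ k ≤ 1 := pow_le_one₀ hθ.le (by linarith)
    have hsucc : θ ^ (k + 1) ≤ θ ^ k / 4 := by
      rw [pow_succ]; linarith [mul_le_mul_of_nonneg_left hθ4 hμ.le]
    have hrange : ∀ q : E, |‖q‖ - 1| ≤ 1 / 4 + 2 * B - 2 * B / 2 ^ k →
        1 / 4 ≤ ‖q‖ ∧ ‖q‖ ≤ 4 := fun q hq => by
      have := abs_le.1 hq
      have : 0 ≤ 2 * B / 2 ^ k := by positivity
      constructor <;> linarith [hB, hcδ]
    obtain ⟨p', hp', hfit'⟩ := H (Flat.zoom v y (θ ^ k)) (δ / 4 ^ k)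
      (hv.scale hμ hμ fun z hz => by
        rw [mem_ball_zero_iff] at hz ⊢
        have := norm_add_le y (θ ^ k • z)
        rw [norm_smul, Real.norm_of_nonneg hμ.le] at this
        linarith [mul_lt_mul_of_pos_left hz hμ])
      (by positivity) ((div_le_self hδ.le (one_le_pow₀ (by norm_num))).trans hδ0)
      (fun z hz => by
        rw [mem_ball_zero_iff] at hz
        obtain ⟨q, hq, hqf⟩ := hk (y + θ ^ k • z) (by
          have := norm_add_le y (θ ^ k • z)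
          rw [norm_smul, Real.norm_of_nonneg hμ.le] at this
          linarith [mul_le_mul_of_nonneg_left hz.le hμ.le])
        exact ⟨q, (hrange q hq).1, (hrange q hq).2, (fitWin_zoom hμ).2 (by rwa [mul_one])⟩)
      p (hrange p hp).1 (hrange p hp).2
      ((fitWin_zoom hμ).2 (by rwa [smul_zero, add_zero, mul_one]))
    have hd : ‖p' - p‖ ≤ B / 2 ^ k := hp'.trans_eq (by rw [sqrt_level hδ.le, hB]; ring)
    refine ⟨p', ?_, ?_, hd⟩
    · have h1 := abs_le.1 (abs_norm_sub_norm_le p' p)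
      have h2 := abs_le.1 hp
      have e : 2 * B / 2 ^ (k + 1) = B / 2 ^ k := by rw [pow_succ]; field_simp
      have e' : 2 * B / 2 ^ k = 2 * (B / 2 ^ k) := by ring
      rw [abs_le, e]
      constructor <;> linarith
    · have h := (fitWin_zoom hμ).1 hfit'
      rw [smul_zero, add_zero] at h
      rwa [pow_succ, pow_succ, ← div_div]
  have hall : ∀ k : ℕ, ∀ y : E, ‖y‖ ≤ 2 + 6 * θ ^ k → ∃ p,
      |‖p‖ - 1| ≤ 1 / 4 + 2 * B - 2 * B / 2 ^ k ∧ FitWin v y p (θ ^ k) (δ / 4 ^ k) := by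
    intro k
    induction k with
    | zero =>
      intro y hy
      obtain ⟨p, h1, h2⟩ := hw y (by linarith [pow_zero θ])
      exact ⟨p, by simpa using h1, by simpa using h2⟩
    | succ k ih =>
      intro y hy
      have : θ ^ (k + 1) ≤ θ ^ k := pow_le_pow_of_le_one hθ.le (by linarith) k.le_succ
      obtain ⟨p, h1, h2⟩ := ih y (by linarith)
      obtain ⟨p', h1', h2', -⟩ := step k ih y hy p h1 h2
      exact ⟨p', h1', h2'⟩
  let S : ℕ → Type := fun k =>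
    {p : E // |‖p‖ - 1| ≤ 1 / 4 + 2 * B - 2 * B / 2 ^ k ∧ FitWin v x p (θ ^ k) (δ / 4 ^ k)}
  have hx' : ∀ k : ℕ, ‖x‖ ≤ 2 + 6 * θ ^ k := fun k => by linarith [pow_pos hθ k]
  have next_ex : ∀ (k : ℕ) (p : S k), ∃ q : S (k + 1), ‖q.1 - p.1‖ ≤ B / 2 ^ k := fun k p => by
    obtain ⟨q, h1, h2, h3⟩ := step k (hall k) x (hx' (k + 1)) p.1 p.2.1 p.2.2
    exact ⟨⟨q, h1, h2⟩, h3⟩
  choose nx hnx using next_ex
  obtain ⟨p₀, h₁, h₂⟩ := hall 0 x (hx' 0)
  let Q : ∀ k, S k := fun k => Nat.rec (motive := S) ⟨p₀, h₁, h₂⟩ nx k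
  let P : ℕ → E := fun k => (Q k).1
  have hdist : ∀ k, dist (P k) (P (k + 1)) ≤ 2 * B / 2 / 2 ^ k := fun k => by
    rw [dist_eq_norm, norm_sub_rev]
    exact (hnx k (Q k)).trans_eq (by ring)
  obtain ⟨g, hg⟩ := cauchySeq_tendsto_of_complete (cauchySeq_of_le_geometric_two hdist)
  have hP4 : ∀ k, ‖P k‖ ≤ 4 := fun k => by
    have := abs_le.1 (Q k).2.1
    have : 0 ≤ 2 * B / 2 ^ k := by positivity
    linarith [hB, hcδ]
  refine ⟨P, g, fun k => ⟨hP4 k, (Q k).2.2, ?_,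
    le_of_tendsto hg.norm (Eventually.of_forall hP4)⟩⟩
  rw [← dist_eq_norm]
  exact (dist_le_of_le_geometric_two_of_tendsto hdist hg k).trans_eq (by rw [hB]; ring)

/-- A flat neighbourhood at the unit scale carries a Hölder gradient. -/
theorem unit_holder {θ δ₀ c : ℝ} (hθ : 0 < θ) (hθ4 : θ ≤ 1 / 4) (hc : 0 < c)
    (H : StepImprove E θ δ₀ c) {v : E → ℝ} {δ : ℝ} (hδ : 0 < δ) (hδ0 : δ ≤ δ₀)
    (hs : 4 * Real.sqrt δ ≤ 1) (hcδ : 8 * c * Real.sqrt δ ≤ 1) (hv : Visc (ball 0 16) v)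
    (hw : ∀ y : E, ‖y‖ ≤ 8 → ∃ p, |‖p‖ - 1| ≤ 1 / 4 ∧ FitWin v y p 1 δ) :
    ∃ g : E → E, ∀ x : E, ‖x‖ ≤ 2 → HasFDerivAt v (innerSL ℝ (g x)) x ∧
      ∀ y : E, ‖y‖ ≤ 2 → ‖g x - g y‖ ≤ (8 * c + 20) *
        (‖x - y‖ / (2 * Real.sqrt δ)) ^ Real.logb (θ / 2) (1 / 2) := by
  choose! P g hP using fun x (hx : ‖x‖ ≤ 2) => exists_slopes hθ hθ4 hc H hδ hδ0 hcδ hv hw hx
  set α := Real.logb (θ / 2) (1 / 2) with hα
  have hα0 : 0 < α :=
    Real.logb_pos_of_base_lt_one (by linarith) (by linarith) (by norm_num) (by norm_num)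
  have hS : 0 < Real.sqrt δ := Real.sqrt_pos.2 hδ
  have hS1 : Real.sqrt δ ≤ 1 := by linarith
  have hsk : ∀ k : ℕ, 4 * Real.sqrt (δ / 4 ^ k) ≤ 1 := fun k => by
    rw [sqrt_level hδ.le]
    linarith [div_le_self hS.le (one_le_pow₀ (n := k) (one_le_two : (1 : ℝ) ≤ 2))]
  have hlev : ∀ k : ℕ, θ ^ k * Real.sqrt (δ / 4 ^ k) = Real.sqrt δ * (θ / 2) ^ k := fun k => by
    rw [sqrt_level hδ.le, div_pow]; ring
  refine ⟨g, fun x hx => ⟨?_, fun y hy => ?_⟩⟩
  · set A := Real.sqrt δ * (4 * (1 / θ) + 2 * c) * 2 with hA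
    have hbound : ∀ h : E, ‖h‖ ≤ 2 * Real.sqrt δ →
        |v (x + h) - v x - ⟪g x, h⟫| ≤ A * (‖h‖ / (2 * Real.sqrt δ)) ^ α * ‖h‖ := by
      intro h hh
      rcases eq_or_ne h 0 with rfl | hne
      · simp
      have hn : 0 < ‖h‖ := norm_pos_iff.2 hne
      obtain ⟨k, hk, hk1, hk2⟩ := exists_level (show 0 < θ / 2 by linarith) (by linarith)
        (show 0 < ‖h‖ / (2 * Real.sqrt δ) by positivity) ((div_le_one (by positivity)).2 hh)
      rw [div_le_iff₀ (by positivity)] at hk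
      rw [le_div_iff₀ (by positivity), pow_succ] at hk1
      obtain ⟨hp4, hfit, hdist, -⟩ := hP x hx k
      have h1 := hfit.on_ball_four hp4 (by positivity) (by positivity) (hsk k) (d := h) (by
        rw [mul_assoc, hlev]
        nlinarith [mul_pos hS (pow_pos (show 0 < θ / 2 by linarith) k)])
      have h2 : |⟪P x k - g x, h⟫| ≤ 2 * c * Real.sqrt δ * (1 / 2) ^ k * ‖h‖ :=
        (abs_real_inner_le_norm _ _).trans (mul_le_mul_of_nonneg_right
          (hdist.trans_eq (by rw [div_pow, one_pow]; ring)) hn.le)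
      have h3 : δ / 4 ^ k * θ ^ k ≤ 1 / θ * Real.sqrt δ * (1 / 2) ^ k * ‖h‖ := by
        have e : δ / 4 ^ k * θ ^ k
            = Real.sqrt δ * (1 / 2) ^ k * (1 / θ) * ((θ / 2) ^ k * θ * Real.sqrt δ) := by
          rw [div_pow, div_pow, one_pow, show (4 : ℝ) ^ k = 2 ^ k * 2 ^ k by
            rw [← mul_pow]; norm_num]
          field_simp
          linear_combination (-1) * Real.mul_self_sqrt hδ.le
        rw [e, show 1 / θ * Real.sqrt δ * (1 / 2) ^ k * ‖h‖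
          = Real.sqrt δ * (1 / 2) ^ k * (1 / θ) * ‖h‖ by ring]
        exact mul_le_mul_of_nonneg_left (by linarith) (by positivity)
      have h4 : Real.sqrt δ * (4 * (1 / θ) + 2 * c) * (1 / 2) ^ k * ‖h‖
          ≤ A * (‖h‖ / (2 * Real.sqrt δ)) ^ α * ‖h‖ := by
        rw [hA, mul_assoc _ (2 : ℝ)]
        exact mul_le_mul_of_nonneg_right (mul_le_mul_of_nonneg_left hk2 (by positivity)) hn.le
      rw [inner_sub_left] at h2
      have a1 := abs_le.1 h1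
      have a2 := abs_le.1 h2
      exact abs_le.2 ⟨by linarith, by linarith⟩
    rw [hasFDerivAt_iff_isLittleO_nhds_zero, Asymptotics.isLittleO_iff]
    intro e he
    have htend : Tendsto (fun h : E => A * (‖h‖ / (2 * Real.sqrt δ)) ^ α) (𝓝 0) (𝓝 0) := by
      have hcont : Continuous fun h : E => A * (‖h‖ / (2 * Real.sqrt δ)) ^ α :=
        continuous_const.mul ((continuous_norm.div_const _).rpow_const fun _ => Or.inr hα0.le)
      simpa [Real.zero_rpow hα0.ne'] using hcont.tendsto 0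
    filter_upwards [htend.eventually_le_const he,
      closedBall_mem_nhds (0 : E) (show 0 < 2 * Real.sqrt δ by positivity)] with h hh hball
    rw [mem_closedBall_zero_iff] at hball
    rw [innerSL_apply_apply, Real.norm_eq_abs]
    exact (hbound h hball).trans (mul_le_mul_of_nonneg_right hh (norm_nonneg h))
  · rcases eq_or_ne x y with rfl | hne
    · rw [sub_self, norm_zero]
      positivity
    have hn : 0 < ‖x - y‖ := norm_pos_iff.2 (sub_ne_zero.2 hne)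
    rcases le_or_gt (‖x - y‖ / (2 * Real.sqrt δ)) 1 with h1 | h1
    · obtain ⟨k, hk, -, hk2⟩ := exists_level (show 0 < θ / 2 by linarith) (by linarith)
        (show 0 < ‖x - y‖ / (2 * Real.sqrt δ) by positivity) h1
      rw [div_le_iff₀ (by positivity)] at hk
      obtain ⟨hp4, hfp, hdp, -⟩ := hP x hx k
      obtain ⟨hq4, hfq, hdq, -⟩ := hP y hy k
      have h2 := slopes_near (by positivity) (by positivity) (hsk k) hp4 hq4 hfp hfq (by
        rw [mul_assoc, hlev]; linarith)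
      rw [sqrt_level hδ.le] at h2
      have hR : ‖g x - g y‖ ≤ (4 * c + 6) * (Real.sqrt δ * (1 / 2) ^ k) := by
        rw [norm_sub_rev] at hdp
        have ha := norm_sub_le_norm_sub_add_norm_sub (g x) (P x k) (g y)
        have hb := norm_sub_le_norm_sub_add_norm_sub (P x k) (P y k) (g y)
        rw [show (4 * c + 6) * (Real.sqrt δ * (1 / 2) ^ k) = 2 * c * Real.sqrt δ / 2 ^ k
          + (6 * (Real.sqrt δ / 2 ^ k) + 2 * c * Real.sqrt δ / 2 ^ k) by
            rw [div_pow, one_pow]; ring]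
        linarith
      refine hR.trans ?_
      have hb : Real.sqrt δ * (1 / 2) ^ k ≤ 2 * (‖x - y‖ / (2 * Real.sqrt δ)) ^ α := by
        have h0 : (0 : ℝ) ≤ (1 / 2) ^ k := by positivity
        exact (mul_le_of_le_one_left h0 hS1).trans hk2
      have hρ : 0 ≤ (‖x - y‖ / (2 * Real.sqrt δ)) ^ α := by positivity
      nlinarith [mul_le_mul_of_nonneg_left hb (show 0 ≤ 4 * c + 6 by linarith)]
    · have hx4 := (hP x hx 0).2.2.2
      have hy4 := (hP y hy 0).2.2.2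
      have h2 : 1 ≤ (‖x - y‖ / (2 * Real.sqrt δ)) ^ α := Real.one_le_rpow h1.le hα0.le
      have h3 := norm_sub_le (g x) (g y)
      nlinarith [mul_le_mul_of_nonneg_left h2 (show 0 ≤ 8 * c + 20 by linarith)]

/-- Flat balls carry a Hölder gradient. -/
theorem flatHolder_of_step {θ δ₀ c : ℝ} (hθ : 0 < θ) (hθ4 : θ ≤ 1 / 4) (hδ₀ : 0 < δ₀) (hc : 0 < c)
    (H : StepImprove E θ δ₀ c) :
    ∃ ε m α C : ℝ, 0 < ε ∧ 0 < m ∧ 0 < α ∧ 0 ≤ C ∧ FlatHolder E ε m α C := by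
  set s := 1 / (8 * c + 4) with hsdef
  have hs0 : 0 < s := by positivity
  set δ := min δ₀ (s ^ 2) with hδdef
  have hδ : 0 < δ := lt_min hδ₀ (by positivity)
  have hsq : Real.sqrt δ * (8 * c + 4) ≤ 1 := by
    rw [← le_div_iff₀ (by positivity), ← hsdef, Real.sqrt_le_iff]
    exact ⟨hs0.le, min_le_right _ _⟩
  have hS : 0 < Real.sqrt δ := Real.sqrt_pos.2 hδ
  have hs4 : 4 * Real.sqrt δ ≤ 1 := by nlinarith
  have hcδ : 8 * c * Real.sqrt δ ≤ 1 := by nlinarith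
  set α := Real.logb (θ / 2) (1 / 2) with hα
  have hα0 : 0 < α :=
    Real.logb_pos_of_base_lt_one (by linarith) (by linarith) (by norm_num) (by norm_num)
  refine ⟨δ / 64, 1 / 32, α, (8 * c + 20) * (16 / Real.sqrt δ) ^ α, by positivity, by norm_num,
    hα0, by positivity, fun u x p σ hσ hp hu hflat => ?_⟩
  have hn : 0 < ‖p‖ := norm_pos_iff.2 hp
  set μ := σ / 32 with hμdef
  have hμ : 0 < μ := by positivity
  have hσμ : σ = 32 * μ := by rw [hμdef]; ring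
  set v : E → ℝ := fun z => u (x + μ • z) / (μ * ‖p‖) with hvdef
  have hmem : ∀ {z : E} {r : ℝ}, ‖z‖ < r → r ≤ 32 → x + μ • z ∈ ball x σ := fun {z r} hz hr => by
    rw [mem_ball, dist_eq_norm, add_sub_cancel_left, norm_smul, Real.norm_of_nonneg hμ.le, hσμ,
      mul_comm (32 : ℝ)]
    exact mul_lt_mul_of_pos_left (hz.trans_le hr) hμ
  have hv : Visc (ball 0 16) v := hu.scale hμ (by positivity) fun z hz =>
    hmem (mem_ball_zero_iff.1 hz) (by norm_num)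
  set q : E := ‖p‖⁻¹ • p with hqdef
  have hq : ‖q‖ = 1 := by
    rw [hqdef, norm_smul, norm_inv, norm_norm, inv_mul_cancel₀ hn.ne']
  have herr : ∀ z : E, ‖z‖ < 32 → |v z - u x / (μ * ‖p‖) - ⟪q, z⟫| ≤ δ / 2 := fun z hz => by
    have h := hflat _ (hmem hz le_rfl)
    rw [add_sub_cancel_left, real_inner_smul_right] at h
    have e : v z - u x / (μ * ‖p‖) - ⟪q, z⟫
        = (u (x + μ • z) - u x - μ * ⟪p, z⟫) / (μ * ‖p‖) := by
      simp only [hvdef, hqdef, real_inner_smul_left]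
      field_simp
    rw [e, abs_div, abs_of_pos (show 0 < μ * ‖p‖ by positivity), div_le_iff₀ (by positivity)]
    exact h.trans_eq (by rw [hσμ]; ring)
  have hw : ∀ y : E, ‖y‖ ≤ 8 → ∃ q', |‖q'‖ - 1| ≤ 1 / 4 ∧ FitWin v y q' 1 δ := by
    intro y hy
    refine ⟨q, by rw [hq]; norm_num, fun d h1 h2 => ?_⟩
    have hd : ‖d‖ ≤ 5 := by
      have h := norm_add_le (d - (⟪q, d⟫ / ‖q‖ ^ 2) • q) ((⟪q, d⟫ / ‖q‖ ^ 2) • q)
      rw [sub_add_cancel, norm_smul (⟪q, d⟫ / ‖q‖ ^ 2) q, hq, Real.norm_eq_abs] at h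
      rw [hq] at h1 h2
      simp only [one_pow, div_one, mul_one] at h h1 h2
      linarith
    have a1 := abs_le.1 (herr (y + d) (by linarith [norm_add_le y d]))
    have a2 := abs_le.1 (herr y (by linarith))
    rw [inner_add_right] at a1
    rw [hq, mul_one, mul_one]
    exact abs_le.2 ⟨by linarith, by linarith⟩
  obtain ⟨g, hg⟩ := unit_holder hθ hθ4 hc H hδ (min_le_left _ _) hs4 hcδ hv hw
  have back : ∀ z ∈ ball x (1 / 32 * σ), ‖μ⁻¹ • (z - x)‖ ≤ 2 ∧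
      HasGradientAt u (‖p‖ • g (μ⁻¹ • (z - x))) z := by
    intro z hz
    have hz' : ‖μ⁻¹ • (z - x)‖ ≤ 2 := by
      rw [mem_ball, dist_eq_norm] at hz
      rw [norm_smul, Real.norm_of_nonneg (inv_nonneg.2 hμ.le), inv_mul_le_iff₀ hμ]
      linarith
    refine ⟨hz', ?_⟩
    have hA : HasFDerivAt (fun w : E => μ⁻¹ • (w - x)) (μ⁻¹ • ContinuousLinearMap.id ℝ E) z :=
      ((hasFDerivAt_id z).sub_const x).const_smul μ⁻¹
    have h := (((hg _ hz').1).comp z hA).const_mul (μ * ‖p‖)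
    have hu' : (fun w => μ * ‖p‖ * (v ∘ fun w : E => μ⁻¹ • (w - x)) w) = u := by
      funext w
      simp only [hvdef, Function.comp, smul_inv_smul₀ hμ.ne', add_sub_cancel]
      field_simp
    rw [hu'] at h
    rw [hasGradientAt_iff_hasFDerivAt]
    refine h.congr_fderiv (ContinuousLinearMap.ext fun w => ?_)
    simp [InnerProductSpace.toDual_apply_apply]
    field_simp
  intro z hz w hw'
  obtain ⟨hz2, hgz⟩ := back z hz
  obtain ⟨hw2, hgw⟩ := back w hw'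
  refine ⟨hgz.differentiableAt, ?_⟩
  rw [hgz.gradient, hgw.gradient, ← smul_sub, norm_smul, norm_norm]
  have e : ‖μ⁻¹ • (z - x) - μ⁻¹ • (w - x)‖ / (2 * Real.sqrt δ)
      = 16 / Real.sqrt δ * (dist z w / σ) := by
    rw [← smul_sub, sub_sub_sub_cancel_right, norm_smul, Real.norm_of_nonneg (inv_nonneg.2 hμ.le),
      ← dist_eq_norm, hσμ]
    field_simp
    ring
  have h := (hg _ hz2).2 _ hw2
  rw [e, Real.mul_rpow (by positivity) (by positivity), ← hα] at h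
  exact (mul_le_mul_of_nonneg_left h hn.le).trans_eq (by ring)

end Vale.Agent.P080.C1
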