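import Vale.Agent.P080.C1.Stencils
import Vale.Agent.P080.C1.HopfLax

/-!
A4: a slice touched above has finite slope.
-/

namespace Vale.Agent.P080.C1

open Set Filter Topology
open scoped RealInnerProductSpace

set_option linter.unusedSectionVars false

variable {F : Type*} [NormedAddCommGroup F] [InnerProductSpace ℝ F] [FiniteDimensional ℝ F]
variable {C : ℝ} {w : ℝ → F → ℝ}

/-- The touching slope is close to the window slope. -/
theorem seed_slope {A ρ b : ℝ} {t : ℝ} {y p v : F} (hρ : 0 < ρ) (hA : 0 ≤ A) (hC : 0 ≤ C)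
    (hwin : IsWin C w t y ρ b v)
    (hp : ∀ z, w t (y + z) ≤ w t y + ⟪p, z⟫ + A / ρ * ‖z‖ ^ 2) : ‖p - v‖ ≤ C + A := by
  rcases eq_or_ne (v - p) 0 with h | h
  · rw [norm_sub_rev, h, norm_zero]; linarith
  have hd : 0 < ‖v - p‖ := norm_pos_iff.2 h
  set z := (ρ / ‖v - p‖) • (v - p) with hz
  have hn : ‖z‖ = ρ := by
    rw [hz, norm_smul, Real.norm_of_nonneg (by positivity), div_mul_cancel₀ _ hd.ne']
  have h1 := (abs_le.1 (hwin 0 z (by simp [hρ.le]) hn.le)).1
  simp only [add_zero, zero_smul, mul_zero, sub_zero] at h1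
  have h2 := hp z
  rw [hn, show A / ρ * ρ ^ 2 = A * ρ by field_simp] at h2
  have h3 : ⟪v, z⟫ - ⟪p, z⟫ = ρ * ‖v - p‖ := by
    rw [← inner_sub_left, hz, real_inner_smul_right, real_inner_self_eq_norm_sq]
    field_simp
  rw [norm_sub_rev]
  refine le_of_mul_le_mul_left ?_ hρ
  linarith

/-- The backwards function on a short box inside the window. -/
theorem seed_box {D ρ b σ : ℝ} {t : ℝ} {y p v z : F} (hwin : IsWin C w t y ρ b v)
    (hD : ‖p - v‖ ≤ D) (hσ : 0 ≤ σ) (hσρ : 2 * (σ * (1 + D)) ≤ ρ) (hz : ‖z‖ ≤ ρ / 2) :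
    back w t y p σ z ≤ w t y - b * σ + (C + D + D ^ 2) * ρ := by
  have hD0 : 0 ≤ D := (norm_nonneg _).trans hD
  have hσD : 0 ≤ σ * D := mul_nonneg hσ hD0
  have hρ : 0 ≤ ρ := by linarith
  set z' := z - σ • (p - v) with hz'
  have hn : ‖z'‖ ≤ ρ := by
    refine (norm_sub_le _ _).trans ?_
    rw [norm_smul, Real.norm_of_nonneg hσ]
    linarith [mul_le_mul_of_nonneg_left hD hσ]
  have h1 := (abs_le.1 (hwin (-σ) z' (by rw [abs_neg, abs_of_nonneg hσ]; linarith) hn)).2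
  have ht : t + -σ = t - σ := by ring
  have hy : y + (-σ) • v + z' = y - σ • p + z := by rw [hz']; module
  rw [ht, hy] at h1
  have h2 : ⟪v, z'⟫ = ⟪v, z⟫ - σ * (⟪p, v⟫ - ‖v‖ ^ 2) := by
    rw [hz', inner_sub_right, real_inner_smul_right, inner_sub_right, real_inner_self_eq_norm_sq,
      real_inner_comm p v]
  have h3 : ⟪v - p, z⟫ ≤ D * ρ :=
    (real_inner_le_norm _ _).trans (by
      rw [norm_sub_rev]; exact mul_le_mul hD (by linarith) (norm_nonneg _) hD0)
  rw [inner_sub_left] at h3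
  have h4 := norm_sub_sq_real p v
  have h5 := mul_le_mul_of_nonneg_left (pow_le_pow_left₀ (norm_nonneg _) hD 2) hσ
  have h6 : σ * D ^ 2 ≤ ρ * D ^ 2 := mul_le_mul_of_nonneg_right (by linarith) (sq_nonneg D)
  have h7 : 0 ≤ σ * D ^ 2 := by positivity
  simp only [back]
  rw [h2] at h1
  linear_combination h1 + h3 + h6 + (1 / 2) * h5 + (1 / 2) * h7 - (σ / 2) * h4

/-- A slice touched above has backward slopes bounded below at short steps. -/
theorem seed_short (hw : Prof C w) {A ρ b D B M L K σ : ℝ} {t : ℝ} {y p v : F} (hρ : 0 < ρ)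
    (hA : 0 ≤ A) (hwin : IsWin C w t y ρ b v)
    (hp : ∀ z, w t (y + z) ≤ w t y + ⟪p, z⟫ + A / ρ * ‖z‖ ^ 2) (hC : 0 ≤ C) (hD : ‖p - v‖ ≤ D)
    (hB : B = C + D + D ^ 2) (hM : M = A + 4 * B) (hL : L = M ^ 3 + 1)
    (hK : K = 2 * (B * (1 + D)) + L) (hσ : 0 < σ) (hσT : σ ≤ ρ / (2 * (1 + D))) :
    b - K ≤ Sm w σ t y := by
  have hD0 : 0 ≤ D := (norm_nonneg _).trans hD
  have hB0 : 0 ≤ B := by rw [hB]; positivity
  have hM0 : 0 ≤ M := by linarith
  have hL0 : 0 ≤ L := by rw [hL]; positivity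
  set T := ρ / (2 * (1 + D)) with hT
  have hT0 : 0 < T := by positivity
  have hTρ : 2 * (T * (1 + D)) = ρ := by rw [hT]; field_simp
  have hbox := hw.barrier t y p T (ρ / 2) (L / ρ) (M / ρ) (w t y) (K - b) hT0 (by positivity)
    (by positivity) (by
      rw [show 4 * (M / ρ) ^ 3 * (ρ / 2) ^ 2 = M ^ 3 / ρ by field_simp; ring]
      exact div_lt_div_of_pos_right (by linarith) hρ)
  have hTle : T ≤ ρ := by linarith [mul_nonneg hT0.le hD0]
  have key := hbox ?_ σ 0 hσ.le hσT (by rw [norm_zero]; positivity)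
  · simp only [back, add_zero, inner_zero_right, sub_zero, norm_zero] at key
    have h1 := hlM_le hw hσ t y (-(σ • p))
    rw [← sub_eq_add_neg, norm_neg, norm_smul, Real.norm_of_nonneg hσ.le] at h1
    have h2 : (σ * ‖p‖) ^ 2 / (2 * σ) = ‖p‖ ^ 2 / 2 * σ := by field_simp
    rw [h2] at h1
    have h3 : 0 ≤ L / ρ * σ ^ 2 := by positivity
    rw [Sm, le_div_iff₀ hσ]
    linarith
  intro s z hs hsT hz hcase
  have hsρ : L / ρ * s ^ 2 ≤ L * s := by
    have h1 : s * s ≤ ρ * s := mul_le_mul_of_nonneg_right (hsT.trans hTle) hs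
    calc L / ρ * s ^ 2 ≤ L / ρ * (ρ * s) := by
          rw [sq]; exact mul_le_mul_of_nonneg_left h1 (by positivity)
      _ = L * s := by field_simp
  have hMz : 0 ≤ M / ρ * ‖z‖ ^ 2 := by positivity
  have hBD : 0 ≤ B * (1 + D) * s := by positivity
  rcases hcase with rfl | rfl | hzR
  · have h1 := hp z
    have h2 : A / ρ * ‖z‖ ^ 2 ≤ M / ρ * ‖z‖ ^ 2 := by gcongr; linarith
    simp only [back, sub_zero, zero_smul, mul_zero]
    linarith
  · have h1 := seed_box hwin hD hs (by linarith [hTρ]) (z := z) hz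
    rw [← hB] at h1
    rw [hK]
    linear_combination h1 + hsρ + hMz - B * hTρ
  · have h1 := seed_box hwin hD hs (by
      linarith [mul_le_mul_of_nonneg_right hsT (by linarith : 0 ≤ 1 + D)]) (z := z) hz
    rw [← hB] at h1
    have h2 : M / ρ * ‖z‖ ^ 2 = M * ρ / 4 := by rw [hzR]; field_simp; ring
    have h3 : 4 * B * ρ ≤ M * ρ := mul_le_mul_of_nonneg_right (by linarith) hρ.le
    rw [hK]
    linarith

/-- A slice touched above by a paraboloid has slopes bounded below by the window slope. -/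
theorem seed (C A : ℝ) : ∃ c : ℝ, 0 < c ∧ ∀ {w : ℝ → F → ℝ}, Prof C w →
    ∀ {t : ℝ} {y p : F} {ρ b : ℝ} {v : F}, 0 < ρ → IsWin C w t y ρ b v →
      (∀ z, w t (y + z) ≤ w t y + ⟪p, z⟫ + A / ρ * ‖z‖ ^ 2) →
      ‖p - v‖ ≤ c ∧ ∀ h, 0 < h → h ≤ ρ → b - c ≤ Sp w h t y ∧ b - c ≤ Sm w h t y := by
  obtain ⟨c₂, hc₂, hbd⟩ := hlP_bound (F := F) C
  set A' := max A 0 with hA'
  set C' := max C 0 with hC'
  set D := C' + A' with hD
  set B := C' + D + D ^ 2 with hB
  set M := A' + 4 * B with hM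
  set L := M ^ 3 + 1 with hL
  set K := 2 * (B * (1 + D)) + L with hK
  have hD0 : 0 ≤ D := add_nonneg (le_max_right _ _) (le_max_right _ _)
  have hB0 : 0 ≤ B := add_nonneg (add_nonneg (le_max_right _ _) hD0) (sq_nonneg D)
  have hM0 : 0 ≤ M := add_nonneg (le_max_right _ _) (by linarith)
  have hK0 : 0 ≤ K := by positivity
  refine ⟨K + D + 2 * c₂ + 1, by linarith, fun {w} hw t y p ρ b v hρ hwin hp => ?_⟩
  have hC : 0 ≤ C := nonneg_of_mul_nonneg_left
    ((abs_nonneg _).trans (hwin 0 0 (by simp [hρ.le]) (by simp [hρ.le]))) hρ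
  have hCC : C' = C := max_eq_left hC
  have hp' : ∀ z, w t (y + z) ≤ w t y + ⟪p, z⟫ + A' / ρ * ‖z‖ ^ 2 := fun z => (hp z).trans (by
    have : A / ρ * ‖z‖ ^ 2 ≤ A' / ρ * ‖z‖ ^ 2 := by gcongr; exact le_max_left _ _
    linarith)
  have hpv : ‖p - v‖ ≤ D := (seed_slope hρ (le_max_right _ _) hC hwin hp').trans (by linarith)
  refine ⟨by linarith, fun h hh hhρ => ?_⟩
  have hshort : ∀ σ, 0 < σ → σ ≤ ρ / (2 * (1 + D)) → b - K ≤ Sm w σ t y := fun σ hσ hσT =>
    seed_short hw hρ (le_max_right _ _) hwin hp' hC hpv (by rw [hB, hCC]) hM hL hK hσ hσT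
  have hT0 : 0 < ρ / (2 * (1 + D)) := by positivity
  have hm : b - K ≤ Sm w h t y := by
    rcases le_or_gt h (ρ / (2 * (1 + D))) with hc | hc
    · exact hshort h hh hc
    refine (hshort _ hT0 le_rfl).trans ?_
    have hmono := hw.mono_mir (-t) y hT0 hh hc.le
    simpa [Sp, Sm, hlM, mir, sub_eq_add_neg, add_comm] using hmono
  obtain ⟨b', v', hwin'⟩ := hw.window t y h hh
  obtain ⟨h1, h2, -, -⟩ := hbd hw hh hwin'
  rw [abs_le] at h1 h2
  exact ⟨by linarith, by linarith⟩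

end Vale.Agent.P080.C1
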