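import Vale.Agent.P080.C1.Stencils
import Vale.Agent.P080.C1.Seed

/-!
A5: the Jensen step and the slopes at saturated stencils. The second moment multiplier of a
saturated stencil makes the slice at each of its atoms touched above by a paraboloid, so the seed
applies there, and the Jensen step carries the bound to the centre.
-/

namespace Vale.Agent.P080.C1

open Set Filter Topology
open scoped RealInnerProductSpace

set_option linter.unusedSectionVars false

variable {F : Type*} [NormedAddCommGroup F] [InnerProductSpace ℝ F] [FiniteDimensional ℝ F]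
variable {C : ℝ} {w : ℝ → F → ℝ}

theorem spread_sq {ι : Type*} [Fintype ι] {l : ι → ℝ} (hl : ∀ i, 0 ≤ l i) (η : ι → F) :
    spread l η ^ 2 = ∑ i, l i * ‖η i‖ ^ 2 :=
  Real.sq_sqrt (Finset.sum_nonneg fun i _ => mul_nonneg (hl i) (sq_nonneg _))

/-- The spread obeys the triangle inequality. -/
theorem spread_add_le {ι : Type*} [Fintype ι] {l : ι → ℝ} (hl : ∀ i, 0 ≤ l i) (η ζ : ι → F) :
    spread l (fun i => η i + ζ i) ≤ spread l η + spread l ζ := by
  have h0 : 0 ≤ spread l η + spread l ζ := add_nonneg (Real.sqrt_nonneg _) (Real.sqrt_nonneg _)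
  refine Real.sqrt_le_iff.2 ⟨h0, ?_⟩
  have hcs : ∑ i, l i * (‖η i‖ * ‖ζ i‖) ≤ spread l η * spread l ζ := by
    refine nonneg_le_nonneg_of_sq_le_sq (mul_nonneg (Real.sqrt_nonneg _) (Real.sqrt_nonneg _)) ?_
    rw [← sq, ← sq, mul_pow, spread_sq hl, spread_sq hl]
    have := Finset.sum_mul_sq_le_sq_mul_sq Finset.univ (fun i => Real.sqrt (l i) * ‖η i‖)
      (fun i => Real.sqrt (l i) * ‖ζ i‖)
    simp only [mul_pow, Real.sq_sqrt (hl _)] at this
    refine le_trans (le_of_eq ?_) this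
    refine congrArg (· ^ 2) (Finset.sum_congr rfl fun i _ => ?_)
    rw [mul_mul_mul_comm, ← sq, Real.sq_sqrt (hl i)]
  have h1 : ∑ i, l i * ‖η i + ζ i‖ ^ 2 ≤
      ∑ i, (l i * ‖η i‖ ^ 2 + 2 * (l i * (‖η i‖ * ‖ζ i‖)) + l i * ‖ζ i‖ ^ 2) := by
    refine Finset.sum_le_sum fun i _ => ?_
    have h := pow_le_pow_left₀ (norm_nonneg _) (norm_add_le (η i) (ζ i)) 2
    nlinarith [mul_le_mul_of_nonneg_left h (hl i)]
  rw [Finset.sum_add_distrib, Finset.sum_add_distrib, ← Finset.mul_sum, ← spread_sq hl η,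
    ← spread_sq hl ζ] at h1
  linarith [show (spread l η + spread l ζ) ^ 2 =
    spread l η ^ 2 + 2 * (spread l η * spread l ζ) + spread l ζ ^ 2 by ring]

/-- The weighted squared norms split off the squared mean. -/
theorem sum_sq_mean {ι : Type*} [Fintype ι] {l : ι → ℝ} (hl : ∑ i, l i = 1) (z : ι → F) :
    ∑ i, l i * ‖z i - ∑ j, l j • z j‖ ^ 2 = ∑ i, l i * ‖z i‖ ^ 2 - ‖∑ j, l j • z j‖ ^ 2 := by
  set q := ∑ j, l j • z j with hq
  have e : ∀ i, l i * ‖z i - q‖ ^ 2 = l i * ‖z i‖ ^ 2 - 2 * ⟪l i • z i, q⟫ + l i * ‖q‖ ^ 2 := by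
    intro i
    rw [norm_sub_sq_real, real_inner_smul_left]
    ring
  simp_rw [e]
  rw [Finset.sum_add_distrib, Finset.sum_sub_distrib, ← Finset.mul_sum, ← sum_inner,
    ← Finset.sum_mul, hl, ← hq, real_inner_self_eq_norm_sq]
  ring

/-- The Jensen step. -/
theorem jensen_step (hw : Prof C w) {G : ℝ} (hG : 0 ≤ G) (hgap : GapLe G w) {m : ℕ} {t : ℝ} {y : F}
    {l : Fin m → ℝ} {η : Fin m → F} (hs : IsStencil l η) {h : ℝ} (hh : 0 < h) :
    ∑ i, l i * hlP w h t (y + η i) - G * spread l η - G ^ 2 * h / 2 ≤ hlP w h t y := by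
  obtain ⟨hl, hl1, hl0⟩ := hs
  choose z hz using fun i => hlP_attained hw hh t (y + η i)
  set q := ∑ j, l j • z j with hq
  have hst : IsStencil l (fun i => η i + (z i - q)) := by
    refine ⟨hl, hl1, ?_⟩
    simp_rw [smul_add, smul_sub]
    rw [Finset.sum_add_distrib, Finset.sum_sub_distrib, hl0, ← Finset.sum_smul, hl1, one_smul,
      ← hq, sub_self, add_zero]
  have h1 := hgap m (t + h) (y + q) l _ hst
  have h2 := spread_add_le hl η (fun i => z i - q)
  have h3 := le_hlP hw hh t y q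
  have h4 : ∑ i, l i * hlP w h t (y + η i) = ∑ i, l i * w (t + h) (y + q + (η i + (z i - q)))
      - (∑ i, l i * ‖z i‖ ^ 2) / (2 * h) := by
    rw [Finset.sum_div, ← Finset.sum_sub_distrib]
    refine Finset.sum_congr rfl fun i _ => ?_
    rw [hz i, show y + q + (η i + (z i - q)) = y + η i + z i by abel]
    ring
  have h5 : spread l (fun i => z i - q) ^ 2 = ∑ i, l i * ‖z i‖ ^ 2 - ‖q‖ ^ 2 := by
    rw [spread_sq hl, hq, sum_sq_mean hl1]
  have h6 : G * spread l (fun i => z i - q) - spread l (fun i => z i - q) ^ 2 / (2 * h)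
      ≤ G ^ 2 * h / 2 := by
    rw [← sub_nonneg]
    have : 0 ≤ (spread l (fun i => z i - q) - G * h) ^ 2 / (2 * h) := by positivity
    refine this.trans (le_of_eq ?_)
    field_simp
    ring
  have h7 := mul_le_mul_of_nonneg_left h2 hG
  rw [h5, sub_div] at h6
  unfold gap at h1
  linarith

theorem pot_le (hw : Prof C w) {G : ℝ} (hG : 0 ≤ G) (hgap : GapLe G w) {m : ℕ} {t : ℝ} {y : F}
    {l : Fin m → ℝ} {η : Fin m → F} (hs : IsStencil l η) {s : ℝ} (hh : 0 < s) :
    pot w s t y l η - G * spread l η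
      ≤ s * (Sp w s t y + 2 * Sm w (2 * s) t y + G ^ 2 / 2) := by
  have h1 := jensen_step hw hG hgap hs hh (t := t) (y := y)
  have e : s * (Sp w s t y + 2 * Sm w (2 * s) t y + G ^ 2 / 2)
      = hlP w s t y - hlM w (2 * s) t y + G ^ 2 * s / 2 := by
    unfold Sp Sm
    field_simp
    ring
  rw [e]
  unfold pot
  linarith

/-- Replacing the atom `i` by a stencil around it. -/
theorem append_sum {M : Type*} [AddCommGroup M] [Module ℝ M] {m k : ℕ} (l : Fin m → ℝ)
    (ν : Fin k → ℝ) (η : Fin m → F) (ζ : Fin k → F) (i : Fin m) (g : F → M) :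
    ∑ j, Fin.append (Function.update l i 0) (fun j => l i * ν j) j •
        g (Fin.append η (fun j => η i + ζ j) j) =
      (∑ j, l j • g (η j) - l i • g (η i)) + l i • ∑ j, ν j • g (η i + ζ j) := by
  rw [Fin.sum_univ_add]
  simp only [Fin.append_left, Fin.append_right, Finset.smul_sum, smul_smul]
  congr 1
  rw [eq_sub_iff_add_eq, Finset.sum_eq_sum_sdiff_singleton_add (Finset.mem_univ i),
    Finset.sum_eq_sum_sdiff_singleton_add (f := fun j => l j • g (η j)) (Finset.mem_univ i)]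
  simp only [Function.update_self, zero_smul, add_zero]
  refine congrArg (· + _) (Finset.sum_congr rfl fun j hj => ?_)
  rw [Function.update_of_ne (by simpa using hj)]

/-- The slice at an atom of a saturated stencil is touched above by a paraboloid. -/
theorem atom_touched {G : ℝ} (hG : 0 ≤ G) (hgap : GapLe G w) {m : ℕ} {t : ℝ} {y : F}
    {l : Fin m → ℝ} {η : Fin m → F} (hs : Saturated G w t y l η) (hρ : 0 < spread l η)
    {i : Fin m} (hi : 0 < l i) :
    ∃ p : F, ∀ z, w t (y + η i + z) ≤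
      w t (y + η i) + ⟪p, z⟫ + G / 2 / spread l η * ‖z‖ ^ 2 := by
  obtain ⟨⟨hl, hl1, hl0⟩, heq⟩ := hs
  set ρ := spread l η with hρdef
  obtain ⟨p, hp⟩ := touching
    (f := fun z => w t (y + η i + z) - w t (y + η i) - G / 2 / ρ * ‖z‖ ^ 2) (by simp) (by
    intro k ν ζ hν
    obtain ⟨hν0, hν1, hνm⟩ := hν
    set L : Fin (m + k) → ℝ := Fin.append (Function.update l i 0) (fun j => l i * ν j) with hL
    set E : Fin (m + k) → F := Fin.append η (fun j => η i + ζ j) with hE
    have key : ∀ g : F → F, ∑ j, L j • g (E j) =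
        (∑ j, l j • g (η j) - l i • g (η i)) + l i • ∑ j, ν j • g (η i + ζ j) := fun g =>
      append_sum l ν η ζ i g
    have keyR : ∀ g : F → ℝ, ∑ j, L j * g (E j) =
        (∑ j, l j * g (η j) - l i * g (η i)) + l i * ∑ j, ν j * g (η i + ζ j) := by
      intro g
      simpa only [smul_eq_mul] using append_sum l ν η ζ i g
    have hst : IsStencil L E := by
      refine ⟨fun j => ?_, ?_, ?_⟩
      · refine Fin.addCases (fun a => ?_) (fun b => ?_) j
        · rw [hL, Fin.append_left]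
          rcases eq_or_ne a i with rfl | ha
          · rw [Function.update_self]
          · rw [Function.update_of_ne ha]; exact hl a
        · rw [hL, Fin.append_right]; exact mul_nonneg hi.le (hν0 b)
      · have h := keyR fun _ => 1
        simp only [mul_one] at h
        rw [h, hl1, hν1]; ring
      · have h := key (fun x => x)
        simp_rw [smul_add] at h
        rw [Finset.sum_add_distrib, ← Finset.sum_smul, hν1, one_smul, hνm, add_zero, hl0] at h
        rw [h]; abel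
    set σ2 := ∑ j, ν j * ‖ζ j‖ ^ 2 with hσ
    have hspread : spread L E ≤ ρ + l i * σ2 / (2 * ρ) := by
      have hσ0 : 0 ≤ σ2 := Finset.sum_nonneg fun j _ => mul_nonneg (hν0 j) (sq_nonneg _)
      refine Real.sqrt_le_iff.2 ⟨by positivity, ?_⟩
      have h := keyR fun x => ‖x‖ ^ 2
      have e : ∑ j, ν j * ‖η i + ζ j‖ ^ 2 = ‖η i‖ ^ 2 + σ2 := by
        have e1 : ∀ j, ν j * ‖η i + ζ j‖ ^ 2 =
            ν j * ‖η i‖ ^ 2 + 2 * ⟪η i, ν j • ζ j⟫ + ν j * ‖ζ j‖ ^ 2 := fun j => by
          rw [norm_add_sq_real, real_inner_smul_right]; ring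
        simp_rw [e1]
        rw [Finset.sum_add_distrib, Finset.sum_add_distrib, ← Finset.sum_mul, hν1, ← Finset.mul_sum,
          ← inner_sum, hνm, inner_zero_right]
        ring
      rw [h, e, ← spread_sq hl, ← hρdef]
      have e2 : (ρ + l i * σ2 / (2 * ρ)) ^ 2 =
          ρ ^ 2 + l i * σ2 + (l i * σ2 / (2 * ρ)) ^ 2 := by field_simp; ring
      rw [e2]
      linarith [sq_nonneg (l i * σ2 / (2 * ρ))]
    have h1 := hgap (m + k) t y L E hst
    have h2 := mul_le_mul_of_nonneg_left hspread hG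
    have h3 := keyR fun x => w t (y + x)
    have e4 : ∑ j, ν j * (w t (y + η i + ζ j) - w t (y + η i) - G / 2 / ρ * ‖ζ j‖ ^ 2) =
        ∑ j, ν j * w t (y + (η i + ζ j)) - w t (y + η i) - G / 2 / ρ * σ2 := by
      simp only [mul_sub, Finset.sum_sub_distrib, ← Finset.sum_mul, hν1, one_mul, hσ,
        Finset.mul_sum, add_assoc]
      congr 1
      exact Finset.sum_congr rfl fun j _ => by ring
    rw [e4]
    unfold gap at h1 heq
    rw [h3] at h1
    refine nonpos_of_mul_nonpos_right (?_ : l i * _ ≤ 0) hi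
    have e5 : G * (ρ + l i * σ2 / (2 * ρ)) = G * ρ + l i * (G / 2 / ρ * σ2) := by ring
    linarith)
  exact ⟨p, fun z => by linarith [hp z]⟩

/-- At a saturated stencil all slopes are bounded below by the window slope of its spread. -/
theorem saturated_slope (C G : ℝ) : ∃ c : ℝ, 0 < c ∧ ∀ {w : ℝ → F → ℝ}, Prof C w → GapLe G w →
    ∀ {m : ℕ} {t : ℝ} {y : F} {l : Fin m → ℝ} {η : Fin m → F} {b : ℝ} {v : F},
      0 < G → Saturated G w t y l η → 0 < spread l η → IsWin C w t y (spread l η) b v →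
      ∀ s, 0 < s → 2 * s ≤ spread l η →
        b - c ≤ Sp w s t y ∧ b - c ≤ Sm w s t y ∧
        s * (3 * b - c) ≤ pot w s t y l η - G * spread l η := by
  obtain ⟨c₀, hc₀, hseed⟩ := seed (F := F) C (G / 2)
  obtain ⟨c₁, hc₁, hds⟩ := drift_space (F := F) C
  obtain ⟨c₂, hc₂, hb⟩ := hlP_bound (F := F) C
  refine ⟨3 * (c₀ + 4 * c₁ + G ^ 2 / 2 + 2 * c₂), by positivity, ?_⟩
  intro w hw hgap m t y l η b v hG hsat hρ hwin
  obtain ⟨hl, hl1, hl0⟩ := hsat.1
  set ρ := spread l η with hρdef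
  have hatom : ∀ h, 0 < h → h ≤ ρ → b - c₀ - 4 * c₁ ≤ ∑ i, l i * Sp w h t (y + η i) := by
    intro h hh hhρ
    have hterm : ∀ i, l i * (b - c₀ - 2 * c₁) - 2 * c₁ / ρ ^ 2 * (l i * ‖η i‖ ^ 2)
        ≤ l i * Sp w h t (y + η i) := by
      intro i
      rcases (hl i).eq_or_lt with h0 | h0
      · rw [← h0]; simp
      obtain ⟨bi, vi, hwi⟩ := hw.window t (y + η i) ρ hρ
      obtain ⟨p, hp⟩ := atom_touched hG.le hgap hsat hρ h0
      have h1 := ((hseed hw hρ hwi hp).2 h hh hhρ).1
      have h2 := (hds hw hρ hwin 0 (η i) (b' := bi) (v' := vi) (by simpa using hwi) _ rfl).2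
      rw [abs_zero, zero_add] at h2
      set q := ‖η i‖ / ρ with hq
      have hq0 : 0 ≤ q := by positivity
      have h3 : (1 + Real.log (1 + q)) ^ 2 ≤ 2 + 2 * q ^ 2 := by
        have hlog0 : 0 ≤ Real.log (1 + q) := Real.log_nonneg (by linarith)
        have hlog : Real.log (1 + q) ≤ q := by
          linarith [Real.log_le_sub_one_of_pos (show 0 < 1 + q by linarith)]
        nlinarith [sq_nonneg (q - 1)]
      have h4 := mul_le_mul_of_nonneg_left h3 hc₁.le
      have h5 := (abs_le.1 h2).1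
      have e : 2 * c₁ / ρ ^ 2 * (l i * ‖η i‖ ^ 2) = l i * (2 * c₁ * q ^ 2) := by
        rw [hq, div_pow]; ring
      rw [e, ← mul_sub]
      exact mul_le_mul_of_nonneg_left (by linarith) h0.le
    refine le_trans (le_of_eq ?_) (Finset.sum_le_sum fun i _ => hterm i)
    rw [Finset.sum_sub_distrib, ← Finset.sum_mul, hl1, one_mul, ← Finset.mul_sum,
      ← spread_sq hl, ← hρdef, div_mul_cancel₀ _ (by positivity)]
    ring
  have hsum : ∀ h, 0 < h → ∑ i, l i * hlP w h t (y + η i) =
      w t y + G * ρ + h * ∑ i, l i * Sp w h t (y + η i) := by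
    intro h hh
    have e : ∀ i, l i * hlP w h t (y + η i) =
        l i * w t (y + η i) + h * (l i * Sp w h t (y + η i)) := fun i => by
      unfold Sp; field_simp; ring
    simp_rw [e]
    rw [Finset.sum_add_distrib, ← Finset.mul_sum]
    have := hsat.2
    unfold gap at this
    linarith
  have hSp : ∀ h, 0 < h → h ≤ ρ → b - c₀ - 4 * c₁ - G ^ 2 / 2 ≤ Sp w h t y := by
    intro h hh hhρ
    have h1 := jensen_step hw hG.le hgap hsat.1 hh (t := t) (y := y)
    rw [hsum h hh, ← hρdef] at h1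
    show _ ≤ (hlP w h t y - w t y) / h
    rw [le_div_iff₀ hh]
    nlinarith [mul_le_mul_of_nonneg_left (hatom h hh hhρ) hh.le]
  have hSm : ∀ h, 0 < h → h ≤ ρ → b - c₀ - 4 * c₁ - G ^ 2 / 2 - 2 * c₂ ≤ Sm w h t y := by
    intro h hh hhρ
    obtain ⟨bh, vh, hwh⟩ := hw.window t y h hh
    obtain ⟨h1, h2, -, -⟩ := hb hw hh hwh
    linarith [hSp h hh hhρ, (abs_le.1 h1).2, (abs_le.1 h2).1]
  intro s hs hsρ
  have hs' : s ≤ ρ := by linarith
  refine ⟨?_, ?_, ?_⟩
  · linarith [hSp s hs hs', sq_nonneg G]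
  · linarith [hSm s hs hs', sq_nonneg G]
  · have e : hlM w (2 * s) t y = w t y - 2 * s * Sm w (2 * s) t y := by
      unfold Sm; field_simp; ring
    unfold pot
    rw [hsum s hs, e]
    have h1 := mul_le_mul_of_nonneg_left (hatom s hs hs') hs.le
    have h2 := mul_le_mul_of_nonneg_left (hSm (2 * s) (by linarith) hsρ) hs.le
    nlinarith [sq_nonneg G]

end Vale.Agent.P080.C1
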