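import Vale.Agent.P080.C1.HopfLax
import Vale.Agent.P080.C1.Stencil.KeyWindow

/-!
A6: the key inequality for stencils.
-/

namespace Vale.Agent.P080.C1

open Set Filter Topology
open scoped RealInnerProductSpace

set_option linter.unusedSectionVars false

variable {F : Type*} [NormedAddCommGroup F] [InnerProductSpace ℝ F] [FiniteDimensional ℝ F]
variable {C : ℝ} {w : ℝ → F → ℝ}

/-- The backward value is the reflected forward value of the mirror. -/
theorem mir_hlM (w : ℝ → F → ℝ) (s : ℝ) : mir (hlM w s) = hlP (mir w) s := by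
  funext t y
  simp [mir, hlM]

/-- Two backward steps are one backward step of twice the length. -/
theorem hlM_semigroup (hw' : Prof C (mir w)) {s : ℝ} (hs : 0 < s) (t : ℝ) (y : F) :
    hlM (hlM w s) s t y = hlM w (2 * s) t y := by
  rw [two_mul]
  show -hlP (mir (hlM w s)) s (-t) y = -hlP (mir w) (s + s) (-t) y
  rw [mir_hlM, hlP_semigroup hw' hs hs]

/-- A competitor of the iterated forward value. -/
theorem hlP_step_le (hw : Prof C w) {s : ℝ} (hs : 0 < s) (t : ℝ) (y z : F) :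
    hlP w s (t + s) (y + z) - ‖z‖ ^ 2 / (2 * s) ≤ hlP w (s + s) t y := by
  obtain ⟨q, hq⟩ := hlP_attained hw hs (t + s) (y + z)
  have h1 := le_hlP hw (add_pos hs hs) t y (z + q)
  rw [show t + (s + s) = t + s + s by ring, show y + (z + q) = y + z + q by abel] at h1
  have h2 : ‖z + q‖ ^ 2 / (2 * (s + s)) ≤ ‖z‖ ^ 2 / (2 * s) + ‖q‖ ^ 2 / (2 * s) := by
    rw [← add_div, div_le_div_iff₀ (by positivity) (by positivity)]
    have h3 := mul_le_mul_of_nonneg_left
      ((pow_le_pow_left₀ (norm_nonneg _) (norm_add_le z q) 2).trans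
        ((by nlinarith [sq_nonneg (‖z‖ - ‖q‖)]) :
          (‖z‖ + ‖q‖) ^ 2 ≤ 2 * ‖z‖ ^ 2 + 2 * ‖q‖ ^ 2)) hs.le
    linarith
  linarith

/-- The iterated forward value is attained at half of the double step. -/
theorem hlP_step_attained (hw : Prof C w) {s : ℝ} (hs : 0 < s) (t : ℝ) (y : F) :
    ∃ z, hlP (hlP w s) s t y = hlP w s (t + s) (y + (1 / 2 : ℝ) • z)
        - ‖(1 / 2 : ℝ) • z‖ ^ 2 / (2 * s) ∧
      hlP w (s + s) t y = w (t + (s + s)) (y + z) - ‖z‖ ^ 2 / (2 * (s + s)) := by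
  obtain ⟨z, hz⟩ := hlP_attained hw (add_pos hs hs) t y
  refine ⟨z, ?_, hz⟩
  rw [hlP_semigroup hw hs hs]
  refine le_antisymm ?_ (hlP_step_le hw hs t y _)
  rw [hz]
  have h1 := le_hlP hw hs (t + s) (y + (1 / 2 : ℝ) • z) ((1 / 2 : ℝ) • z)
  rw [show t + s + s = t + (s + s) by ring,
    show y + (1 / 2 : ℝ) • z + (1 / 2 : ℝ) • z = y + z by module] at h1
  have h2 : ‖(1 / 2 : ℝ) • z‖ ^ 2 / (2 * s) + ‖(1 / 2 : ℝ) • z‖ ^ 2 / (2 * s) =
      ‖z‖ ^ 2 / (2 * (s + s)) := by
    rw [norm_smul, Real.norm_of_nonneg (by norm_num)]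
    field_simp
    ring
  linarith

/-- A competitor of the backward value of the forward value. -/
theorem hlM_hlP_le (hw : Prof C w) {s : ℝ} (hs : 0 < s) (t : ℝ) (y z : F) :
    hlM (hlP w s) s t y ≤ hlP w s (t - s) (y + z) + ‖z‖ ^ 2 / (2 * s) := by
  have hb : BddAbove (range fun z : F =>
      mir (hlP w s) (-t + s) (y + z) - ‖z‖ ^ 2 / (2 * s)) := ⟨-w t y, by
    rintro x ⟨z, rfl⟩
    have h1 := le_hlP hw hs (t - s) (y + z) (-z)
    rw [sub_add_cancel, add_neg_cancel_right, norm_neg] at h1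
    simp only [mir]
    rw [show -(-t + s) = t - s by ring]
    linarith⟩
  have h2 : mir (hlP w s) (-t + s) (y + z) - ‖z‖ ^ 2 / (2 * s) ≤
      hlP (mir (hlP w s)) s (-t) y := le_csSup hb ⟨z, rfl⟩
  show -hlP (mir (hlP w s)) s (-t) y ≤ _
  have e : mir (hlP w s) (-t + s) (y + z) = -hlP w s (t - s) (y + z) := by
    show -hlP w s (-(-t + s)) (y + z) = _
    rw [show -(-t + s) = t - s by ring]
  linarith

/-- A competitor of the forward value of the backward value. -/
theorem le_hlP_hlM (hw : Prof C w) {s : ℝ} (hs : 0 < s) (t : ℝ) (y z : F) :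
    hlM w s (t + s) (y + z) - ‖z‖ ^ 2 / (2 * s) ≤ hlP (hlM w s) s t y := by
  have hb : BddAbove (range fun z : F => hlM w s (t + s) (y + z) - ‖z‖ ^ 2 / (2 * s)) :=
    ⟨w t y, by
      rintro x ⟨z, rfl⟩
      have h1 := hlM_le hw hs (t + s) (y + z) (-z)
      rw [add_sub_cancel_right, add_neg_cancel_right, norm_neg] at h1
      linarith⟩
  exact le_csSup hb ⟨z, rfl⟩

/-- The key inequality. -/
theorem key_step (hw : Prof C w) {s : ℝ} (hs : 0 < s) {m : ℕ} {t : ℝ} {y : F}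
    {l : Fin m → ℝ} {η : Fin m → F} (hst : IsStencil l η) :
    ∃ (a : Fin m → F) (b : F),
      (∀ i, hlP (hlP w s) s t (y + η i) = hlP w s (t + s) (y + η i + a i) - ‖a i‖ ^ 2 / (2 * s)) ∧
      hlM (hlM w s) s t y = hlM w s (t - s) (y + b) + ‖b‖ ^ 2 / (2 * s) ∧
      ∀ x : F, x = ∑ i, l i • a i → ∀ c : Fin m → F, ∑ i, l i • c i = 0 →
        2 * pot w s t y l η + ‖x + b‖ ^ 2 / (4 * s) ≤
          pot w s (t + s) (y + x) l (fun i => η i + (a i - x))
          + pot w s (t - s) (y + b) l (fun i => η i + c i)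
          - (∑ i, l i * ‖a i - x‖ ^ 2) / (2 * s) + (∑ i, l i * ‖c i‖ ^ 2) / (2 * s) := by
  obtain ⟨hl0, hl1, -⟩ := hst
  have hwm : Prof C (mir w) := hw.mirror
  choose z hz _hz2 using fun i => hlP_step_attained hw hs t (y + η i)
  obtain ⟨zb, hzb, -⟩ := hlP_step_attained hwm hs (-t) y
  set a : Fin m → F := fun i => (1 / 2 : ℝ) • z i with ha
  set b : F := (1 / 2 : ℝ) • zb with hb
  have eb : hlM (hlM w s) s t y = hlM w s (t - s) (y + b) + ‖b‖ ^ 2 / (2 * s) := by
    show -hlP (mir (hlM w s)) s (-t) y = -hlP (mir w) s (-(t - s)) (y + b) + ‖b‖ ^ 2 / (2 * s)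
    rw [mir_hlM, hzb, show -(t - s) = -t + s by ring]
    ring
  refine ⟨a, b, hz, eb, fun x hx c hc => ?_⟩
  subst hx
  have hpot : ∀ (t' : ℝ) (y' : F) (η' : Fin m → F), pot w s t' y' l η' =
      Stencil.potW (hlP w s) (hlM (hlM w s) s) l t' y' η' := fun t' y' η' => by
    simp only [pot, Stencil.potW, hlM_semigroup hwm hs]
  rw [hpot, hpot, hpot]
  have key := Stencil.key_window (W := hlP w s) (m := hlM w s) (Mm := hlM (hlM w s) s) (t := t)
    (y := y) (b := b) (η := η) (a := a) hs hl0 hl1 hc ?_ ?_ eb ?_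
  · simp only [Stencil.sqLen] at key
    linarith
  · intro i q
    have h1 := hlP_sub hw hs t (y + η i)
    rw [hz i] at h1
    have h2 := hlM_hlP_le hw hs t (y + η i) q
    simp only [ha] at *
    linarith
  · intro t' y' q
    have h1 := hlP_step_le hwm hs (-t') y' q
    rw [← hlP_semigroup hwm hs hs] at h1
    show -hlP (mir (hlM w s)) s (-t') y' ≤
      -hlP (mir w) s (-(t' - s)) (y' + q) + ‖q‖ ^ 2 / (2 * s)
    rw [mir_hlM, show -(t' - s) = -t' + s by ring]
    linarith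
  · intro t' y' q
    have h1 := hlM_super hw hs t' y'
    have h2 := le_hlP_hlM hw hs t' y' q
    linarith

end Vale.Agent.P080.C1
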