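import Vale.Agent.P080.C1.HopfLax

/-!
A1e, A2d: locally uniform limits and compactness of the normalised class.
-/

namespace Vale.Agent.P080.C1

open Set Filter Topology
open scoped RealInnerProductSpace

set_option linter.unusedSectionVars false

variable {F : Type*} [NormedAddCommGroup F] [InnerProductSpace ℝ F] [FiniteDimensional ℝ F]
variable {C : ℝ} {w : ℝ → F → ℝ}

/-- Bounded on bounded sets, uniformly along the sequence. -/
def LocBdd (W : ℕ → ℝ → F → ℝ) : Prop :=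
  ∀ R : ℝ, ∃ B : ℝ, ∀ n t y, |t| ≤ R → ‖y‖ ≤ R → |W n t y| ≤ B

theorem abs_fst_le (X : ℝ × F) : |X.1| ≤ ‖X‖ := by
  rw [Prod.norm_def, ← Real.norm_eq_abs]; exact le_max_left _ _

theorem norm_snd_le' (X : ℝ × F) : ‖X.2‖ ≤ ‖X‖ := by
  rw [Prod.norm_def]; exact le_max_right _ _

theorem continuous_of_profs {W : ℕ → ℝ → F → ℝ} (hW : ∀ n, Prof C (W n))
    (h : TendstoLocallyUniformly (fun n (X : ℝ × F) => W n X.1 X.2) (fun X => w X.1 X.2) atTop) :
    Continuous (fun X : ℝ × F => w X.1 X.2) :=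
  h.continuous (Frequently.of_forall fun n => (hW n).continuous)

theorem locBdd_of_tendsto {W : ℕ → ℝ → F → ℝ} (hW : ∀ n, Prof C (W n))
    (h : TendstoLocallyUniformly (fun n (X : ℝ × F) => W n X.1 X.2) (fun X => w X.1 X.2) atTop) :
    LocBdd W := by
  intro R
  have hK : IsCompact (Metric.closedBall (0 : ℝ × F) R) := isCompact_closedBall _ _
  obtain ⟨B₀, hB₀⟩ := hK.exists_bound_of_continuousOn (continuous_of_profs hW h).continuousOn
  obtain ⟨N, hN⟩ := eventually_atTop.1 (Metric.tendstoUniformlyOn_iff.1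
    (tendstoLocallyUniformly_iff_forall_isCompact.1 h _ hK) 1 one_pos)
  choose B hB using fun n => hK.exists_bound_of_continuousOn (hW n).continuous.continuousOn
  obtain ⟨B₁, hB₁⟩ := Finset.exists_le ((Finset.range N).image B)
  refine ⟨max (B₀ + 1) B₁, fun n t y ht hy => ?_⟩
  have hX : (t, y) ∈ Metric.closedBall (0 : ℝ × F) R := by
    rw [mem_closedBall_zero_iff, Prod.norm_def, Real.norm_eq_abs]; exact max_le ht hy
  rcases le_or_gt N n with hn | hn
  · have h1 := hN n hn (t, y) hX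
    have h2 := hB₀ (t, y) hX
    rw [Real.norm_eq_abs] at h2
    rw [Real.dist_eq, abs_sub_comm] at h1
    have h3 := abs_sub_abs_le_abs_sub (W n t y) (w t y)
    simp only at h1 h2
    exact le_max_of_le_left (by linarith)
  · refine le_max_of_le_right ((?_ : |W n t y| ≤ B n).trans
      (hB₁ _ (Finset.mem_image_of_mem _ (Finset.mem_range.2 hn))))
    simpa [Real.norm_eq_abs] using hB n (t, y) hX

/-- Windows of a fixed radius have bounded slopes. -/
theorem win_bdd {W : ℕ → ℝ → F → ℝ} (hB : LocBdd W) (C R : ℝ) {r : ℝ} (hr : 0 < r) :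
    ∃ L : ℝ, 0 ≤ L ∧ ∀ n t y b v, |t| ≤ R → ‖y‖ ≤ R → IsWin C (W n) t y r b v →
      ‖v‖ ≤ L ∧ |b| ≤ L := by
  obtain ⟨B₁, hB₁⟩ := hB (R + r)
  set L₁ := |2 * B₁ / r| + |C| with hL₁
  have hL₁0 : 0 ≤ L₁ := by positivity
  obtain ⟨B₂, hB₂⟩ := hB (R + r + r * L₁)
  refine ⟨L₁ + |2 * B₂ / r| + |C| + L₁ ^ 2, by positivity, fun n t y b v ht hy hw => ?_⟩
  have hC : C ≤ |C| := le_abs_self C
  have hv : ‖v‖ ≤ L₁ := by
    rcases eq_or_ne v 0 with rfl | hv0
    · simpa using hL₁0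
    have hn : ‖v‖ ≠ 0 := norm_ne_zero_iff.2 hv0
    have hz : ‖(r / ‖v‖) • v‖ = r := by
      rw [norm_smul, Real.norm_eq_abs, abs_of_pos (by positivity), div_mul_cancel₀ _ hn]
    have h1 := hw 0 ((r / ‖v‖) • v) (by simpa using hr.le) hz.le
    have e : ⟪v, (r / ‖v‖) • v⟫ = r * ‖v‖ := by
      rw [real_inner_smul_right, real_inner_self_eq_norm_sq]; field_simp
    rw [add_zero, zero_smul, add_zero, mul_zero, sub_zero, e] at h1
    have h2 := abs_le.1 (hB₁ n t (y + (r / ‖v‖) • v) (ht.trans (by linarith))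
      ((norm_add_le _ _).trans (by rw [hz]; linarith)))
    have h3 := abs_le.1 (hB₁ n t y (ht.trans (by linarith)) (hy.trans (by linarith)))
    have h4 : ‖v‖ ≤ (2 * B₁ + C * r) / r := by
      rw [le_div_iff₀ hr]; linarith [(abs_le.1 h1).1]
    refine h4.trans ?_
    rw [add_div, mul_div_assoc C, div_self hr.ne', mul_one, hL₁]
    exact add_le_add (le_abs_self _) hC
  refine ⟨by linarith [abs_nonneg (2 * B₂ / r), abs_nonneg C, sq_nonneg L₁], ?_⟩
  have h1 := hw r 0 (by rw [abs_of_pos hr]) (by simpa using hr.le)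
  rw [add_zero, inner_zero_right, sub_zero] at h1
  have hrv : ‖y + r • v‖ ≤ R + r + r * L₁ := by
    refine (norm_add_le _ _).trans ?_
    rw [norm_smul, Real.norm_of_nonneg hr.le]
    linarith [mul_le_mul_of_nonneg_left hv hr.le]
  have hrL : 0 ≤ r * L₁ := by positivity
  have h2 := abs_le.1 (hB₂ n (t + r) (y + r • v)
    ((abs_add_le t r).trans (by rw [abs_of_pos hr]; linarith)) hrv)
  have h3 := abs_le.1 (hB₂ n t y (ht.trans (by linarith)) (hy.trans (by linarith)))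
  have h4 : |b + ‖v‖ ^ 2 / 2| ≤ |2 * B₂ / r| + |C| := by
    have : |b + ‖v‖ ^ 2 / 2| ≤ (2 * B₂ + C * r) / r := by
      rw [le_div_iff₀ hr, ← abs_of_pos hr, ← abs_mul, abs_le, abs_of_pos hr]
      constructor <;> linarith [(abs_le.1 h1).1, (abs_le.1 h1).2]
    refine this.trans ?_
    rw [add_div, mul_div_assoc C, div_self hr.ne', mul_one]
    exact add_le_add (le_abs_self _) hC
  have h5 : ‖v‖ ^ 2 ≤ L₁ ^ 2 := pow_le_pow_left₀ (norm_nonneg v) hv 2
  rw [abs_le] at h4 ⊢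
  constructor <;> linarith [sq_nonneg ‖v‖, h4.1, h4.2]

/-- The Hopf-Lax values pass to the limit. -/
theorem hlP_tendsto {W : ℕ → ℝ → F → ℝ} (hW : ∀ n, Prof C (W n))
    (h : TendstoLocallyUniformly (fun n (X : ℝ × F) => W n X.1 X.2) (fun X => w X.1 X.2) atTop)
    {s : ℝ} (hs : 0 < s) {tn : ℕ → ℝ} {yn : ℕ → F} {t : ℝ} {y : F}
    (ht : Tendsto tn atTop (𝓝 t)) (hy : Tendsto yn atTop (𝓝 y)) :
    Tendsto (fun n => hlP (W n) s (tn n) (yn n)) atTop (𝓝 (hlP w s t y)) := by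
  have hc := continuous_of_profs hW h
  obtain ⟨c, hc0, hbd⟩ := hlP_bound (F := F) C
  obtain ⟨L, hL0, hL⟩ := win_bdd (locBdd_of_tendsto hW h) C (|t| + ‖y‖ + 1) hs
  set Rz := c * s + s * L with hRz
  choose zn hzn using fun n => hlP_attained (hW n) hs (tn n) (yn n)
  have hev : ∀ᶠ n in atTop, ‖zn n‖ ≤ Rz := by
    filter_upwards [(continuous_abs.tendsto t).comp ht |>.eventually
      (eventually_le_nhds (lt_add_one |t|)),
      (continuous_norm.tendsto y).comp hy |>.eventually (eventually_le_nhds (lt_add_one ‖y‖))]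
      with n h1 h2
    simp only [Function.comp_apply] at h1 h2
    obtain ⟨b, v, hbv⟩ := (hW n).window (tn n) (yn n) s hs
    obtain ⟨hv, -⟩ := hL n _ _ b v (h1.trans (by linarith [norm_nonneg y]))
      (h2.trans (by linarith [abs_nonneg t])) hbv
    have h3 := (hbd (hW n) hs hbv).2.2.1 _ (hzn n)
    have h4 := norm_le_norm_add_norm_sub' (zn n) (s • v)
    rw [norm_smul, Real.norm_of_nonneg hs.le] at h4
    linarith [mul_le_mul_of_nonneg_left hv hs.le]
  set Φ := fun z => w (t + s) (y + z) - ‖z‖ ^ 2 / (2 * s) with hΦ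
  have hlim : ∀ {k : ℕ → ℕ}, Tendsto k atTop atTop → ∀ {z : ℕ → F} {a : F},
      Tendsto z atTop (𝓝 a) →
      Tendsto (fun j => W (k j) (tn (k j) + s) (yn (k j) + z j) - ‖z j‖ ^ 2 / (2 * s)) atTop
        (𝓝 (Φ a)) := by
    intro k hk z a hz
    have hX : Tendsto (fun j => (tn (k j) + s, yn (k j) + z j)) atTop (𝓝 (t + s, y + a)) :=
      ((ht.comp hk).add_const s).prodMk_nhds ((hy.comp hk).add hz)
    have hk' : TendstoLocallyUniformly (fun j (X : ℝ × F) => W (k j) X.1 X.2)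
        (fun X => w X.1 X.2) atTop := fun u hu x => by
      obtain ⟨o, ho, he⟩ := h u hu x
      exact ⟨o, ho, hk.eventually he⟩
    exact (hk'.tendsto_comp hc.continuousAt hX).sub ((hz.norm.pow 2).div_const _)
  have hΦc : Continuous Φ :=
    (hc.comp (by fun_prop : Continuous fun z : F => (t + s, y + z))).sub (by fun_prop)
  obtain ⟨zs, -, hzs⟩ := (isCompact_closedBall (0 : F) (max Rz 0)).exists_isMaxOn
    ⟨0, Metric.mem_closedBall_self (le_max_right _ _)⟩ hΦc.continuousOn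
  have hmain : Tendsto (fun n => hlP (W n) s (tn n) (yn n)) atTop (𝓝 (Φ zs)) := by
    refine tendsto_of_subseq_tendsto fun ns hns => ?_
    obtain ⟨N, hN⟩ := eventually_atTop.1 (hns.eventually hev)
    obtain ⟨a, ha, φ, hφ, hlim'⟩ :=
      (isCompact_closedBall (0 : F) (max Rz 0)).tendsto_subseq (x := fun j => zn (ns (j + N)))
        fun j => mem_closedBall_zero_iff.2 ((hN _ (Nat.le_add_left _ _)).trans (le_max_left _ _))
    refine ⟨fun j => φ j + N, ?_⟩
    have hk : Tendsto (fun j => ns (φ j + N)) atTop atTop :=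
      hns.comp ((tendsto_add_atTop_nat N).comp hφ.tendsto_atTop)
    have e1 := hlim hk hlim'
    have e2 : Tendsto (fun j => hlP (W (ns (φ j + N))) s (tn (ns (φ j + N))) (yn (ns (φ j + N))))
        atTop (𝓝 (Φ a)) := e1.congr fun j => (hzn _).symm
    have e3 := le_of_tendsto_of_tendsto' (hlim hk tendsto_const_nhds) e2
      fun j => le_hlP (hW _) hs _ _ zs
    rwa [le_antisymm (hzs ha) e3] at e2
  have hup : ∀ z, Φ z ≤ Φ zs := fun z =>
    le_of_tendsto_of_tendsto' (hlim tendsto_id tendsto_const_nhds) hmain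
      fun n => le_hlP (hW n) hs _ _ z
  have hval : hlP w s t y = Φ zs :=
    IsGreatest.csSup_eq ⟨⟨zs, rfl⟩, by rintro _ ⟨z, rfl⟩; exact hup z⟩
  rwa [hval]

theorem mir_tendsto {W : ℕ → ℝ → F → ℝ}
    (h : TendstoLocallyUniformly (fun n (X : ℝ × F) => W n X.1 X.2) (fun X => w X.1 X.2) atTop) :
    TendstoLocallyUniformly (fun n (X : ℝ × F) => mir (W n) X.1 X.2)
      (fun X => mir w X.1 X.2) atTop := by
  rw [Metric.tendstoLocallyUniformly_iff] at h ⊢
  intro ε hε X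
  obtain ⟨o, ho, he⟩ := h ε hε (-X.1, X.2)
  refine ⟨(fun Y : ℝ × F => (-Y.1, Y.2)) ⁻¹' o,
    (by fun_prop : Continuous fun Y : ℝ × F => (-Y.1, Y.2)).continuousAt.preimage_mem_nhds ho, ?_⟩
  filter_upwards [he] with n hn Y hY
  simp only [mir, dist_neg_neg]
  exact hn _ hY

theorem mono_of_tendsto {W : ℕ → ℝ → F → ℝ} (hW : ∀ n, Prof C (W n))
    (h : TendstoLocallyUniformly (fun n (X : ℝ × F) => W n X.1 X.2) (fun X => w X.1 X.2) atTop) :
    Mono w := by
  intro t y h₁ h1 h₂ h2 h12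
  have e : ∀ {r : ℝ}, 0 < r → Tendsto (fun n => Sp (W n) r t y) atTop (𝓝 (Sp w r t y)) :=
    fun {r} hr => ((hlP_tendsto hW h hr tendsto_const_nhds tendsto_const_nhds).sub
      (h.tendsto_comp (continuous_of_profs hW h).continuousAt
        (tendsto_const_nhds (x := (t, y))))).div_const r
  exact le_of_tendsto_of_tendsto' (e h1) (e h2) fun n => (hW n).mono t y h1 h2 h12

theorem barrier_of_tendsto {W : ℕ → ℝ → F → ℝ} (hW : ∀ n, Barrier (W n))
    (h : TendstoLocallyUniformly (fun n (X : ℝ × F) => W n X.1 X.2) (fun X => w X.1 X.2) atTop) :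
    Barrier w := by
  intro t y k T R L M c K hT hR hM hL hbd σ z hσ hσT hz
  refine le_of_forall_pos_le_add fun e he => ?_
  have hK : IsCompact ((fun p : ℝ × F => (t - p.1, y - p.1 • k + p.2)) ''
      (Icc 0 T ×ˢ Metric.closedBall 0 R)) :=
    (isCompact_Icc.prod (isCompact_closedBall _ _)).image (by fun_prop)
  have he' := Metric.tendstoUniformlyOn_iff.1
    (tendstoLocallyUniformly_iff_forall_isCompact.1 h _ hK) (e / 2) (half_pos he)
  obtain ⟨n, hn⟩ := he'.exists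
  have hd : ∀ (σ : ℝ) (z : F), 0 ≤ σ → σ ≤ T → ‖z‖ ≤ R →
      |back w t y k σ z - back (W n) t y k σ z| ≤ e / 2 := by
    intro σ z h1 h2 h3
    have h4 := hn (t - σ, y - σ • k + z)
      ⟨(σ, z), ⟨⟨h1, h2⟩, mem_closedBall_zero_iff.2 h3⟩, rfl⟩
    rw [Real.dist_eq] at h4
    simp only [back, add_sub_add_right_eq_sub, sub_sub_sub_cancel_right]
    exact h4.le
  have h1 := hW n t y k T R L M (c + e / 2) K hT hR hM hL (fun σ z a b d f => by
    linarith [(abs_le.1 (hd σ z a b d)).1, hbd σ z a b d f]) σ z hσ hσT hz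
  linarith [(abs_le.1 (hd σ z hσ hσT hz)).2]

/-- Profiles pass to locally uniform limits. -/
theorem prof_of_tendsto {W : ℕ → ℝ → F → ℝ} (hW : ∀ n, Prof C (W n))
    (h : TendstoLocallyUniformly (fun n (X : ℝ × F) => W n X.1 X.2) (fun X => w X.1 X.2) atTop) :
    Prof C w := by
  have hc := continuous_of_profs hW h
  have hWm : ∀ n, Prof C (mir (W n)) := fun n => (hW n).mirror
  refine ⟨mono_of_tendsto hW h, mono_of_tendsto hWm (mir_tendsto h), fun t y r hr => ?_,
    barrier_of_tendsto (fun n => (hW n).barrier) h,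
    barrier_of_tendsto (fun n => (hW n).barrier_mir) (mir_tendsto h)⟩
  obtain ⟨L, hL0, hL⟩ := win_bdd (locBdd_of_tendsto hW h) C (|t| + ‖y‖) hr
  choose b v hbv using fun n => (hW n).window t y r hr
  have hmem : ∀ n, (b n, v n) ∈ Metric.closedBall (0 : ℝ × F) L := fun n => by
    obtain ⟨h1, h2⟩ := hL n t y _ _ (by linarith [norm_nonneg y]) (by linarith [abs_nonneg t])
      (hbv n)
    rw [mem_closedBall_zero_iff, Prod.norm_def, Real.norm_eq_abs]
    exact max_le h2 h1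
  obtain ⟨a, -, φ, hφ, hlim⟩ := (isCompact_closedBall (0 : ℝ × F) L).tendsto_subseq hmem
  refine ⟨a.1, a.2, fun τ z hτ hz => ?_⟩
  have hb : Tendsto (fun j => b (φ j)) atTop (𝓝 a.1) := (continuous_fst.tendsto a).comp hlim
  have hv : Tendsto (fun j => v (φ j)) atTop (𝓝 a.2) := (continuous_snd.tendsto a).comp hlim
  have hsub : TendstoLocallyUniformly (fun j (X : ℝ × F) => W (φ j) X.1 X.2)
      (fun X => w X.1 X.2) atTop := fun u hu x => by
    obtain ⟨o, ho, he⟩ := h u hu x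
    exact ⟨o, ho, hφ.tendsto_atTop.eventually he⟩
  have e1 : Tendsto (fun j => W (φ j) (t + τ) (y + τ • v (φ j) + z)) atTop
      (𝓝 (w (t + τ) (y + τ • a.2 + z))) :=
    hsub.tendsto_comp hc.continuousAt
      (tendsto_const_nhds.prodMk_nhds (((hv.const_smul τ).const_add y).add_const z))
  have e2 : Tendsto (fun j => W (φ j) t y) atTop (𝓝 (w t y)) :=
    hsub.tendsto_comp hc.continuousAt (tendsto_const_nhds (x := (t, y)))
  exact le_of_tendsto' (((e1.sub e2).sub ((hb.add ((hv.norm.pow 2).div_const 2)).mul_const τ)).sub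
    (hv.inner tendsto_const_nhds)).abs fun j => hbv (φ j) τ z hτ hz

/-- Equicontinuity from the windows. -/
theorem equicont {W : ℕ → ℝ → F → ℝ} (hW : ∀ n, Prof C (W n)) (hB : LocBdd W) (R : ℝ) {ε : ℝ}
    (hε : 0 < ε) : ∃ δ : ℝ, 0 < δ ∧ ∀ n t y t' y', |t| ≤ R → ‖y‖ ≤ R → |t' - t| ≤ δ →
      ‖y' - y‖ ≤ δ → |W n t' y' - W n t y| ≤ ε := by
  set r := ε / (2 * (|C| + 1)) with hr_def
  have hr : 0 < r := by positivity
  obtain ⟨L, hL0, hL⟩ := win_bdd hB C R hr
  refine ⟨min (r / (1 + L)) (ε / (4 * (1 + L) ^ 2)), by positivity,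
    fun n t y t' y' ht hy hdt hdy => ?_⟩
  set δ := min (r / (1 + L)) (ε / (4 * (1 + L) ^ 2)) with hδ
  have hδ0 : 0 ≤ δ := by positivity
  have hδr : δ * (1 + L) ≤ r := (le_div_iff₀ (by positivity)).1 (min_le_left _ _)
  have hδε : δ * (4 * (1 + L) ^ 2) ≤ ε := (le_div_iff₀ (by positivity)).1 (min_le_right _ _)
  obtain ⟨b, v, hbv⟩ := (hW n).window t y r hr
  obtain ⟨hv, hb⟩ := hL n t y b v ht hy hbv
  set τ := t' - t with hτ
  set z := y' - y - τ • v with hz
  have hτv : ‖τ • v‖ ≤ δ * L := by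
    rw [norm_smul, Real.norm_eq_abs]
    exact mul_le_mul hdt hv (norm_nonneg _) hδ0
  have hzn : ‖z‖ ≤ δ * (1 + L) := by
    rw [hz]; linarith [norm_sub_le (y' - y) (τ • v)]
  have h1 := hbv τ z (by nlinarith) (hzn.trans hδr)
  rw [hτ, add_sub_cancel, show y + (t' - t) • v + z = y' by rw [hz, hτ]; abel] at h1
  have h2 : |⟪v, z⟫| ≤ L * (δ * (1 + L)) :=
    (abs_real_inner_le_norm v z).trans (mul_le_mul hv hzn (norm_nonneg _) hL0)
  have h3 : |(b + ‖v‖ ^ 2 / 2) * (t' - t)| ≤ (L + L ^ 2 / 2) * δ := by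
    rw [abs_mul]
    refine mul_le_mul ((abs_add_le _ _).trans ?_) hdt (abs_nonneg _) (by positivity)
    rw [abs_of_nonneg (by positivity : (0 : ℝ) ≤ ‖v‖ ^ 2 / 2)]
    linarith [pow_le_pow_left₀ (norm_nonneg v) hv 2]
  have h4 : C * r ≤ ε / 2 := by
    rw [hr_def, mul_div_assoc', div_le_iff₀ (by positivity)]
    nlinarith [le_abs_self C, abs_nonneg C]
  rw [abs_le] at h1 h2 h3 ⊢
  constructor <;> nlinarith [h1.1, h1.2, h2.1, h2.2, h3.1, h3.2]

/-- The normalised class is sequentially compact. -/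
theorem prof_compact {W : ℕ → ℝ → F → ℝ} (hW : ∀ n, Prof C (W n)) (h0 : ∀ n, W n 0 0 = 0)
    (hwin : ∀ n, IsWin C (W n) 0 0 1 0 0) :
    ∃ (φ : ℕ → ℕ) (w : ℝ → F → ℝ), StrictMono φ ∧ Prof C w ∧ w 0 0 = 0 ∧ IsWin C w 0 0 1 0 0 ∧
      TendstoLocallyUniformly (fun n (X : ℝ × F) => W (φ n) X.1 X.2) (fun X => w X.1 X.2)
        atTop := by
  obtain ⟨c, hc, hgr⟩ := growth (F := F) C
  have hB : LocBdd W := fun R => by
    refine ⟨c * 1 * ((1 + 2 * |R|) * Real.sqrt (1 + 2 * |R|)), fun n t y ht hy => ?_⟩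
    have h := hgr (hW n) one_pos (hwin n) t y
    simp only [zero_add, smul_zero, h0, sub_zero, norm_zero, div_one, inner_zero_left, ne_eq,
      OfNat.ofNat_ne_zero, not_false_eq_true, zero_pow, zero_div, zero_mul] at h
    refine h.trans (mul_le_mul_of_nonneg_left ?_ (by positivity))
    have : |t| + ‖y‖ ≤ 2 * |R| := by linarith [le_abs_self R]
    gcongr
  have : Nonempty (ℝ × F) := ⟨0⟩
  set D := TopologicalSpace.denseSeq (ℝ × F) with hD
  choose B hBd using hB
  have hmem : ∀ n, (fun k => W n (D k).1 (D k).2) ∈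
      Set.pi univ fun k => Icc (-B ‖D k‖) (B ‖D k‖) := fun n k _ =>
    abs_le.1 (hBd _ n _ _ (abs_fst_le _) (norm_snd_le' _))
  obtain ⟨d, -, φ, hφ, hlim⟩ :=
    (isCompact_univ_pi fun _ => isCompact_Icc).tendsto_subseq hmem
  have hpt : ∀ k, Tendsto (fun j => W (φ j) (D k).1 (D k).2) atTop (𝓝 (d k)) :=
    fun k => tendsto_pi_nhds.1 hlim k
  have heq := equicont hW fun R => ⟨B R, hBd R⟩
  have hcau : ∀ X : ℝ × F, CauchySeq fun j => W (φ j) X.1 X.2 := by
    intro X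
    refine Metric.cauchySeq_iff.2 fun ε hε => ?_
    obtain ⟨δ, hδ, hδ'⟩ := heq ‖X‖ (ε := ε / 4) (by positivity)
    obtain ⟨k, hk⟩ := (TopologicalSpace.denseRange_denseSeq (ℝ × F)).exists_dist_lt X hδ
    obtain ⟨N, hN⟩ := Metric.cauchySeq_iff.1 (hpt k).cauchySeq (ε / 4) (by positivity)
    refine ⟨N, fun m hm n hn => ?_⟩
    rw [dist_eq_norm, ← hD] at hk
    have e : ∀ i, |W (φ i) (D k).1 (D k).2 - W (φ i) X.1 X.2| ≤ ε / 4 := fun i => by
      rw [norm_sub_rev] at hk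
      exact hδ' _ _ _ _ _ (abs_fst_le X) (norm_snd_le' X)
        ((abs_fst_le (D k - X)).trans hk.le) ((norm_snd_le' (D k - X)).trans hk.le)
    have h3 := hN m hm n hn
    rw [Real.dist_eq] at h3 ⊢
    have h1 := abs_le.1 (e m)
    have h2 := abs_le.1 (e n)
    rw [abs_lt] at h3 ⊢
    constructor <;> linarith
  choose u hu using fun X => cauchySeq_tendsto_of_complete (hcau X)
  set w := fun t y => u (t, y) with hw
  have htl : TendstoLocallyUniformly (fun j (X : ℝ × F) => W (φ j) X.1 X.2)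
      (fun X => w X.1 X.2) atTop := by
    rw [Metric.tendstoLocallyUniformly_iff]
    intro ε hε X
    obtain ⟨δ, hδ, hδ'⟩ := heq ‖X‖ (ε := ε / 4) (by positivity)
    refine ⟨Metric.closedBall X δ, Metric.closedBall_mem_nhds X hδ, ?_⟩
    filter_upwards [Metric.tendsto_nhds.1 (hu X) (ε / 4) (by positivity)] with n hn Y hY
    rw [mem_closedBall_iff_norm] at hY
    have e : ∀ i, |W (φ i) Y.1 Y.2 - W (φ i) X.1 X.2| ≤ ε / 4 := fun i =>
      hδ' _ _ _ _ _ (abs_fst_le X) (norm_snd_le' X)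
        ((abs_fst_le (Y - X)).trans hY) ((norm_snd_le' (Y - X)).trans hY)
    have e' : |u Y - u X| ≤ ε / 4 := le_of_tendsto' ((hu Y).sub (hu X)).abs e
    rw [Real.dist_eq] at hn ⊢
    have h1 := abs_le.1 (e n)
    have h2 := abs_le.1 e'
    rw [abs_lt] at hn ⊢
    constructor <;> linarith
  refine ⟨φ, w, hφ, prof_of_tendsto (fun j => hW (φ j)) htl, ?_, fun τ z hτ hz => ?_, htl⟩
  · exact tendsto_nhds_unique (hu (0, 0)) (by simp [h0])
  · exact le_of_tendsto' (((((hu (0 + τ, (0 : F) + τ • (0 : F) + z)).sub (hu (0, 0))).sub_const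
      _).sub_const _).abs) fun j => hwin (φ j) τ z hτ hz

end Vale.Agent.P080.C1
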