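import Vale.Agent.P080.C1.Invariance

/-!
A1: linking of windows and growth.
-/

namespace Vale.Agent.P080.C1

open Set Filter Topology
open scoped RealInnerProductSpace

set_option linter.unusedSectionVars false

variable {F : Type*} [NormedAddCommGroup F] [InnerProductSpace ℝ F] [FiniteDimensional ℝ F]
variable {C : ℝ} {w : ℝ → F → ℝ}

/-- The affine function of the slope pair `(b, v)` in unmoved coordinates. -/
noncomputable def winAff (b : ℝ) (v : F) (τ : ℝ) (ζ : F) : ℝ := (b - ‖v‖ ^ 2 / 2) * τ + ⟪v, ζ⟫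

lemma winAff_eq (b : ℝ) (v : F) (τ : ℝ) (z : F) :
    winAff b v τ (τ • v + z) = (b + ‖v‖ ^ 2 / 2) * τ + ⟪v, z⟫ := by
  rw [winAff, inner_add_right, inner_smul_right, real_inner_self_eq_norm_sq]
  ring

lemma winAff_zero (b : ℝ) (v z : F) : winAff b v 0 z = ⟪v, z⟫ := by simp [winAff]

lemma IsWin.bound {t : ℝ} {y : F} {r b : ℝ} {v : F} (h : IsWin C w t y r b v) {τ : ℝ} {ζ : F}
    (hτ : |τ| ≤ r) (hζ : ‖ζ - τ • v‖ ≤ r) :
    |w (t + τ) (y + ζ) - w t y - winAff b v τ ζ| ≤ C * r := by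
  have e : ζ = τ • v + (ζ - τ • v) := by abel
  have h0 := h τ (ζ - τ • v) hτ hζ
  rw [add_assoc y, ← e] at h0
  rw [e, winAff_eq, ← e, sub_add_eq_sub_sub]
  exact h0

lemma IsWin.const_nonneg {t : ℝ} {y : F} {r b : ℝ} {v : F} (h : IsWin C w t y r b v) (hr : 0 < r) :
    0 ≤ C := by
  have h0 := (abs_nonneg _).trans (h 0 0 (by simp [hr.le]) (by simp [hr.le]))
  nlinarith

/-- A common bound for the change of the slope pair between comparable overlapping windows. -/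
noncomputable def stepConst (C : ℝ) : ℝ := 2 * (12 * C + 1) ^ 2

lemma two_win {t : ℝ} {y : F} {r b : ℝ} {v : F} (h : IsWin C w t y r b v) {τ₀ : ℝ} {ζ₀ : F}
    {ρ b' : ℝ} {v' : F} (h' : IsWin C w (t + τ₀) (y + ζ₀) ρ b' v') (hρ : 0 < ρ)
    (hτ : |τ₀| + ρ ≤ r) (hζ : ‖ζ₀ - τ₀ • v‖ + ρ ≤ r) (hr : r ≤ 4 * ρ) :
    ‖v' - v‖ ≤ stepConst C ∧ |b' - b| ≤ stepConst C := by
  have hC := h'.const_nonneg hρ
  have hbase := abs_le.1 (h.bound (τ := τ₀) (ζ := ζ₀) (by linarith) (by linarith))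
  have hv : ‖v' - v‖ ≤ 12 * C := by
    rcases eq_or_ne (v' - v) 0 with e | e
    · rw [e, norm_zero]; positivity
    have hn : 0 < ‖v' - v‖ := norm_pos_iff.2 e
    set z : F := (ρ / ‖v' - v‖) • (v' - v)
    have hz : ‖z‖ = ρ := by
      rw [norm_smul, Real.norm_eq_abs, abs_of_pos (div_pos hρ hn)]
      field_simp
    have e1 := abs_le.1 (h.bound (τ := τ₀) (ζ := ζ₀ + z) (by linarith) (by
      rw [add_sub_right_comm]
      exact (norm_add_le _ _).trans (by rw [hz]; exact hζ)))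
    have e2 := abs_le.1 (h'.bound (τ := 0) (ζ := z) (by simp [hρ.le]) (by simp [hz]))
    rw [add_zero, winAff_zero, add_assoc y] at e2
    have e3 : winAff b v τ₀ (ζ₀ + z) = winAff b v τ₀ ζ₀ + ⟪v, z⟫ := by
      rw [winAff, winAff, inner_add_right]
      ring
    have e4 : ⟪v', z⟫ - ⟪v, z⟫ = ρ * ‖v' - v‖ := by
      rw [← inner_sub_left, inner_smul_right, real_inner_self_eq_norm_sq]
      field_simp
    rw [e3] at e1
    refine le_of_mul_le_mul_left ?_ hρ
    nlinarith [hbase.1, hbase.2, e1.1, e1.2, e2.1, e2.2]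
  set D : ℝ := ‖v' - v‖ with hD
  have hD0 : 0 ≤ D := norm_nonneg _
  set σ : ℝ := ρ / (1 + D) with hσ
  have hσ0 : 0 < σ := by positivity
  have hσ1 : σ ≤ ρ := div_le_self hρ.le (by linarith)
  have hσD : σ * D ≤ ρ := by
    rw [hσ, div_mul_eq_mul_div, div_le_iff₀ (by linarith)]
    nlinarith
  have e1 := abs_le.1 (h.bound (τ := τ₀ + σ) (ζ := ζ₀ + σ • v')
    ((abs_add_le _ _).trans (by rw [abs_of_pos hσ0]; linarith)) (by
      rw [show ζ₀ + σ • v' - (τ₀ + σ) • v = ζ₀ - τ₀ • v + σ • (v' - v) by module]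
      refine (norm_add_le _ _).trans ?_
      rw [norm_smul, Real.norm_eq_abs, abs_of_pos hσ0]
      linarith))
  have e2 := abs_le.1 (h'.bound (τ := σ) (ζ := σ • v') (by rw [abs_of_pos hσ0]; exact hσ1)
    (by simp [hρ.le]))
  rw [add_assoc t, add_assoc y] at e2
  have e3 : winAff b v (τ₀ + σ) (ζ₀ + σ • v') - winAff b v τ₀ ζ₀ - winAff b' v' σ (σ • v')
      = σ * (b - b' - D ^ 2 / 2) := by
    rw [winAff, winAff, winAff, inner_add_right, inner_smul_right, inner_smul_right,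
      real_inner_self_eq_norm_sq, hD, norm_sub_sq_real, real_inner_comm v v']
    ring
  have hk : |b - b' - D ^ 2 / 2| ≤ 12 * C * (1 + D) := by
    have hlin : |σ * (b - b' - D ^ 2 / 2)| ≤ 12 * C * ρ := by
      rw [← e3, abs_le]
      have : C * r ≤ 4 * (C * ρ) := by nlinarith
      constructor <;> nlinarith [hbase.1, hbase.2, e1.1, e1.2, e2.1, e2.2]
    rw [abs_mul, abs_of_pos hσ0, hσ, div_mul_eq_mul_div, div_le_iff₀ (by linarith)] at hlin
    exact le_of_mul_le_mul_left (by linarith) hρ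
  unfold stepConst
  refine ⟨by nlinarith, ?_⟩
  have hk' := abs_le.1 hk
  have hD2 : D ^ 2 ≤ (12 * C) ^ 2 := pow_le_pow_left₀ hD0 hv 2
  have hD1 : 12 * C * (1 + D) ≤ 12 * C * (1 + 12 * C) :=
    mul_le_mul_of_nonneg_left (by linarith) (by positivity)
  rw [abs_le]
  constructor <;> nlinarith [hk'.1, hk'.2]

lemma drift_dyadic (hw : Prof C w) {t : ℝ} {y : F} : ∀ (n : ℕ) {r ρ b b' : ℝ} {v v' : F},
    0 < ρ → ρ ≤ r → r ≤ (4 : ℝ) ^ n * ρ → IsWin C w t y r b v → IsWin C w t y ρ b' v' →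
    ‖v' - v‖ ≤ (n + 1) * stepConst C ∧ |b' - b| ≤ (n + 1) * stepConst C := by
  intro n
  induction n with
  | zero =>
    intro r ρ b b' v v' hρ hle hr h h'
    have h1 := two_win h (τ₀ := 0) (ζ₀ := 0) (by simpa using h') hρ (by simpa using hle)
      (by simpa using hle) (by simp at hr; linarith)
    simpa using h1
  | succ n ih =>
    intro r ρ b b' v v' hρ hle hr h h'
    obtain ⟨bm, vm, hm⟩ := hw.window t y (max ρ (r / 4)) (lt_max_of_lt_left hρ)
    have hmr : max ρ (r / 4) ≤ r := max_le hle (by linarith)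
    have h1 := two_win h (τ₀ := 0) (ζ₀ := 0) (by simpa using hm) (lt_max_of_lt_left hρ)
      (by simpa using hmr) (by simpa using hmr) (by linarith [le_max_right ρ (r / 4)])
    have hp : (1 : ℝ) ≤ 4 ^ n := one_le_pow₀ (by norm_num)
    have h2 := ih hρ (le_max_left _ _) (max_le (le_mul_of_one_le_left hρ.le hp)
      (by rw [pow_succ] at hr; linarith)) hm h'
    push_cast
    constructor
    · linarith [norm_sub_le_norm_sub_add_norm_sub v' vm v, h1.1, h2.1]
    · linarith [abs_sub_le b' bm b, h1.2, h2.2]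

/-- Windows of two radii at one point. -/
theorem drift_scale (C : ℝ) : ∃ c : ℝ, 0 < c ∧ ∀ {w : ℝ → F → ℝ}, Prof C w →
    ∀ {t : ℝ} {y : F} {r ρ b b' : ℝ} {v v' : F}, 0 < ρ → ρ ≤ r → IsWin C w t y r b v →
      IsWin C w t y ρ b' v' →
      ‖v' - v‖ ≤ c * (1 + Real.log (r / ρ)) ∧ |b' - b| ≤ c * (1 + Real.log (r / ρ)) := by
  refine ⟨2 * stepConst C + 1, by unfold stepConst; positivity, fun {w} hw => ?_⟩
  intro t y r ρ b b' v v' hρ hle h h'
  have hq : 1 ≤ r / ρ := by rwa [one_le_div hρ]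
  have hlog : 0 ≤ Real.log (r / ρ) := Real.log_nonneg hq
  set n : ℕ := ⌈Real.log (r / ρ)⌉₊
  have hn : r ≤ (4 : ℝ) ^ n * ρ := by
    rw [← div_le_iff₀ hρ]
    calc r / ρ = Real.exp (Real.log (r / ρ)) := (Real.exp_log (by linarith)).symm
      _ ≤ Real.exp n := Real.exp_le_exp.2 (Nat.le_ceil _)
      _ = Real.exp 1 ^ n := by rw [← Real.exp_nat_mul, mul_one]
      _ ≤ 4 ^ n := pow_le_pow_left₀ (Real.exp_pos 1).le
          (by linarith [Real.exp_one_lt_d9]) n
  have hK : 0 ≤ stepConst C := by unfold stepConst; positivity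
  have hn1 : ((n : ℝ) + 1) * stepConst C ≤ (2 * stepConst C + 1) * (1 + Real.log (r / ρ)) := by
    have := Nat.ceil_lt_add_one hlog
    nlinarith
  obtain ⟨h1, h2⟩ := drift_dyadic hw n hρ hle hn h h'
  exact ⟨h1.trans hn1, h2.trans hn1⟩

/-- A window radius containing a given point with every comparable velocity. -/
lemma exists_big_window (C : ℝ) : ∃ K : ℝ, 2 ≤ K ∧ ∀ {w : ℝ → F → ℝ}, Prof C w →
    ∀ {t : ℝ} {y : F} {r b : ℝ} {v : F}, 0 < r → IsWin C w t y r b v → ∀ (τ : ℝ) (z : F) (q : ℝ),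
      q = (|τ| + ‖z‖) / r → ∃ (b₁ : ℝ) (v₁ : F),
        IsWin C w t y (K * ((1 + q) * Real.sqrt (1 + q)) * r) b₁ v₁ ∧
        |τ| ≤ K * ((1 + q) * Real.sqrt (1 + q)) * r / 2 ∧
        ‖τ • v + z - τ • v₁‖ ≤ K * ((1 + q) * Real.sqrt (1 + q)) * r / 2 ∧
        ‖v₁ - v‖ ≤ K * (1 + Real.log (1 + q)) ∧ |b₁ - b| ≤ K * (1 + Real.log (1 + q)) := by
  obtain ⟨c, hc, hd⟩ := drift_scale (F := F) C
  set K : ℝ := (32 * (c + 1)) ^ 2 with hKdef
  have hK : 2 ≤ K := by rw [hKdef]; nlinarith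
  have hlK : Real.log K ≤ 2 * (32 * (c + 1)) := by
    rw [hKdef, Real.log_pow]
    have := Real.log_le_sub_one_of_pos (show (0 : ℝ) < 32 * (c + 1) by positivity)
    push_cast
    linarith
  refine ⟨K, hK, fun {w} hw => ?_⟩
  intro t y r b v hr h τ z q hq
  have hq0 : 0 ≤ q := by rw [hq]; positivity
  set S : ℝ := Real.sqrt (1 + q) with hS
  have hS1 : 1 ≤ S := Real.one_le_sqrt.2 (by linarith)
  have hS2 : S * S = 1 + q := Real.mul_self_sqrt (by linarith)
  set M : ℝ := K * ((1 + q) * S) with hM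
  have hqS : 1 + q ≤ (1 + q) * S := le_mul_of_one_le_right (by linarith) hS1
  have hM2 : 2 ≤ M := by rw [hM]; nlinarith
  obtain ⟨b₁, v₁, h₁⟩ := hw.window t y (M * r) (by positivity)
  obtain ⟨hv, hb⟩ := hd hw hr (le_mul_of_one_le_left hr.le (by linarith)) h₁ h
  have hL0 : 0 ≤ Real.log (1 + q) := Real.log_nonneg (by linarith)
  have hLS : Real.log (1 + q) ≤ 2 * S := by
    rw [← hS2, Real.log_mul (by linarith) (by linarith)]
    linarith [Real.log_le_sub_one_of_pos (show (0 : ℝ) < S by linarith)]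
  have hlog : Real.log (M * r / r) = Real.log K + 3 / 2 * Real.log (1 + q) := by
    rw [mul_div_assoc, div_self hr.ne', mul_one, hM, Real.log_mul (by linarith) (by positivity),
      Real.log_mul (by linarith) (by linarith), hS, Real.log_sqrt (by linarith)]
    ring
  rw [hlog] at hv hb
  rw [norm_sub_rev] at hv
  rw [abs_sub_comm] at hb
  have hA : c * (1 + (Real.log K + 3 / 2 * Real.log (1 + q))) ≤ K * (1 + Real.log (1 + q)) := by
    have : c * (1 + 2 * (32 * (c + 1))) ≤ K := by rw [hKdef]; nlinarith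
    have : c * (3 / 2) ≤ K := by rw [hKdef]; nlinarith
    nlinarith
  have hvS : ‖v₁ - v‖ ≤ c * (69 * (c + 1)) * S := by
    refine hv.trans ?_
    have h3 : 1 + (Real.log K + 3 / 2 * Real.log (1 + q)) ≤ 69 * (c + 1) * S := by nlinarith
    calc c * (1 + (Real.log K + 3 / 2 * Real.log (1 + q))) ≤ c * (69 * (c + 1) * S) :=
          mul_le_mul_of_nonneg_left h3 hc.le
      _ = _ := by ring
  have hτ : |τ| ≤ q * r := by
    rw [hq, div_mul_cancel₀ _ hr.ne']
    linarith [norm_nonneg z]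
  refine ⟨b₁, v₁, h₁, ?_, ?_, hv.trans hA, hb.trans hA⟩
  · calc |τ| ≤ q * r := hτ
      _ ≤ M * r / 2 := by
        have : 2 * q ≤ M := by rw [hM]; nlinarith
        nlinarith
  · have hz : ‖z‖ ≤ q * r := by
      rw [hq, div_mul_cancel₀ _ hr.ne']
      linarith [abs_nonneg τ]
    rw [show τ • v + z - τ • v₁ = z - τ • (v₁ - v) by module]
    refine (norm_sub_le _ _).trans ?_
    rw [norm_smul, Real.norm_eq_abs]
    have h4 : |τ| * ‖v₁ - v‖ ≤ q * r * (c * (69 * (c + 1)) * S) :=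
      mul_le_mul hτ hvS (norm_nonneg _) (by positivity)
    have h5 : q + q * (c * (69 * (c + 1)) * S) ≤ M / 2 := by
      rw [hM, hKdef]
      nlinarith [mul_nonneg hq0 (sub_nonneg.2 hS1), mul_pos hc (show (0 : ℝ) < S by linarith)]
    nlinarith

/-- Growth from any window. -/
theorem growth (C : ℝ) : ∃ c : ℝ, 0 < c ∧ ∀ {w : ℝ → F → ℝ}, Prof C w →
    ∀ {t : ℝ} {y : F} {r b : ℝ} {v : F}, 0 < r → IsWin C w t y r b v → ∀ (τ : ℝ) (z : F),
      |w (t + τ) (y + τ • v + z) - w t y - (b + ‖v‖ ^ 2 / 2) * τ - ⟪v, z⟫|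
        ≤ c * r * ((1 + (|τ| + ‖z‖) / r) * Real.sqrt (1 + (|τ| + ‖z‖) / r)) := by
  obtain ⟨K, hK, hb⟩ := exists_big_window (F := F) C
  refine ⟨|C| * K + 25 * K ^ 2, by positivity, fun {w} hw => ?_⟩
  intro t y r b v hr h τ z
  set q : ℝ := (|τ| + ‖z‖) / r with hq
  have hq0 : 0 ≤ q := by rw [hq]; positivity
  obtain ⟨b₁, v₁, h₁, hτ, hz, hv, hbb⟩ := hb hw hr h τ z q hq
  have hC := h.const_nonneg hr
  set S : ℝ := Real.sqrt (1 + q) with hS
  have hS1 : 1 ≤ S := Real.one_le_sqrt.2 (by linarith)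
  have hS2 : S * S = 1 + q := Real.mul_self_sqrt (by linarith)
  have e1 := h₁.bound (τ := τ) (ζ := τ • v + z) (by linarith [abs_nonneg τ])
    (by linarith [norm_nonneg (τ • v + z - τ • v₁)])
  rw [← add_assoc y] at e1
  have e2 : winAff b₁ v₁ τ (τ • v + z) - ((b + ‖v‖ ^ 2 / 2) * τ + ⟪v, z⟫)
      = τ * (b₁ - b - ‖v₁ - v‖ ^ 2 / 2) + ⟪v₁ - v, z⟫ := by
    rw [winAff, norm_sub_sq_real, inner_add_right, inner_smul_right, inner_sub_left]
    ring
  set L : ℝ := 1 + Real.log (1 + q) with hLdef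
  have hL0 : 1 ≤ L := by linarith [Real.log_nonneg (show (1 : ℝ) ≤ 1 + q by linarith)]
  have hL : L ^ 2 ≤ 25 * S := by
    set U : ℝ := Real.sqrt S
    have hU : 1 ≤ U := Real.one_le_sqrt.2 hS1
    have hU2 : U * U = S := Real.mul_self_sqrt (by linarith)
    have : L ≤ 5 * U := by
      rw [hLdef, ← hS2, Real.log_mul (by linarith) (by linarith), ← hU2,
        Real.log_mul (by linarith) (by linarith)]
      linarith [Real.log_le_sub_one_of_pos (show (0 : ℝ) < U by linarith)]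
    nlinarith
  have hτq : |τ| + ‖z‖ = q * r := by rw [hq, div_mul_cancel₀ _ hr.ne']
  have hd : |τ * (b₁ - b - ‖v₁ - v‖ ^ 2 / 2) + ⟪v₁ - v, z⟫| ≤ q * r * (K * L) ^ 2 := by
    have h2 : 2 ≤ K * L := by nlinarith
    have hv2 : ‖v₁ - v‖ ^ 2 ≤ (K * L) ^ 2 := pow_le_pow_left₀ (norm_nonneg _) hv 2
    have h3 : |b₁ - b - ‖v₁ - v‖ ^ 2 / 2| ≤ (K * L) ^ 2 := by
      have := abs_le.1 hbb
      rw [abs_le]; constructor <;> nlinarith [sq_nonneg ‖v₁ - v‖]
    refine (abs_add_le _ _).trans ?_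
    rw [abs_mul, ← hτq, add_mul]
    exact add_le_add (mul_le_mul_of_nonneg_left h3 (abs_nonneg _))
      ((abs_real_inner_le_norm _ _).trans (by
        rw [mul_comm ‖v₁ - v‖]
        exact mul_le_mul_of_nonneg_left (by nlinarith) (norm_nonneg _)))
  calc |w (t + τ) (y + τ • v + z) - w t y - (b + ‖v‖ ^ 2 / 2) * τ - ⟪v, z⟫|
      = |(w (t + τ) (y + τ • v + z) - w t y - winAff b₁ v₁ τ (τ • v + z))
          + (τ * (b₁ - b - ‖v₁ - v‖ ^ 2 / 2) + ⟪v₁ - v, z⟫)| := by
        rw [← e2]; congr 1; ring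
    _ ≤ C * (K * ((1 + q) * S) * r) + q * r * (K * L) ^ 2 :=
        (abs_add_le _ _).trans (add_le_add e1 hd)
    _ ≤ (|C| * K + 25 * K ^ 2) * r * ((1 + q) * S) := by
        rw [abs_of_nonneg hC]
        have : q * (K * L) ^ 2 ≤ 25 * K ^ 2 * ((1 + q) * S) := by
          calc q * (K * L) ^ 2 ≤ (1 + q) * (K ^ 2 * (25 * S)) := by
                rw [mul_pow]; gcongr; linarith
            _ = _ := by ring
        nlinarith

/-- Windows of one radius at two points. -/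
theorem drift_space (C : ℝ) : ∃ c : ℝ, 0 < c ∧ ∀ {w : ℝ → F → ℝ}, Prof C w →
    ∀ {t : ℝ} {y : F} {r b : ℝ} {v : F}, 0 < r → IsWin C w t y r b v →
    ∀ (τ : ℝ) (z : F) {b' : ℝ} {v' : F}, IsWin C w (t + τ) (y + τ • v + z) r b' v' →
    ∀ q : ℝ, q = (|τ| + ‖z‖) / r → ‖v' - v‖ ≤ c * (1 + Real.log (1 + q)) ∧ |b' - b| ≤ c * (1 + Real.log (1 + q)) ^ 2 := by
  obtain ⟨K, hK, hb⟩ := exists_big_window (F := F) C
  obtain ⟨c, hc, hd⟩ := drift_scale (F := F) C
  refine ⟨K + |stepConst C| + c * (2 + |Real.log (K / 2)|), by positivity, fun {w} hw => ?_⟩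
  intro t y r b v hr h τ z b' v' h' q hq
  have hq0 : 0 ≤ q := by rw [hq]; positivity
  obtain ⟨b₁, v₁, h₁, hτ, hz, hv, hbb⟩ := hb hw hr h τ z q hq
  set S : ℝ := Real.sqrt (1 + q) with hS
  have hS1 : 1 ≤ S := Real.one_le_sqrt.2 (by linarith)
  set R : ℝ := K * ((1 + q) * S) * r with hR
  have hR2 : 2 * r ≤ R := by
    rw [hR]
    have : 1 ≤ (1 + q) * S := by nlinarith
    have : 2 ≤ K * ((1 + q) * S) := by nlinarith
    nlinarith
  obtain ⟨b₂, v₂, h₂⟩ := hw.window (t + τ) (y + τ • v + z) (R / 2) (by linarith)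
  have h₂' : IsWin C w (t + τ) (y + (τ • v + z)) (R / 2) b₂ v₂ := by rwa [← add_assoc y]
  obtain ⟨s1, s2⟩ := two_win h₁ h₂' (by linarith) (by linarith) (by linarith) (by linarith)
  obtain ⟨d1, d2⟩ := hd hw hr (by linarith : r ≤ R / 2) h₂ h'
  have hlog : Real.log (R / 2 / r) = Real.log (K / 2) + 3 / 2 * Real.log (1 + q) := by
    rw [show R / 2 / r = K / 2 * ((1 + q) * S) by rw [hR]; field_simp,
      Real.log_mul (by positivity) (by positivity),
      Real.log_mul (by linarith) (by linarith), hS, Real.log_sqrt (by linarith)]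
    ring
  rw [hlog] at d1 d2
  set L : ℝ := 1 + Real.log (1 + q) with hLdef
  have hL0 : 1 ≤ L := by linarith [Real.log_nonneg (show (1 : ℝ) ≤ 1 + q by linarith)]
  have hA : K * L + |stepConst C| + c * (1 + (Real.log (K / 2) + 3 / 2 * Real.log (1 + q)))
      ≤ (K + |stepConst C| + c * (2 + |Real.log (K / 2)|)) * L := by
    have : 1 + (Real.log (K / 2) + 3 / 2 * Real.log (1 + q)) ≤ (2 + |Real.log (K / 2)|) * L := by
      nlinarith [le_abs_self (Real.log (K / 2)), abs_nonneg (Real.log (K / 2))]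
    nlinarith [mul_le_mul_of_nonneg_left this hc.le, abs_nonneg (stepConst C)]
  have hA0 : 0 ≤ K + |stepConst C| + c * (2 + |Real.log (K / 2)|) := by positivity
  constructor
  · linarith [norm_sub_le_norm_sub_add_norm_sub v' v₂ v, norm_sub_le_norm_sub_add_norm_sub v₂ v₁ v,
      le_abs_self (stepConst C)]
  · calc |b' - b| ≤ (K + |stepConst C| + c * (2 + |Real.log (K / 2)|)) * L := by
          linarith [abs_sub_le b' b₂ b, abs_sub_le b₂ b₁ b, le_abs_self (stepConst C)]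
      _ ≤ _ := mul_le_mul_of_nonneg_left (by nlinarith) hA0

theorem Prof.continuous (hw : Prof C w) : Continuous (fun X : ℝ × F => w X.1 X.2) := by
  rw [continuous_iff_continuousAt]
  rintro ⟨t, y⟩
  rw [Metric.continuousAt_iff']
  intro ε hε
  obtain ⟨b₀, v₀, h₀⟩ := hw.window t y 1 one_pos
  have hC := h₀.const_nonneg one_pos
  set r : ℝ := ε / 2 / (C + 1) with hr
  have hr0 : 0 < r := by positivity
  obtain ⟨b, v, h⟩ := hw.window t y r hr0
  have hτ : ∀ᶠ X in 𝓝 (t, y), |X.1 - t| < r := by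
    have : ContinuousAt (fun X : ℝ × F => |X.1 - t|) (t, y) := by fun_prop
    exact this.eventually_lt continuousAt_const (by simp [hr0])
  have hζ : ∀ᶠ X in 𝓝 (t, y), ‖X.2 - y - (X.1 - t) • v‖ < r := by
    have : ContinuousAt (fun X : ℝ × F => ‖X.2 - y - (X.1 - t) • v‖) (t, y) := by fun_prop
    exact this.eventually_lt continuousAt_const (by simp [hr0])
  have hl : ∀ᶠ X in 𝓝 (t, y), |winAff b v (X.1 - t) (X.2 - y)| < ε / 2 := by
    have : ContinuousAt (fun X : ℝ × F => |winAff b v (X.1 - t) (X.2 - y)|) (t, y) := by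
      unfold winAff; fun_prop
    exact this.eventually_lt continuousAt_const (by simp [winAff, half_pos hε])
  filter_upwards [hτ, hζ, hl] with X h1 h2 h3
  have e := h.bound h1.le h2.le
  rw [add_sub_cancel, add_sub_cancel] at e
  have hCr : C * r ≤ ε / 2 := by
    rw [hr, mul_div_assoc', div_le_iff₀ (by linarith)]
    nlinarith
  rw [Real.dist_eq]
  calc |w X.1 X.2 - w t y| = |(w X.1 X.2 - w t y - winAff b v (X.1 - t) (X.2 - y))
        + winAff b v (X.1 - t) (X.2 - y)| := by congr 1; ring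
    _ ≤ _ := abs_add_le _ _
    _ < ε := by linarith

end Vale.Agent.P080.C1
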