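import Vale.Agent.P080.C1.Liouville.Core
import Vale.Agent.P080.C1.Liouville.Slices

/-!
A8, A10: every profile is affine.
-/

namespace Vale.Agent.P080.C1

open Set Filter Topology
open scoped RealInnerProductSpace

set_option linter.unusedSectionVars false

variable {F : Type*} [NormedAddCommGroup F] [InnerProductSpace ℝ F] [FiniteDimensional ℝ F]
variable {C : ℝ} {w : ℝ → F → ℝ}

/-- The Liouville theorem for profiles. -/
theorem Prof.affine (hw : Prof C w) :
    ∃ (a b : ℝ) (v : F), ∀ t y, w t y = a + b * t + ⟪v, y⟫ :=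
  affine_of_gap_zero hw (gap_nonpos hw) (gap_nonpos hw.mirror)

end Vale.Agent.P080.C1
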