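import Vale.Agent.P080.C1.Defs
import Vale.Agent.P080.C1.Stencil.Cara
import Vale.Agent.P080.C1.Stencil.Touch

/-!
A3: finite stencils (no property of the class is used).
-/

namespace Vale.Agent.P080.C1

open Set Filter Topology Metric
open scoped RealInnerProductSpace

set_option linter.unusedSectionVars false

variable {F : Type*} [NormedAddCommGroup F] [InnerProductSpace ℝ F] [FiniteDimensional ℝ F]
variable {C : ℝ} {w : ℝ → F → ℝ}

theorem spread_nonneg {ι : Type*} [Fintype ι] (l : ι → ℝ) (η : ι → F) : 0 ≤ spread l η :=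
  Real.sqrt_nonneg _

/-- Carathéodory: `dim F + 2` atoms suffice. -/
theorem caratheodory {m : ℕ} {l : Fin m → ℝ} {η : Fin m → F} (h : IsStencil l η) (f : F → ℝ) :
    ∃ (l' : Fin (Module.finrank ℝ F + 2) → ℝ) (η' : Fin (Module.finrank ℝ F + 2) → F),
      IsStencil l' η' ∧ spread l' η' = spread l η ∧
        ∑ i, l i * f (η i) ≤ ∑ i, l' i * f (η' i) := by
  obtain ⟨l', η', h0, h1, h2, h3, h4⟩ := Stencil.exists_fin l η f h.1
  exact ⟨l', η', ⟨h0, h1.trans h.2.1, h2.trans h.2.2⟩, by unfold spread; rw [h3], h4⟩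

/-- Growth of order three halves is absorbed by a small multiple of a square. -/
private theorem mul_sqrt_le {ε a : ℝ} (hε : 0 < ε) (ha : 0 ≤ a) :
    a * Real.sqrt a ≤ ε * a ^ 2 + 1 / ε ^ 3 := by
  rcases le_total a (1 / ε ^ 2) with h | h
  · have h1 : Real.sqrt a ≤ 1 / ε :=
      (Real.sqrt_le_left (by positivity)).2 (h.trans_eq (by rw [div_pow, one_pow]))
    refine le_trans (mul_le_mul h h1 (Real.sqrt_nonneg _) (by positivity)) ?_
    rw [div_mul_div_comm, one_mul, ← pow_succ]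
    linarith [mul_nonneg hε.le (sq_nonneg a)]
  · have h1 : 1 / ε ≤ Real.sqrt a :=
      Real.le_sqrt_of_sq_le (le_of_eq_of_le (by rw [div_pow, one_pow]) h)
    have h2 : 1 ≤ ε * Real.sqrt a := by
      rw [div_le_iff₀ hε] at h1
      linarith
    have h3 : a * Real.sqrt a ≤ ε * a ^ 2 := by
      calc a * Real.sqrt a ≤ a * Real.sqrt a * (ε * Real.sqrt a) :=
            le_mul_of_one_le_right (by positivity) h2
        _ = ε * a * (Real.sqrt a * Real.sqrt a) := by ring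
        _ = ε * a ^ 2 := by rw [Real.mul_self_sqrt ha]; ring
    linarith [show 0 ≤ 1 / ε ^ 3 by positivity]

/-- An atom whose weight tends to zero does not count against growth below two. -/
private theorem tendsto_atom_zero {ρ K : ℝ} {L : ℕ → ℝ} {η : ℕ → F} {g : ℕ → F → ℝ}
    (h0 : ∀ n, 0 ≤ L n) (h1 : ∀ n, L n ≤ 1) (h2 : ∀ n, L n * ‖η n‖ ^ 2 ≤ ρ ^ 2)
    (hL : Tendsto L atTop (𝓝 0))
    (hg : ∀ n z, |g n z| ≤ K * ((1 + ‖z‖) * Real.sqrt (1 + ‖z‖))) :
    Tendsto (fun n => L n * g n (η n)) atTop (𝓝 0) := by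
  have hK : 0 ≤ K := by
    simpa using (abs_nonneg _).trans (hg 0 (0 : F))
  rw [Metric.tendsto_atTop]
  intro δ hδ
  set ε := δ / (2 * (2 * (1 + ρ ^ 2) * (K + 1))) with hε_def
  have hε : 0 < ε := by positivity
  obtain ⟨N, hN⟩ := Metric.tendsto_atTop.1 hL (δ * ε ^ 3 / (2 * (K + 1))) (by positivity)
  refine ⟨N, fun n hn => ?_⟩
  have hNn := hN n hn
  rw [Real.dist_eq, sub_zero, abs_of_nonneg (h0 n), lt_div_iff₀ (by positivity)] at hNn
  have hsq : L n * (1 + ‖η n‖) ^ 2 ≤ 2 * (1 + ρ ^ 2) := by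
    refine le_trans (mul_le_mul_of_nonneg_left
      (show (1 + ‖η n‖) ^ 2 ≤ 2 * (1 + ‖η n‖ ^ 2) by linarith [two_mul_le_add_sq 1 ‖η n‖]) (h0 n)) ?_
    linarith [h1 n, h2 n]
  rw [Real.dist_eq, sub_zero, abs_mul, abs_of_nonneg (h0 n)]
  have hb : L n * |g n (η n)| ≤
      (K + 1) * (ε * (2 * (1 + ρ ^ 2))) + (K + 1) * (L n / ε ^ 3) := by
    refine le_trans (mul_le_mul_of_nonneg_left ((hg n (η n)).trans (mul_le_mul (le_add_of_nonneg_right
      zero_le_one : K ≤ K + 1) (mul_sqrt_le hε (by positivity : (0 : ℝ) ≤ 1 + ‖η n‖))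
      (by positivity) (by linarith))) (h0 n)) ?_
    refine le_trans (le_of_eq ?_) (add_le_add (mul_le_mul_of_nonneg_left
      (mul_le_mul_of_nonneg_left hsq hε.le) (by linarith)) le_rfl)
    ring
  refine lt_of_le_of_lt hb ?_
  have e1 : (K + 1) * (ε * (2 * (1 + ρ ^ 2))) = δ / 2 := by
    rw [hε_def]; field_simp
  have e2 : (K + 1) * (L n / ε ^ 3) < δ / 2 := by
    rw [mul_div_assoc', div_lt_iff₀ (by positivity)]
    linarith
  linarith

/-- Stencils of bounded spread are compact against functions of growth below two. -/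
theorem stencil_compact {m : ℕ} {ρ K : ℝ} {L : ℕ → Fin m → ℝ} {η : ℕ → Fin m → F}
    (h : ∀ n, IsStencil (L n) (η n)) (hρ : ∀ n, spread (L n) (η n) ≤ ρ) :
    ∃ (φ : ℕ → ℕ) (l : Fin m → ℝ) (e : Fin m → F), StrictMono φ ∧ IsStencil l e ∧
      (∀ δ : ℝ, 0 < δ → ∀ᶠ n in atTop, spread l e ≤ spread (L (φ n)) (η (φ n)) + δ) ∧
      ∀ (g : ℕ → F → ℝ) (f : F → ℝ), TendstoLocallyUniformly g f atTop → Continuous f →
        (∀ n z, |g n z| ≤ K * ((1 + ‖z‖) * Real.sqrt (1 + ‖z‖))) →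
        Tendsto (fun n => ∑ i, L (φ n) i * g n (η (φ n) i)) atTop (𝓝 (∑ i, l i * f (e i))) := by
  have hρ0 : 0 ≤ ρ := (spread_nonneg _ _).trans (hρ 0)
  have hle1 : ∀ n i, L n i ≤ 1 := fun n i => (h n).2.1 ▸
    Finset.single_le_sum (f := L n) (fun j _ => (h n).1 j) (Finset.mem_univ i)
  have hatom : ∀ n i, L n i * ‖η n i‖ ^ 2 ≤ ρ ^ 2 := fun n i =>
    (Finset.single_le_sum (f := fun j => L n j * ‖η n j‖ ^ 2)
      (fun j _ => mul_nonneg ((h n).1 j) (sq_nonneg _)) (Finset.mem_univ i)).trans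
      (((Real.sqrt_le_left hρ0).1 (hρ n)))
  have hnorm : ∀ n i, ‖Real.sqrt (L n i) • η n i‖ ^ 2 = L n i * ‖η n i‖ ^ 2 := fun n i => by
    rw [norm_smul, mul_pow, Real.norm_of_nonneg (Real.sqrt_nonneg _), Real.sq_sqrt ((h n).1 i)]
  have hmem : ∀ n, (fun i => (L n i, Real.sqrt (L n i) • η n i)) ∈
      Set.pi univ fun _ : Fin m => Icc (0 : ℝ) 1 ×ˢ closedBall (0 : F) ρ := fun n i _ => by
    refine ⟨⟨(h n).1 i, hle1 n i⟩, mem_closedBall_zero_iff.2 (le_of_sq_le_sq ?_ hρ0)⟩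
    exact (hnorm n i).trans_le (hatom n i)
  obtain ⟨a, ha, φ, hφ, hlim⟩ := (isCompact_univ_pi fun _ : Fin m =>
    isCompact_Icc.prod (isCompact_closedBall (0 : F) ρ)).tendsto_subseq hmem
  have hl : ∀ i, Tendsto (fun n => L (φ n) i) atTop (𝓝 (a i).1) := fun i =>
    (continuous_fst.tendsto _).comp (tendsto_pi_nhds.1 hlim i)
  have hq : ∀ i, Tendsto (fun n => Real.sqrt (L (φ n) i) • η (φ n) i) atTop (𝓝 (a i).2) := fun i =>
    (continuous_snd.tendsto _).comp (tendsto_pi_nhds.1 hlim i)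
  have ha0 : ∀ i, 0 ≤ (a i).1 := fun i => (ha i (mem_univ i)).1.1
  set l : Fin m → ℝ := fun i => (a i).1 with hl_def
  set e : Fin m → F := fun i => (Real.sqrt (l i))⁻¹ • (a i).2 with he_def
  have hmean : ∀ i, l i • e i = Real.sqrt (l i) • (a i).2 := fun i => by
    rcases eq_or_lt_of_le (ha0 i) with h0 | h0
    · simp [hl_def, ← h0]
    · rw [he_def, smul_smul]
      congr 1
      rw [← div_eq_mul_inv, Real.div_sqrt]
  have hsum1 : ∑ i, l i = 1 := tendsto_nhds_unique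
    (tendsto_finsetSum Finset.univ fun i _ => hl i)
    (tendsto_const_nhds.congr fun n => ((h (φ n)).2.1).symm)
  have hsum0 : ∑ i, l i • e i = 0 := by
    simp only [hmean]
    refine tendsto_nhds_unique
      (tendsto_finsetSum Finset.univ fun i _ => ((hl i).sqrt).smul (hq i))
      (tendsto_const_nhds.congr fun n => ?_)
    simp only [smul_smul, Real.mul_self_sqrt ((h (φ n)).1 _)]
    exact ((h (φ n)).2.2).symm
  have hspread : spread l e ≤ Real.sqrt (∑ i, ‖(a i).2‖ ^ 2) := by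
    refine Real.sqrt_le_sqrt (Finset.sum_le_sum fun i _ => ?_)
    rcases eq_or_lt_of_le (ha0 i) with h0 | h0
    · simp [hl_def, ← h0]
    · rw [he_def, norm_smul, mul_pow, norm_inv, Real.norm_of_nonneg (Real.sqrt_nonneg _), inv_pow,
        Real.sq_sqrt (ha0 i), ← mul_assoc, mul_inv_cancel₀ h0.ne', one_mul]
  refine ⟨φ, l, e, hφ, ⟨ha0, hsum1, hsum0⟩, fun δ hδ => ?_, fun g f hg hf hgK => ?_⟩
  · have ht : Tendsto (fun n => spread (L (φ n)) (η (φ n))) atTop
        (𝓝 (Real.sqrt (∑ i, ‖(a i).2‖ ^ 2))) := by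
      refine ((tendsto_finsetSum Finset.univ fun i _ => ((hq i).norm.pow 2)).sqrt).congr fun n => ?_
      simp only [spread, hnorm]
    filter_upwards [ht.eventually (eventually_gt_nhds
      (show Real.sqrt (∑ i, ‖(a i).2‖ ^ 2) - δ < Real.sqrt (∑ i, ‖(a i).2‖ ^ 2) by linarith))]
      with n hn
    linarith
  · refine tendsto_finsetSum Finset.univ fun i _ => ?_
    rcases eq_or_lt_of_le (ha0 i) with h0 | h0
    · have hli : l i = 0 := h0.symm
      rw [hli, zero_mul]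
      exact tendsto_atom_zero (fun n => (h _).1 i) (fun n => hle1 _ i) (fun n => hatom _ i)
        (h0 ▸ hl i) hgK
    · refine (hl i).mul (hg.tendsto_comp hf.continuousAt ?_)
      refine ((((hl i).sqrt).inv₀ (Real.sqrt_pos.2 h0).ne').smul (hq i)).congr' ?_
      filter_upwards [(hl i).eventually (eventually_gt_nhds h0)] with n hn
      rw [inv_smul_smul₀ (Real.sqrt_pos.2 hn).ne']

/-- A function with no positive Jensen gap at the origin lies below a linear one. -/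
theorem touching {f : F → ℝ} (h0 : f 0 = 0)
    (h : ∀ (m : ℕ) (l : Fin m → ℝ) (η : Fin m → F), IsStencil l η → ∑ i, l i * f (η i) ≤ 0) :
    ∃ p : F, ∀ z, f z ≤ ⟪p, z⟫ := by
  refine Stencil.exists_linear_ge h0 fun ι _ w z hw hw1 hmean => ?_
  let e := (Fintype.equivFin ι).symm
  rw [← e.sum_comp fun i => w i * f (z i)]
  refine h _ (fun k => w (e k)) (fun k => z (e k)) ⟨fun k => hw _, ?_, ?_⟩
  · rw [e.sum_comp w, hw1]
  · rw [e.sum_comp fun i => w i • z i, hmean]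

end Vale.Agent.P080.C1
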