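import Vale.Agent.P080.Flat.Prox

/-!
One dyadic level of the Zygmund bound for functions with comparison with cones: second
differences at a scale control those at half the scale, with a gain that is summable over the
scales (P080).
-/

namespace Vale.Agent.P080.C1

open Metric Set Flat
open scoped RealInnerProductSpace

set_option linter.unusedSectionVars false

/-- The radial profile. -/
noncomputable def prof (κ R t : ℝ) : ℝ := (1 + κ) * t - κ * t ^ 2 / R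

theorem prof_le {κ R t : ℝ} (hκ : 0 ≤ κ) (hR : 0 < R) : prof κ R t ≤ (1 + κ) * t := by
  unfold prof
  have : 0 ≤ κ * t ^ 2 / R := by positivity
  linarith

theorem le_prof {κ R t : ℝ} (hκ : 0 ≤ κ) (hR : 0 < R) (ht : 0 ≤ t) (htR : t ≤ R) :
    t ≤ prof κ R t := by
  unfold prof
  have : κ * t ^ 2 / R ≤ κ * t := by
    rw [div_le_iff₀ hR]
    nlinarith [mul_nonneg hκ ht]
  linarith

theorem le_prof_top {κ R t : ℝ} (hκ : 0 ≤ κ) (hκ4 : κ ≤ 1 / 4) (hR : 0 < R) (htR : R ≤ t)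
    (ht2 : t ≤ 2 * R) : R ≤ prof κ R t := by
  have h : prof κ R t - R = (t - R) * (1 + κ - κ * (t + R) / R) := by
    unfold prof
    field_simp
    ring
  have h2 : κ * (t + R) / R ≤ 3 * κ := by
    rw [div_le_iff₀ hR]
    nlinarith
  have h3 : 0 ≤ (t - R) * (1 + κ - κ * (t + R) / R) := mul_nonneg (by linarith) (by linarith)
  linarith

/-- Expansion of the inverse square of a positive number. -/
theorem inv_sq_expand {h t : ℝ} (hh : 0 < h) (ht : |t| ≤ h / 2) :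
    1 / h ^ 2 + 2 * t / h ^ 3 ≤ 1 / (h - t) ^ 2 ∧
      1 / (h - t) ^ 2 ≤ 1 / h ^ 2 + 2 * t / h ^ 3 + 16 * t ^ 2 / h ^ 4 := by
  obtain ⟨h1, h2⟩ := abs_le.1 ht
  have hht : 0 < h - t := by linarith
  have key : 1 / (h - t) ^ 2 - (1 / h ^ 2 + 2 * t / h ^ 3) =
      t ^ 2 * (3 * h - 2 * t) / (h ^ 3 * (h - t) ^ 2) := by
    field_simp
    ring
  constructor
  · have : 0 ≤ t ^ 2 * (3 * h - 2 * t) / (h ^ 3 * (h - t) ^ 2) :=
      div_nonneg (mul_nonneg (sq_nonneg t) (by linarith)) (by positivity)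
    linarith
  · have hb : t ^ 2 * (3 * h - 2 * t) / (h ^ 3 * (h - t) ^ 2) ≤
        t ^ 2 * (4 * h) / (h ^ 3 * (h / 2) ^ 2) := by
      apply div_le_div₀ (by positivity) (mul_le_mul_of_nonneg_left (by linarith) (sq_nonneg t))
        (by positivity)
      exact mul_le_mul_of_nonneg_left (pow_le_pow_left₀ (by linarith) (by linarith) 2)
        (by positivity)
    have he : t ^ 2 * (4 * h) / (h ^ 3 * (h / 2) ^ 2) = 16 * t ^ 2 / h ^ 4 := by
      field_simp
      ring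
    linarith

variable {E : Type*} [NormedAddCommGroup E] [InnerProductSpace ℝ E]

/-- The height above the sphere. -/
def height (x : E) : ℝ := 1 - ‖x‖ ^ 2

/-- The weight of the barrier. -/
noncomputable def weight (A κ : ℝ) (x : E) : ℝ := A + A * κ / height x ^ 2

/-- Expansion of the weight. -/
theorem weight_expand {A κ : ℝ} (hA : 0 ≤ A) (hκ : 0 ≤ κ) {x v : E} (hx : ‖x‖ ≤ 1)
    (hh : 0 < height x) (hv : 6 * ‖v‖ ≤ height x) (hv1 : ‖v‖ ≤ 1) :
    0 < height (x + v) ∧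
      weight A κ x + 4 * (A * κ) * ⟪x, v⟫ / height x ^ 3 ≤ weight A κ (x + v) ∧
      weight A κ (x + v) ≤ weight A κ x + 4 * (A * κ) * ⟪x, v⟫ / height x ^ 3
        + 146 * (A * κ) * ‖v‖ ^ 2 / height x ^ 4 := by
  set h := height x with hdef
  have hh1 : h ≤ 1 := by rw [hdef, height]; linarith [sq_nonneg ‖x‖]
  set t := 2 * ⟪x, v⟫ + ‖v‖ ^ 2 with htdef
  have hnew : height (x + v) = h - t := by
    rw [height, norm_add_sq_real, hdef, height, htdef]
    ring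
  have hi : |⟪x, v⟫| ≤ ‖v‖ :=
    (abs_real_inner_le_norm x v).trans (mul_le_of_le_one_left (norm_nonneg v) hx)
  obtain ⟨hi1, hi2⟩ := abs_le.1 hi
  have hvv : ‖v‖ ^ 2 ≤ ‖v‖ := by nlinarith [norm_nonneg v]
  have ht3 : |t| ≤ 3 * ‖v‖ := abs_le.2 ⟨by linarith [sq_nonneg ‖v‖], by linarith⟩
  have ht2 : t ^ 2 ≤ 9 * ‖v‖ ^ 2 := by
    rw [← sq_abs t]
    linarith [pow_le_pow_left₀ (abs_nonneg t) ht3 2]
  obtain ⟨e1, e2⟩ := inv_sq_expand (t := t) hh (by linarith)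
  refine ⟨by rw [hnew]; linarith [abs_le.1 ht3 |>.2], ?_, ?_⟩
  all_goals
    have hc : 0 ≤ A * κ := mul_nonneg hA hκ
    have s1 : 2 * t / h ^ 3 = 4 * ⟪x, v⟫ / h ^ 3 + 2 * ‖v‖ ^ 2 / h ^ 3 := by
      rw [htdef]; ring
    have s2 : 2 * ‖v‖ ^ 2 / h ^ 3 ≤ 2 * ‖v‖ ^ 2 / h ^ 4 :=
      div_le_div_of_nonneg_left (by positivity) (by positivity)
        (pow_le_pow_of_le_one hh.le hh1 (by norm_num))
    have s3 : 0 ≤ 2 * ‖v‖ ^ 2 / h ^ 3 := by positivity
    have s4 : 16 * t ^ 2 / h ^ 4 ≤ 144 * ‖v‖ ^ 2 / h ^ 4 :=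
      div_le_div_of_nonneg_right (by linarith) (by positivity)
  · have h5 : 1 / h ^ 2 + 4 * ⟪x, v⟫ / h ^ 3 ≤ 1 / (h - t) ^ 2 := by linarith
    have h6 := mul_le_mul_of_nonneg_left h5 hc
    simp only [weight, hnew, ← hdef]
    linear_combination h6
  · have h5 : 1 / (h - t) ^ 2 ≤
        1 / h ^ 2 + 4 * ⟪x, v⟫ / h ^ 3 + 146 * ‖v‖ ^ 2 / h ^ 4 := by
      have : 2 * ‖v‖ ^ 2 / h ^ 4 + 144 * ‖v‖ ^ 2 / h ^ 4 = 146 * ‖v‖ ^ 2 / h ^ 4 := by ring
      linarith
    have h6 := mul_le_mul_of_nonneg_left h5 hc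
    simp only [weight, hnew, ← hdef]
    linear_combination h6

/-- The barrier. -/
noncomputable def zbar (A κ R : ℝ) (x d : E) : ℝ :=
  weight A κ x * prof κ R ‖d‖ + A * κ * R

/-- The arithmetic at an interior maximum. -/
theorem interior_arith {A κ R h P s w : ℝ} (hA : 0 < A) (hκ : 0 < κ) (hR : 0 < R)
    (hh : 0 < h) (hh1 : h ≤ 1) (hP : P = A + A * κ / h ^ 2) (hc : A * κ ≤ 1)
    (hs : s = A * κ * R / 48) (hcond : 100000000 * R ^ 2 ≤ κ ^ 3 * A ^ 2)
    (hineq : w ^ 2 / (4 * s) ≤ 8 * (A * κ) * R * w / h ^ 3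
      + 9344 * (A * κ) * R * s ^ 2 / h ^ 4
      + 25 / 16 * s * (40 * P * (A * κ) * s / h ^ 3 + 200 * (A * κ) ^ 2 * s ^ 2 / h ^ 6)
      - 9 / 32 * κ * P ^ 3 * s ^ 2 / R) : False := by
  have hs0 : 0 < s := by rw [hs]; positivity
  set c := A * κ with hcdef
  have hc0 : 0 < c := by positivity
  set z := 1 / h with hz
  have hz1 : 1 ≤ z := by rw [hz, le_div_iff₀ hh]; linarith
  set χ := 1 + κ * z ^ 2 with hχ
  have hχ1 : 1 ≤ χ := by rw [hχ]; nlinarith [sq_nonneg z]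
  have hPχ : P = A * χ := by rw [hP, hχ, hz, hcdef]; ring
  have hsq : 8 * c * R * w / h ^ 3 ≤ w ^ 2 / (4 * s) + 64 * c ^ 2 * R ^ 2 * z ^ 6 * s := by
    rw [← sub_nonneg]
    have h0 : 0 ≤ (w - 16 * s * c * R * z ^ 3) ^ 2 / (4 * s) := by positivity
    refine h0.trans (le_of_eq ?_)
    rw [hz]
    field_simp
    ring
  have hmain : 9 / 32 * κ * P ^ 3 / R ≤ 3072 * c * R * z ^ 6 + 9344 * c * R * z ^ 4
      + 63 * P * c * z ^ 3 + 7 * c ^ 3 * R * z ^ 6 := by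
    have e : 64 * c ^ 2 * R ^ 2 * z ^ 6 * s = 3072 * c * R * z ^ 6 * s ^ 2 := by
      rw [hs]; ring
    have e2 : 9344 * c * R * s ^ 2 / h ^ 4 = 9344 * c * R * z ^ 4 * s ^ 2 := by
      rw [hz]; ring
    have e3 : 25 / 16 * s * (40 * P * c * s / h ^ 3 + 200 * c ^ 2 * s ^ 2 / h ^ 6) =
        (125 / 2 * P * c * z ^ 3 + 625 / 96 * c ^ 3 * R * z ^ 6) * s ^ 2 := by
      rw [hs, hz]; ring
    have h4 : 0 ≤ P * c * z ^ 3 := by rw [hPχ]; positivity
    have h5 : 0 ≤ c ^ 3 * R * z ^ 6 := by positivity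
    have h6 : 9 / 32 * κ * P ^ 3 / R * s ^ 2 ≤ (3072 * c * R * z ^ 6 + 9344 * c * R * z ^ 4
        + 63 * P * c * z ^ 3 + 7 * c ^ 3 * R * z ^ 6) * s ^ 2 := by
      rw [div_mul_eq_mul_div]
      linarith [mul_nonneg h4 (sq_nonneg s), mul_nonneg h5 (sq_nonneg s)]
    exact le_of_mul_le_mul_right h6 (by positivity)
  have hz46 : z ^ 4 ≤ z ^ 6 := pow_le_pow_right₀ hz1 (by norm_num)
  have hc2 : c ^ 2 ≤ 1 := pow_le_one₀ hc0.le hc
  have hbig : 9 / 32 * A ^ 2 * χ ^ 3 ≤ 12423 * R ^ 2 * z ^ 6 + 63 * A * χ * (R * z ^ 3) := by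
    rw [div_le_iff₀ hR] at hmain
    rw [hPχ, hcdef] at hmain
    have h7 : A * κ * (9 / 32 * A ^ 2 * χ ^ 3) ≤
        A * κ * (12423 * R ^ 2 * z ^ 6 + 63 * A * χ * (R * z ^ 3)) := by
      have t1 : 9344 * (A * κ) * R * z ^ 4 * R ≤ 9344 * (A * κ) * R * z ^ 6 * R :=
        mul_le_mul_of_nonneg_right (mul_le_mul_of_nonneg_left hz46 (by positivity)) hR.le
      have t3 : (A * κ) ^ 3 ≤ A * κ := pow_le_of_le_one hc0.le hc (by norm_num)
      have t2 : 7 * (A * κ) ^ 3 * R * z ^ 6 * R ≤ 7 * (A * κ) * R * z ^ 6 * R :=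
        mul_le_mul_of_nonneg_right (mul_le_mul_of_nonneg_right (mul_le_mul_of_nonneg_right
          (mul_le_mul_of_nonneg_left t3 (by norm_num)) hR.le) (by positivity)) hR.le
      linear_combination hmain + t1 + t2
    exact le_of_mul_le_mul_left h7 hc0
  have hκz : κ ^ 3 * z ^ 6 ≤ χ ^ 3 := by
    rw [show κ ^ 3 * z ^ 6 = (κ * z ^ 2) ^ 3 by ring]
    exact pow_le_pow_left₀ (by positivity) (by rw [hχ]; linarith) 3
  have hR6 : 100000000 * (R ^ 2 * z ^ 6) ≤ A ^ 2 * χ ^ 3 :=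
    calc 100000000 * (R ^ 2 * z ^ 6) = 100000000 * R ^ 2 * z ^ 6 := by ring
      _ ≤ κ ^ 3 * A ^ 2 * z ^ 6 := mul_le_mul_of_nonneg_right hcond (by positivity)
      _ = A ^ 2 * (κ ^ 3 * z ^ 6) := by ring
      _ ≤ A ^ 2 * χ ^ 3 := mul_le_mul_of_nonneg_left hκz (sq_nonneg A)
  have hR3 : R * z ^ 3 ≤ A * χ ^ 2 / 10000 := by
    refine abs_le_of_sq_le_sq' ?_ (by positivity) |>.2
    have : A ^ 2 * χ ^ 3 ≤ A ^ 2 * χ ^ 4 :=
      mul_le_mul_of_nonneg_left (pow_le_pow_right₀ hχ1 (by norm_num)) (sq_nonneg A)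
    linear_combination (hR6 + this) / 100000000
  have hpos : 0 < A ^ 2 * χ ^ 3 := by positivity
  have := mul_le_mul_of_nonneg_left hR3 (by positivity : 0 ≤ 63 * A * χ)
  linarith [show 63 * A * χ * (A * χ ^ 2 / 10000) = 63 / 10000 * (A ^ 2 * χ ^ 3) by ring]

/-- The larger side at a maximum: the step in the radius is free. -/
theorem upper_side {κ R r s P1 a n : ℝ} (hs : 0 < s) (hR : 0 < R) (hκ : 0 ≤ κ) (hP1 : 0 ≤ P1)
    (han : a ^ 2 ≤ n) :
    P1 * prof κ R (r + a) - n / (2 * s) ≤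
      P1 * prof κ R r + P1 ^ 2 * (1 + κ - 2 * κ * r / R) ^ 2 * s / 2 := by
  set g := 1 + κ - 2 * κ * r / R with hg
  have h1 : a ^ 2 / (2 * s) ≤ n / (2 * s) := by gcongr
  have h2 : P1 * prof κ R (r + a) = P1 * prof κ R r + P1 * g * a - P1 * κ * a ^ 2 / R := by
    rw [hg]
    unfold prof
    ring
  have h3 : 0 ≤ P1 * κ * a ^ 2 / R := by positivity
  have h4 : P1 * g * a - a ^ 2 / (2 * s) ≤ P1 ^ 2 * g ^ 2 * s / 2 := by
    rw [← sub_nonneg]
    have h0 : 0 ≤ (a - P1 * g * s) ^ 2 / (2 * s) := by positivity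
    refine h0.trans (le_of_eq ?_)
    field_simp
    ring
  linarith

/-- The smaller side at a maximum. -/
theorem lower_side {κ R r s P P2 : ℝ} (hs : 0 < s) :
    P2 * prof κ R (r - P * (1 + κ - 2 * κ * r / R) * s)
      + (P * (1 + κ - 2 * κ * r / R) * s) ^ 2 / (2 * s) =
      P2 * prof κ R r - P2 * P * (1 + κ - 2 * κ * r / R) ^ 2 * s
        + P ^ 2 * (1 + κ - 2 * κ * r / R) ^ 2 * s / 2
        - κ * P2 * P ^ 2 * (1 + κ - 2 * κ * r / R) ^ 2 * s ^ 2 / R := by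
  set g := 1 + κ - 2 * κ * r / R with hg
  have e : (P * g * s) ^ 2 / (2 * s) = P ^ 2 * g ^ 2 * s / 2 := by field_simp
  rw [e, hg]
  unfold prof
  ring

/-- The increments of the weight at the two children. -/
theorem increments {A κ : ℝ} (hA : 0 ≤ A) (hκ : 0 ≤ κ) {x v b : E} {s : ℝ} (hx : ‖x‖ ≤ 1)
    (hh : 0 < height x) (hv : ‖v‖ ≤ 4 * s) (hb : ‖b‖ ≤ 4 * s) (hsh : 800 * s ≤ height x)
    (hs1 : 4 * s ≤ 1) :
    weight A κ (x + v) - weight A κ x ≤ 20 * (A * κ) * s / height x ^ 3 ∧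
      -(20 * (A * κ) * s / height x ^ 3) ≤ weight A κ (x + v) - weight A κ x ∧
      -(20 * (A * κ) * s / height x ^ 3) ≤ weight A κ (x + b) - weight A κ x ∧
      (weight A κ (x + v) - weight A κ x) + (weight A κ (x + b) - weight A κ x) ≤
        4 * (A * κ) * ‖v + b‖ / height x ^ 3 + 4672 * (A * κ) * s ^ 2 / height x ^ 4 ∧
      20 * (A * κ) * s / height x ^ 3 ≤ weight A κ x / 2 := by
  have hs : 0 ≤ s := by linarith [norm_nonneg v]
  obtain ⟨-, hvl, hvu⟩ := weight_expand hA hκ (v := v) hx hh (by linarith) (by linarith)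
  obtain ⟨-, hbl, hbu⟩ := weight_expand hA hκ (v := b) hx hh (by linarith) (by linarith)
  set c := A * κ with hc_def
  set h := height x with hh_def
  have hc : 0 ≤ c := mul_nonneg hA hκ
  have habs : ∀ y : E, ‖y‖ ≤ 4 * s →
      -(16 * c * s / h ^ 3) ≤ 4 * c * ⟪x, y⟫ / h ^ 3 ∧ 4 * c * ⟪x, y⟫ / h ^ 3 ≤ 16 * c * s / h ^ 3
        ∧ 146 * c * ‖y‖ ^ 2 / h ^ 4 ≤ 2336 * c * s ^ 2 / h ^ 4 := by
    intro y hy
    obtain ⟨i1, i2⟩ := abs_le.1 ((abs_real_inner_le_norm x y).trans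
      ((mul_le_of_le_one_left (norm_nonneg y) hx).trans hy))
    refine ⟨?_, ?_, ?_⟩
    · rw [← neg_div]
      refine div_le_div_of_nonneg_right ?_ (by positivity)
      linear_combination 4 * mul_le_mul_of_nonneg_left i1 hc
    · refine div_le_div_of_nonneg_right ?_ (by positivity)
      linear_combination 4 * mul_le_mul_of_nonneg_left i2 hc
    · refine div_le_div_of_nonneg_right ?_ (by positivity)
      linear_combination 146 * mul_le_mul_of_nonneg_left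
        (pow_le_pow_left₀ (norm_nonneg y) hy 2) hc
  obtain ⟨v1, v2, v3⟩ := habs v hv
  obtain ⟨b1, b2, b3⟩ := habs b hb
  have hquad : 2336 * c * s ^ 2 / h ^ 4 ≤ 4 * c * s / h ^ 3 := by
    rw [div_le_div_iff₀ (by positivity) (by positivity)]
    calc 2336 * c * s ^ 2 * h ^ 3 = (2336 * s) * (c * s * h ^ 3) := by ring
      _ ≤ (4 * h) * (c * s * h ^ 3) := mul_le_mul_of_nonneg_right (by linarith) (by positivity)
      _ = 4 * c * s * h ^ 4 := by ring
  have h0 : 0 ≤ 4 * c * s / h ^ 3 := by positivity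
  have hsum : 16 * c * s / h ^ 3 + 4 * c * s / h ^ 3 = 20 * c * s / h ^ 3 := by ring
  have hiw : ⟪x, v⟫ + ⟪x, b⟫ ≤ ‖v + b‖ := by
    rw [← inner_add_right]
    exact (real_inner_le_norm x (v + b)).trans (mul_le_of_le_one_left (norm_nonneg _) hx)
  have hlin : 4 * c * ⟪x, v⟫ / h ^ 3 + 4 * c * ⟪x, b⟫ / h ^ 3 ≤ 4 * c * ‖v + b‖ / h ^ 3 := by
    rw [← add_div, ← mul_add]
    gcongr
  refine ⟨by linarith, by linarith, by linarith, ?_, ?_⟩
  · linarith [show 2336 * c * s ^ 2 / h ^ 4 + 2336 * c * s ^ 2 / h ^ 4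
      = 4672 * c * s ^ 2 / h ^ 4 by ring]
  · have h3 : 20 * c * s / h ^ 3 ≤ c / h ^ 2 / 2 := by
      rw [div_div, div_le_div_iff₀ (by positivity) (by positivity)]
      calc 20 * c * s * (h ^ 2 * 2) = (40 * s) * (c * h ^ 2) := by ring
        _ ≤ h * (c * h ^ 2) := mul_le_mul_of_nonneg_right (by linarith) (by positivity)
        _ = c * h ^ 3 := by ring
    have : weight A κ x = A + c / h ^ 2 := by rw [weight, ← hh_def, ← hc_def]
    linarith

/-- The collected inequality at a maximum. -/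
theorem max_arith {κ c R h P P1 P2 φ g s w : ℝ} (hs : 0 < s) (hR : 0 < R) (hκ : 0 ≤ κ)
    (hc : 0 ≤ c) (hh : 0 < h) (hP : 0 ≤ P) (hφ : 0 ≤ φ) (hφ2 : φ ≤ 2 * R) (hg1 : 3 / 4 ≤ g)
    (hg2 : g ≤ 5 / 4) (hw : 0 ≤ w) (d1u : P1 - P ≤ 20 * c * s / h ^ 3)
    (d1l : -(20 * c * s / h ^ 3) ≤ P1 - P) (d2l : -(20 * c * s / h ^ 3) ≤ P2 - P)
    (hlin : (P1 - P) + (P2 - P) ≤ 4 * c * w / h ^ 3 + 4672 * c * s ^ 2 / h ^ 4)
    (hhalf : 20 * c * s / h ^ 3 ≤ P / 2)
    (hmax : w ^ 2 / (4 * s) ≤ (P1 * φ + P1 ^ 2 * g ^ 2 * s / 2) + (P2 * φ - P2 * P * g ^ 2 * s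
      + P ^ 2 * g ^ 2 * s / 2 - κ * P2 * P ^ 2 * g ^ 2 * s ^ 2 / R) - 2 * (P * φ)) :
    w ^ 2 / (4 * s) ≤ 8 * c * R * w / h ^ 3 + 9344 * c * R * s ^ 2 / h ^ 4
      + 25 / 16 * s * (40 * P * c * s / h ^ 3 + 200 * c ^ 2 * s ^ 2 / h ^ 6)
      - 9 / 32 * κ * P ^ 3 * s ^ 2 / R := by
  have hB : ((P1 - P) + (P2 - P)) * φ ≤
      8 * c * R * w / h ^ 3 + 9344 * c * R * s ^ 2 / h ^ 4 :=
    calc ((P1 - P) + (P2 - P)) * φ
        ≤ (4 * c * w / h ^ 3 + 4672 * c * s ^ 2 / h ^ 4) * φ := mul_le_mul_of_nonneg_right hlin hφ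
      _ ≤ (4 * c * w / h ^ 3 + 4672 * c * s ^ 2 / h ^ 4) * (2 * R) :=
          mul_le_mul_of_nonneg_left hφ2 (by positivity)
      _ = 8 * c * R * w / h ^ 3 + 9344 * c * R * s ^ 2 / h ^ 4 := by ring
  have hC : P * ((P1 - P) - (P2 - P)) + (P1 - P) ^ 2 / 2 ≤ 40 * P * c * s / h ^ 3
      + 200 * c ^ 2 * s ^ 2 / h ^ 6 := by
    have h1 : P * ((P1 - P) - (P2 - P)) ≤ P * (2 * (20 * c * s / h ^ 3)) :=
      mul_le_mul_of_nonneg_left (by linarith) hP
    have h2 : (P1 - P) ^ 2 ≤ (20 * c * s / h ^ 3) ^ 2 := sq_le_sq' d1l d1u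
    linear_combination h1 + h2 / 2
  have hg2' : g ^ 2 ≤ 25 / 16 := by
    have := pow_le_pow_left₀ (by linarith : (0 : ℝ) ≤ g) hg2 2
    linarith
  have h0 : 0 ≤ 40 * P * c * s / h ^ 3 + 200 * c ^ 2 * s ^ 2 / h ^ 6 := by positivity
  have hC' := (mul_le_mul_of_nonneg_left hC (by positivity : 0 ≤ g ^ 2 * s)).trans
    (mul_le_mul_of_nonneg_right (mul_le_mul_of_nonneg_right hg2' hs.le) h0)
  have hG : 9 / 32 * κ * P ^ 3 * s ^ 2 / R ≤ κ * P2 * P ^ 2 * g ^ 2 * s ^ 2 / R := by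
    refine div_le_div_of_nonneg_right ?_ hR.le
    have h1 : κ * (P / 2) * P ^ 2 ≤ κ * P2 * P ^ 2 :=
      mul_le_mul_of_nonneg_right (mul_le_mul_of_nonneg_left (by linarith) hκ) (sq_nonneg P)
    have h3 : (3 / 4) ^ 2 ≤ g ^ 2 := pow_le_pow_left₀ (by norm_num) hg1 2
    calc 9 / 32 * κ * P ^ 3 * s ^ 2 = κ * (P / 2) * P ^ 2 * (3 / 4) ^ 2 * s ^ 2 := by ring
      _ ≤ κ * P2 * P ^ 2 * g ^ 2 * s ^ 2 :=
          mul_le_mul_of_nonneg_right (mul_le_mul h1 h3 (by positivity)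
            ((by positivity : 0 ≤ κ * (P / 2) * P ^ 2).trans h1)) (sq_nonneg s)
  linear_combination hmax + hB + hC' + hG

variable [FiniteDimensional ℝ E] {u : E → ℝ} {A κ R : ℝ}

/-- Second differences are at most twice the step. -/
theorem sd_le_lip {Q : ℝ} (hu : LipOne u Q) {x d : E} (hx : ‖x‖ + ‖d‖ ≤ Q) :
    sd u x d ≤ 2 * ‖d‖ := by
  have := norm_nonneg d
  have h1 := hu (x + d) x (by linarith [norm_add_le x d]) (by linarith)
  have h2 := hu (x - d) x (by linarith [norm_sub_le x d]) (by linarith)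
  rw [add_sub_cancel_left] at h1
  rw [sub_sub_cancel_left, norm_neg] at h2
  simp only [sd]
  linarith

/-- Lipschitz dependence of second differences on the step. -/
theorem sd_sub_le {Q : ℝ} (hu : LipOne u Q) {x d d' : E} (hx : ‖x‖ + ‖d‖ ≤ Q)
    (hx' : ‖x‖ + ‖d'‖ ≤ Q) : sd u x d ≤ sd u x d' + 2 * ‖d - d'‖ := by
  have h1 := hu (x + d) (x + d') (by linarith [norm_add_le x d]) (by linarith [norm_add_le x d'])
  have h2 := hu (x - d) (x - d') (by linarith [norm_sub_le x d]) (by linarith [norm_sub_le x d'])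
  rw [add_sub_add_left_eq_sub] at h1
  rw [sub_sub_sub_cancel_left, norm_sub_rev] at h2
  simp only [sd]
  linarith

/-- On the boundary the potential is below the barrier. -/
theorem boundary_le (hu : Good u 3) (hA : 0 < A) (hA1 : A ≤ 1) (hR : 0 < R) (hR1 : R ≤ 1 / 12)
    (hκ : 0 < κ) (hκ4 : κ ≤ 1 / 4)
    (hD : ∀ x d : E, ‖x‖ ≤ 1 → ‖d‖ = R → sd u x d ≤ A * R)
    {x d : E} (hx : ‖x‖ ≤ 1) (hh : 0 < height x) (hd : ‖d‖ ≤ R + A * κ * R / 12)
    (hcase : height x ^ 2 ≤ A * κ / 2 ∨ R ≤ ‖d‖ ∨ 16 * ‖d‖ ≤ 3 * (A * κ * R)) :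
    pot (A * κ * R / 48) u x d ≤ zbar A κ R x d := by
  have hc : 0 < A * κ := mul_pos hA hκ
  have hc4 : A * κ ≤ 1 / 4 := (mul_le_of_le_one_left hκ.le hA1).trans hκ4
  have hcR : A * κ * R ≤ 1 / 48 := by nlinarith
  have hs : 0 < A * κ * R / 48 := by positivity
  have hsum : ‖x‖ + ‖d‖ + 8 * (A * κ * R / 48) ≤ 3 := by linarith
  obtain ⟨-, hp⟩ := sd_le_pot hs hu.lip (x := x) (d := d) hsum
  have hl := sd_le_lip hu.lip (x := x) (d := d) (by linarith)
  have hd0 := norm_nonneg d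
  have hw : A ≤ weight A κ x := by
    rw [weight]
    have : 0 ≤ A * κ / height x ^ 2 := by positivity
    linarith
  rcases lt_or_ge ‖d‖ R with hlt | hge
  · have hφ := le_prof hκ.le hR hd0 hlt.le
    have hφ0 : 0 ≤ prof κ R ‖d‖ := hd0.trans hφ
    rcases hcase with h | h | h
    · have h2 : 2 ≤ weight A κ x := by
        have : 2 ≤ A * κ / height x ^ 2 := by
          rw [le_div_iff₀ (by positivity)]; linarith
        rw [weight]; linarith
      have h3 : 2 * ‖d‖ ≤ weight A κ x * prof κ R ‖d‖ :=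
        mul_le_mul h2 hφ hd0 (by linarith)
      rw [zbar]; linarith
    · linarith
    · have h3 : 0 ≤ weight A κ x * prof κ R ‖d‖ := mul_nonneg (by linarith) hφ0
      rw [zbar]; linarith
  · have hd2 : ‖d‖ ≤ 2 * R := by nlinarith
    have hφ := le_prof_top hκ.le hκ4 hR hge hd2
    have hdp : 0 < ‖d‖ := by linarith
    set d' := (R / ‖d‖) • d with hd'
    have hnd' : ‖d'‖ = R := by
      rw [hd', norm_smul, Real.norm_of_nonneg (div_nonneg hR.le hd0), div_mul_cancel₀ _ hdp.ne']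
    have hdd : ‖d - d'‖ = ‖d‖ - R := by
      have : d - d' = (1 - R / ‖d‖) • d := by rw [hd']; module
      rw [this, norm_smul, Real.norm_of_nonneg (sub_nonneg.2 ((div_le_one hdp).2 hge)), sub_mul,
        div_mul_cancel₀ _ hdp.ne', one_mul]
    have h1 := sd_sub_le hu.lip (x := x) (d := d) (d' := d') (by linarith) (by linarith)
    have h2 := hD x d' hx hnd'
    have h3 : A * R ≤ weight A κ x * prof κ R ‖d‖ := mul_le_mul hw hφ hR.le (by linarith)
    rw [zbar]; linarith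

/-- The potential minus the barrier is continuous. -/
theorem excess_continuous (hu : Good u 3) {s : ℝ} (hs : 0 < s) (hs1 : s ≤ 1 / 48) {K : Set (E × E)}
    (hK : ∀ q ∈ K, ‖q.1‖ + ‖q.2‖ ≤ 2 ∧ height q.1 ≠ 0) :
    ContinuousOn (fun q : E × E => pot s u q.1 q.2 - zbar A κ R q.1 q.2) K := by
  have hW : LipOne (sc s u) (3 - 4 * s) := sc_lip hs hu.lip
  have hm : LipOne (ic s u) (3 - 4 * s) := ic_lip hs hu.lip
  have hmm : LipOne (ic s (ic s u)) (3 - 4 * s - 4 * s) := ic_lip hs hm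
  have hadd : Continuous fun q : E × E => q.1 + q.2 := continuous_fst.add continuous_snd
  have hsub : Continuous fun q : E × E => q.1 - q.2 := continuous_fst.sub continuous_snd
  have c1 := hW.continuousOn.comp hadd.continuousOn (s := K)
    fun q hq => mem_closedBall_zero_iff.2 (by linarith [norm_add_le q.1 q.2, (hK q hq).1])
  have c2 := hW.continuousOn.comp hsub.continuousOn (s := K)
    fun q hq => mem_closedBall_zero_iff.2 (by linarith [norm_sub_le q.1 q.2, (hK q hq).1])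
  have c3 := hm.continuousOn.comp (continuous_fst (X := E) (Y := E)).continuousOn (s := K)
    fun q hq => mem_closedBall_zero_iff.2 (by linarith [norm_nonneg q.2, (hK q hq).1])
  have c4 := hmm.continuousOn.comp (continuous_fst (X := E) (Y := E)).continuousOn (s := K)
    fun q hq => mem_closedBall_zero_iff.2 (by linarith [norm_nonneg q.2, (hK q hq).1])
  have hh : Continuous fun q : E × E => height q.1 := by
    unfold height
    fun_prop
  have hwt : ContinuousOn (fun q : E × E => weight A κ q.1) K := by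
    unfold weight
    exact continuousOn_const.add (continuousOn_const.div (hh.pow 2).continuousOn
      fun q hq => pow_ne_zero _ (hK q hq).2)
  have hpr : Continuous fun q : E × E => prof κ R ‖q.2‖ := by
    unfold prof
    fun_prop
  have hb : ContinuousOn (fun q : E × E => zbar A κ R q.1 q.2) K := by
    unfold zbar
    exact (hwt.mul hpr.continuousOn).add continuousOn_const
  have h := (((c1.add c2).sub (c3.const_smul (2 : ℝ))).add ((c3.sub c4).const_smul (2 : ℝ))).sub hb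
  refine h.congr fun q _ => ?_
  simp [pot]

/-- The maximum principle: the potential lies below the barrier. -/
theorem pot_le_zbar (hu : Good u 3) (hA : 0 < A) (hA1 : A ≤ 1) (hR : 0 < R) (hR1 : R ≤ 1 / 12)
    (hκ : 0 < κ) (hκ4 : κ ≤ 1 / 4) (hcond : 100000000 * R ^ 2 ≤ κ ^ 3 * A ^ 2)
    (hD : ∀ x d : E, ‖x‖ ≤ 1 → ‖d‖ = R → sd u x d ≤ A * R)
    {d₀ : E} (hd₀ : ‖d₀‖ ≤ R) :
    pot (A * κ * R / 48) u 0 d₀ ≤ zbar A κ R 0 d₀ := by
  by_contra hcon
  rw [not_le] at hcon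
  set c := A * κ with hcdef
  have hc : 0 < c := mul_pos hA hκ
  have hc4 : c ≤ 1 / 4 := (mul_le_of_le_one_left hκ.le hA1).trans hκ4
  set s := c * R / 48 with hsdef
  have hs : 0 < s := by positivity
  have hcR : c * R ≤ 1 / 48 := by nlinarith
  set K : Set (E × E) :=
    {x : E | ‖x‖ ≤ 1 ∧ 0 ≤ height x ∧ c / 2 ≤ height x ^ 2} ×ˢ closedBall (0 : E) R with hK
  have hh : Continuous fun x : E => height x := by
    unfold height
    fun_prop
  have hKc : IsCompact K := by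
    refine IsCompact.prod ((isCompact_closedBall (0 : E) 1).of_isClosed_subset ?_ ?_)
      (isCompact_closedBall _ _)
    · exact (isClosed_le continuous_norm continuous_const).inter
        ((isClosed_le continuous_const hh).inter (isClosed_le continuous_const (hh.pow 2)))
    · exact fun x hx => mem_closedBall_zero_iff.2 hx.1
  have hpos : ∀ x : E, 0 ≤ height x → c / 2 ≤ height x ^ 2 → 0 < height x := fun x h1 h2 =>
    lt_of_le_of_ne h1 fun h => by rw [← h] at h2; linarith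
  have hK0 : ((0 : E), d₀) ∈ K := by
    refine ⟨⟨by simp, by simp [height], ?_⟩, mem_closedBall_zero_iff.2 hd₀⟩
    simp [height]; linarith
  have hcont := excess_continuous (A := A) (κ := κ) (R := R) hu hs (by linarith) (K := K)
    fun q hq => by
      obtain ⟨⟨h1, h2, h3⟩, h4⟩ := hq
      rw [mem_closedBall_zero_iff] at h4
      exact ⟨by linarith, (hpos _ h2 h3).ne'⟩
  obtain ⟨⟨x, d⟩, ⟨⟨hx1, hx2, hx3⟩, hdR⟩, hmax⟩ := hKc.exists_isMaxOn ⟨_, hK0⟩ hcont
  rw [mem_closedBall_zero_iff] at hdR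
  simp only at hx1 hx2 hx3 hdR
  have hmax' := isMaxOn_iff.1 hmax
  simp only at hmax'
  set M := pot s u x d - zbar A κ R x d with hM
  have hM0 : 0 < M := by
    have := hmax' _ hK0
    simp only at this
    linarith
  have hx0 : 0 < height x := hpos x hx2 hx3
  set h := height x with hhdef
  have hh1 : h ≤ 1 := by rw [hhdef, height]; linarith [sq_nonneg ‖x‖]
  -- the interior
  have hnb : ¬(height x ^ 2 ≤ A * κ / 2 ∨ R ≤ ‖d‖ ∨ 16 * ‖d‖ ≤ 3 * (A * κ * R)) := fun hb => by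
    have := boundary_le hu hA hA1 hR hR1 hκ hκ4 hD hx1 hx0 (by linarith [mul_pos hc hR]) hb
    linarith
  push Not at hnb
  obtain ⟨hh2, hdlt, hd9⟩ := hnb
  rw [← hhdef, ← hcdef] at hh2
  rw [← hcdef] at hd9
  set r := ‖d‖ with hrdef
  have h24 : 24 * s ≤ h := by
    rw [hsdef]
    refine abs_le_of_sq_le_sq' ?_ hx0.le |>.2
    nlinarith [mul_le_mul hc4 (pow_le_pow_left₀ hR.le hR1 2) (sq_nonneg R) (by norm_num)]
  have hs800 : 800 * s ≤ h := by
    rw [hsdef]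
    refine abs_le_of_sq_le_sq' ?_ hx0.le |>.2
    nlinarith [mul_le_mul hc4 (pow_le_pow_left₀ hR.le hR1 2) (sq_nonneg R) (by norm_num)]
  -- the competitors
  have hcomp : ∀ v e : E, ‖v‖ ≤ 4 * s → ‖e‖ ≤ 4 * s →
      pot s u (x + v) (d + e) ≤ zbar A κ R (x + v) (d + e) + M := by
    intro v e hv he
    obtain ⟨hp0, -⟩ := weight_expand hA.le hκ.le (v := v) hx1 hx0 (by linarith) (by linarith)
    have hn1 : ‖x + v‖ ≤ 1 := by
      have : 0 < height (x + v) := hp0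
      rw [height] at this
      exact (abs_le_of_sq_le_sq' (by linarith : ‖x + v‖ ^ 2 ≤ 1 ^ 2) (by norm_num)).2
    have hde := norm_add_le d e
    by_cases hin : c / 2 ≤ height (x + v) ^ 2 ∧ ‖d + e‖ ≤ R
    · have := hmax' (x + v, d + e)
        ⟨⟨hn1, hp0.le, hin.1⟩, mem_closedBall_zero_iff.2 hin.2⟩
      simp only at this
      linarith
    · rw [not_and_or, not_le, not_le] at hin
      have := boundary_le hu hA hA1 hR hR1 hκ hκ4 hD hn1 hp0 (d := d + e)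
        (by rw [← hcdef]; linarith)
        (hin.elim (fun h' => Or.inl h'.le) fun h' => Or.inr (Or.inl h'.le))
      linarith
  -- the step
  obtain ⟨v, e, b, hv, he, hb, hstep⟩ :=
    pot_step hs hu (x := x) (d := d) (by linarith)
  set P := weight A κ x with hPdef
  have hPe : P = A + c / h ^ 2 := by rw [hPdef, weight, ← hhdef, ← hcdef]
  have hcq : c / h ^ 2 ≤ 2 := by rw [div_le_iff₀ (by positivity)]; linarith
  have hcq0 : 0 ≤ c / h ^ 2 := by positivity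
  have hP0 : 0 < P := by linarith
  set g := 1 + κ - 2 * κ * r / R with hg
  have hrR : 2 * κ * r / R ≤ 2 * κ := by
    rw [div_le_iff₀ hR]
    exact mul_le_mul_of_nonneg_left hdlt.le (by positivity)
  have hr0 : 0 < r := by linarith
  have hrR0 : 0 ≤ 2 * κ * r / R := by positivity
  have hg1 : 3 / 4 ≤ g := by linarith
  have hg2 : g ≤ 5 / 4 := by linarith
  set γ := P * g * s with hγ
  have hγ0 : 0 ≤ γ := by positivity
  have hγ4 : γ ≤ 4 * s := by
    rw [hγ]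
    refine mul_le_mul_of_nonneg_right ?_ hs.le
    calc P * g ≤ 3 * (5 / 4) := mul_le_mul (by linarith) hg2 (by linarith) (by norm_num)
      _ ≤ 4 := by norm_num
  set cc : E := (-(γ / r)) • d with hcc
  have hccn : ‖cc‖ = γ := by
    rw [hcc, norm_smul, Real.norm_eq_abs, abs_neg, abs_of_nonneg (div_nonneg hγ0 hr0.le), ← hrdef]
    field_simp
  have hγr : γ ≤ r := by linarith
  have hdc : ‖d + cc‖ = r - γ := by
    have hfac : d + cc = (1 - γ / r) • d := by rw [hcc]; module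
    rw [hfac, norm_smul, Real.norm_of_nonneg (sub_nonneg.2 ((div_le_one hr0).2 hγr)), ← hrdef]
    field_simp
  have hst := hstep cc (by rw [hccn]; exact hγ4)
  have hA' := hcomp v e hv he
  have hB' := hcomp b cc hb (by rw [hccn]; exact hγ4)
  set a := ‖d + e‖ - r with ha
  have hae : a ^ 2 ≤ ‖e‖ ^ 2 := by
    rw [← sq_abs a]
    refine pow_le_pow_left₀ (abs_nonneg _) ?_ 2
    have := abs_norm_sub_norm_le (d + e) d
    rwa [add_sub_cancel_left] at this
  set P1 := weight A κ (x + v) with hP1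
  set P2 := weight A κ (x + b) with hP2
  set φ := prof κ R r with hφ
  have hP1p : 0 ≤ P1 := by rw [hP1, weight]; positivity
  have hupper := upper_side (r := r) (R := R) (κ := κ) (P1 := P1) hs hR hκ.le hP1p hae
  rw [show r + a = ‖d + e‖ by rw [ha]; ring, ← hφ, ← hg] at hupper
  have hlower := lower_side (r := r) (R := R) (κ := κ) (P := P) (P2 := P2) hs
  rw [← hg, ← hγ, ← hdc, ← hccn, ← hφ] at hlower
  set w := ‖v + b‖ with hw
  obtain ⟨d1u, d1l, d2l, hlin, hhalf⟩ :=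
    increments hA.le hκ.le hx1 hx0 hv hb (by linarith) (by linarith)
  simp only [← hhdef, ← hPdef, ← hcdef, ← hw, ← hP1, ← hP2] at d1u d1l d2l hlin hhalf
  have hφ0 : 0 ≤ φ := hr0.le.trans (le_prof hκ.le hR hr0.le hdlt.le)
  have hφ2 : φ ≤ 2 * R := by
    refine (prof_le hκ.le hR).trans ?_
    exact mul_le_mul (by linarith) hdlt.le hr0.le (by norm_num)
  refine interior_arith (h := h) (P := P) (s := s) (w := w) hA hκ hR hx0 hh1 hPe (by linarith)
    hsdef hcond ?_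
  have e1 : zbar A κ R x d = P * φ + A * κ * R := rfl
  have e2 : zbar A κ R (x + v) (d + e) = P1 * prof κ R ‖d + e‖ + A * κ * R := rfl
  have e3 : zbar A κ R (x + b) (d + cc) = P2 * prof κ R ‖d + cc‖ + A * κ * R := rfl
  rw [← hcdef]
  exact max_arith hs hR hκ.le hc.le hx0 hP0.le hφ0 hφ2 hg1 hg2 (norm_nonneg _) d1u d1l d2l hlin
    hhalf (by linarith)

/-- One level: second differences at scale `R` control those at the scales `R/4` to `R/2`. -/
theorem zyg_step (hu : Good u 3) (hA : 0 < A) (hA1 : A ≤ 1) (hR : 0 < R) (hR1 : R ≤ 1 / 12)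
    (hκ : 0 < κ) (hκ4 : κ ≤ 1 / 4) (hcond : 100000000 * R ^ 2 ≤ κ ^ 3 * A ^ 2)
    (hD : ∀ x d : E, ‖x‖ ≤ 1 → ‖d‖ = R → sd u x d ≤ A * R)
    {d : E} (hd1 : R ≤ 4 * ‖d‖) (hd2 : ‖d‖ ≤ R) :
    sd u 0 d ≤ A * (1 + 7 * κ) * ‖d‖ := by
  have h1 := pot_le_zbar hu hA hA1 hR hR1 hκ hκ4 hcond hD hd2
  have hs : 0 < A * κ * R / 48 := by positivity
  have hcR : A * κ * R ≤ 1 := by
    calc A * κ * R ≤ 1 * (1 / 4) * (1 / 12) := by gcongr
      _ ≤ 1 := by norm_num
  obtain ⟨h2, -⟩ := sd_le_pot hs hu.lip (x := (0 : E)) (d := d) (by rw [norm_zero]; linarith)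
  have hw : weight A κ (0 : E) = A * (1 + κ) := by simp [weight, height]; ring
  have h3 := mul_le_mul_of_nonneg_left (prof_le (t := ‖d‖) hκ.le hR)
    (by positivity : 0 ≤ A * (1 + κ))
  rw [zbar, hw] at h1
  have h4 : A * κ * R ≤ A * κ * (4 * ‖d‖) := by gcongr
  have h5 : A * κ ^ 2 * ‖d‖ ≤ A * κ * ‖d‖ := by
    have : κ ^ 2 ≤ κ := by nlinarith
    gcongr
  linarith

end Vale.Agent.P080.C1
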