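import Vale.Agent.P080.Flat.Basic
import Vale.Agent.P080.C1.ZygStep

/-!
The Zygmund bound at all small scales for functions with comparison with cones that are flat on
every small ball, in any dimension (P080).
-/

namespace Vale.Agent.P080.C1

open Metric Set Flat
open scoped RealInnerProductSpace

set_option linter.unusedSectionVars false

variable {E : Type*} [NormedAddCommGroup E] [InnerProductSpace ℝ E] [FiniteDimensional ℝ E]
variable {u : E → ℝ} {A R : ℝ}

/-- The constant of the level `k`. -/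
noncomputable def levelConst (A : ℝ) (k : ℕ) : ℝ := A * (1 + 14 * ((1 - (4 / 5) ^ k) / 20))

theorem levelConst_mem (hA : 0 < A) (k : ℕ) :
    A ≤ levelConst A k ∧ levelConst A k ≤ 2 * A := by
  have h0 : (0 : ℝ) ≤ (4 / 5) ^ k := by positivity
  have h1 : (4 / 5 : ℝ) ^ k ≤ 1 := pow_le_one₀ (by norm_num) (by norm_num)
  unfold levelConst
  constructor <;> nlinarith

/-- One level, at a centre. -/
theorem zyg_level (hu : Good u 4) (hA : 0 < A) (hA2 : A ≤ 1 / 2) (hR : 0 < R)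
    (hRA : 100000000 * R ≤ A) (k : ℕ)
    (hk : ∀ x d : E, ‖x‖ ≤ 1 / 2 + (3 / 4) ^ k / 2 → ‖d‖ = R / 2 ^ k →
      sd u x d ≤ levelConst A k * ‖d‖)
    {x d : E} (hx : ‖x‖ ≤ 1 / 2 + (3 / 4) ^ (k + 1) / 2) (hd1 : R / 2 ^ k ≤ 4 * ‖d‖)
    (hd2 : ‖d‖ ≤ R / 2 ^ k) :
    sd u x d ≤ levelConst A (k + 1) * ‖d‖ := by
  obtain ⟨hAk, hAk2⟩ := levelConst_mem hA k
  set Ak := levelConst A k with hAkdef
  have hp : (0 : ℝ) < (3 / 4) ^ k := by positivity
  have hp1 : (3 / 4 : ℝ) ^ k ≤ 1 := pow_le_one₀ (by norm_num) (by norm_num)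
  have hq : (0 : ℝ) < 2 ^ k := by positivity
  have hq4 : (0 : ℝ) < (4 / 5) ^ k := by positivity
  have hq1 : (4 / 5 : ℝ) ^ k ≤ 1 := pow_le_one₀ (by norm_num) (by norm_num)
  rw [pow_succ] at hx
  set g : ℝ := (3 / 4) ^ k / 8 with hg
  have hg0 : 0 < g := by positivity
  set κ : ℝ := (4 / 5) ^ k / 100 with hκ
  set R' := R / 2 ^ k / g with hR'
  have hxg : ‖x‖ + g * 3 ≤ 4 := by linarith
  have hu' : Good (zoom u x g) 3 := hu.zoom hg0 hxg
  have hR8 : R' = 8 * R * (2 / 3) ^ k := by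
    rw [hR', hg, show (2 / 3 : ℝ) ^ k = 1 / (2 ^ k * (3 / 4) ^ k) by
      rw [← mul_pow, one_div, ← inv_pow]; norm_num]
    field_simp
  have h23 : (2 / 3 : ℝ) ^ k ≤ 1 := pow_le_one₀ (by norm_num) (by norm_num)
  have hR'12 : R' ≤ 1 / 12 := by
    rw [hR8]
    calc 8 * R * (2 / 3) ^ k ≤ 8 * R * 1 := mul_le_mul_of_nonneg_left h23 (by positivity)
      _ ≤ 1 / 12 := by linarith
  have hcond : 100000000 * R' ^ 2 ≤ κ ^ 3 * Ak ^ 2 := by
    rw [hR8, hκ]
    have h1 : ((2 / 3 : ℝ) ^ k) ^ 2 ≤ ((4 / 5 : ℝ) ^ k) ^ 3 := by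
      rw [← pow_mul, ← pow_mul, mul_comm k 2, mul_comm k 3, pow_mul, pow_mul]
      exact pow_le_pow_left₀ (by norm_num) (by norm_num) k
    calc 100000000 * (8 * R * (2 / 3) ^ k) ^ 2
        = 64 / 100000000 * (100000000 * R) ^ 2 * ((2 / 3) ^ k) ^ 2 := by ring
      _ ≤ 1 / 1000000 * A ^ 2 * ((4 / 5) ^ k) ^ 3 := by
          refine mul_le_mul (mul_le_mul (by norm_num) (pow_le_pow_left₀ (by positivity) hRA 2)
            (by positivity) (by norm_num)) h1 (by positivity) (by positivity)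
      _ ≤ 1 / 1000000 * Ak ^ 2 * ((4 / 5) ^ k) ^ 3 := by gcongr
      _ = ((4 / 5) ^ k / 100) ^ 3 * Ak ^ 2 := by ring
  have hD : ∀ z e : E, ‖z‖ ≤ 1 → ‖e‖ = R' → sd (zoom u x g) z e ≤ Ak * R' := by
    intro z e hz he
    have hn : ‖g • e‖ = R / 2 ^ k := by
      rw [norm_smul, Real.norm_of_nonneg hg0.le, he, hR']
      field_simp
    have hgz : ‖g • z‖ ≤ g := by
      rw [norm_smul, Real.norm_of_nonneg hg0.le]
      exact mul_le_of_le_one_right hg0.le hz
    have h := hk (x + g • z) (g • e) (by linarith [norm_add_le x (g • z)]) hn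
    rw [hn] at h
    rw [sd_zoom, div_le_iff₀ hg0, hR']
    refine h.trans (le_of_eq ?_)
    field_simp
  have hnd : ‖g⁻¹ • d‖ = ‖d‖ / g := by
    rw [norm_smul, Real.norm_of_nonneg (by positivity), inv_mul_eq_div]
  have h := zyg_step hu' (A := Ak) (by linarith) (by linarith) (R := R') (by positivity) hR'12
    (κ := κ) (by positivity) (by linarith) hcond hD (d := g⁻¹ • d)
    (by rw [hnd, hR', mul_div_assoc']; gcongr) (by rw [hnd, hR']; gcongr)
  rw [sd_zoom, smul_zero, add_zero, smul_inv_smul₀ hg0.ne', hnd, div_le_iff₀ hg0, mul_assoc,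
    div_mul_cancel₀ _ hg0.ne'] at h
  refine h.trans (mul_le_mul_of_nonneg_right ?_ (norm_nonneg d))
  rw [hAkdef, hκ, levelConst, levelConst, pow_succ]
  have := mul_nonneg (mul_nonneg hA.le hq4.le) hq4.le
  nlinarith

/-- The Zygmund bound at all scales below the hypothesis scale. -/
theorem zyg_all (hu : Good u 4) (hA : 0 < A) (hR : 0 < R) (hR1 : R ≤ 1)
    (hRA : 100000000 * R ≤ A)
    (hD : ∀ x d : E, ‖x‖ ≤ 1 → ‖d‖ = R → sd u x d ≤ A * R)
    {x d : E} (hx : ‖x‖ ≤ 1 / 2) (hd : ‖d‖ ≤ R) :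
    sd u x d ≤ 4 * A * ‖d‖ := by
  rcases lt_or_ge (1 / 2) A with hA2 | hA2
  · have h := sd_le_lip hu.lip (x := x) (d := d) (by linarith)
    have : 1 * ‖d‖ ≤ 2 * A * ‖d‖ := mul_le_mul_of_nonneg_right (by linarith) (norm_nonneg d)
    linarith
  have key : ∀ (k : ℕ) (y e : E), ‖y‖ ≤ 1 / 2 + (3 / 4) ^ k / 2 → ‖e‖ = R / 2 ^ k →
      sd u y e ≤ levelConst A k * ‖e‖ := by
    intro k
    induction k with
    | zero =>
      intro y e hy he
      rw [pow_zero] at hy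
      rw [pow_zero, div_one] at he
      have := hD y e (by linarith) he
      rw [he]
      simpa [levelConst] using this
    | succ k ih =>
      intro y e hy he
      have hlt : R / 2 ^ k = 2 * ‖e‖ := by
        rw [he, pow_succ]
        field_simp
      exact zyg_level hu hA hA2 hR hRA k ih hy (by linarith [norm_nonneg e])
        (by linarith [norm_nonneg e])
  rcases eq_or_lt_of_le (norm_nonneg d) with h0 | h0
  · rw [norm_eq_zero.1 h0.symm]
    simp [sd]
    ring_nf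
    simp
  obtain ⟨k, hk1, hk2⟩ := exists_nat_pow_near_of_lt_one (x := ‖d‖ / R) (y := (1 / 2 : ℝ))
    (by positivity) ((div_le_one hR).2 hd) (by norm_num) (by norm_num)
  rw [lt_div_iff₀ hR, one_div, inv_pow, inv_mul_eq_div, pow_succ] at hk1
  rw [div_le_iff₀ hR, one_div, inv_pow, inv_mul_eq_div] at hk2
  have hx' : ‖x‖ ≤ 1 / 2 + (3 / 4) ^ (k + 1) / 2 := by
    have : (0 : ℝ) ≤ (3 / 4) ^ (k + 1) / 2 := by positivity
    linarith
  have h4 : R / 2 ^ k ≤ 4 * ‖d‖ := by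
    have : R / (2 ^ k * 2) = R / 2 ^ k / 2 := by rw [div_div]
    linarith
  have h := zyg_level hu hA hA2 hR hRA k (key k) hx' h4 hk2
  obtain ⟨-, h2⟩ := levelConst_mem hA (k + 1)
  have := mul_le_mul_of_nonneg_right h2 (norm_nonneg d)
  linarith [mul_nonneg hA.le (norm_nonneg d)]

/-- A function with comparison with cones that is within `δ T` of an affine function on each ball
of radius `√δ T` has second differences of order `√δ` times the step at all smaller scales. -/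
theorem zyg_flat (hu : Good u 4) {δ T : ℝ} (hδ : 0 < δ) (hδ1 : δ ≤ 1) (hT : 0 < T) (hT1 : T ≤ 1)
    (hflat : ∀ c : E, ‖c‖ ≤ 1 → ∃ (a : ℝ) (p : E), ∀ z : E, ‖z‖ ≤ √δ * T →
      |u (c + z) - a - ⟪p, z⟫| ≤ δ * T)
    {x d : E} (hx : ‖x‖ ≤ 1 / 2) (hd : 10000 * ‖d‖ ≤ √δ * T) :
    |sd u x d| ≤ 160000 * √δ * ‖d‖ := by
  have hs : 0 < √δ := Real.sqrt_pos.2 hδ
  have hs1 : √δ ≤ 1 := Real.sqrt_le_one.2 hδ1
  have hsq : √δ * √δ = δ := Real.mul_self_sqrt hδ.le
  set R := √δ * T / 10000 with hRdef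
  have hsT : √δ * T ≤ 1 := mul_le_one₀ hs1 hT.le hT1
  have hRA : 100000000 * R ≤ 40000 * √δ := by
    rw [hRdef]
    linarith [mul_le_of_le_one_right hs.le hT1]
  have hflat2 : ∀ y e : E, ‖y‖ ≤ 1 → ‖e‖ = R → |sd u y e| ≤ 4 * (δ * T) := by
    intro y e hy he
    obtain ⟨a, p, hp⟩ := hflat y hy
    have he' : ‖e‖ ≤ √δ * T := by linarith [mul_pos hs hT]
    obtain ⟨p1, p2⟩ := abs_le.1 (hp e he')
    obtain ⟨m1, m2⟩ := abs_le.1 (hp (-e) (by rwa [norm_neg]))
    obtain ⟨z1, z2⟩ := abs_le.1 (hp 0 (by simp; positivity))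
    rw [inner_neg_right, ← sub_eq_add_neg] at m1 m2
    rw [add_zero, inner_zero_right] at z1 z2
    simp only [sd]
    exact abs_le.2 ⟨by linarith, by linarith⟩
  have hAR : 40000 * √δ * R = 4 * (δ * T) := by
    rw [hRdef]
    linear_combination 4 * T * hsq
  have h1 := zyg_all hu (A := 40000 * √δ) (R := R) (by positivity) (by positivity) (by linarith)
    hRA (fun y e hy he => by rw [hAR]; exact (abs_le.1 (hflat2 y e hy he)).2) hx
    (d := d) (by linarith)
  have h2 := zyg_all hu.neg (A := 40000 * √δ) (R := R) (by positivity) (by positivity) (by linarith)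
    hRA (fun y e hy he => by
      rw [hAR]
      have := (abs_le.1 (hflat2 y e hy he)).1
      simp only [sd] at this ⊢
      linarith) hx (d := d) (by linarith)
  simp only [sd] at h1 h2 ⊢
  exact abs_le.2 ⟨by linarith, by linarith⟩

/-- The same at a centre `x`, from balls centred near `x`, up to the scale of the balls. -/
theorem zyg_ball {Q : ℝ} (hu : Good u Q) {δ T ρ : ℝ} (hδ : 0 < δ) (hδ1 : δ ≤ 1) (hT : 0 < T)
    (hTρ : T ≤ ρ) {x : E} (hQ : ‖x‖ + 4 * ρ ≤ Q)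
    (hflat : ∀ c : E, ‖c - x‖ ≤ ρ → ∃ (a : ℝ) (p : E), ∀ z : E, ‖z‖ ≤ √δ * T →
      |u (c + z) - a - ⟪p, z⟫| ≤ δ * T)
    {d : E} (hd : ‖d‖ ≤ √δ * T) :
    |sd u x d| ≤ 160000 * √δ * ‖d‖ := by
  have hρ : 0 < ρ := hT.trans_le hTρ
  rcases le_or_gt (10000 * ‖d‖) (√δ * T) with hsmall | hbig
  · have hu' : Good (zoom u x ρ) 4 := hu.zoom hρ (by linarith)
    have hflat' : ∀ c : E, ‖c‖ ≤ 1 → ∃ (a : ℝ) (p : E), ∀ z : E, ‖z‖ ≤ √δ * (T / ρ) →
        |zoom u x ρ (c + z) - a - ⟪p, z⟫| ≤ δ * (T / ρ) := by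
      intro c hc
      obtain ⟨a, p, hp⟩ := hflat (x + ρ • c) (by
        rw [add_sub_cancel_left, norm_smul, Real.norm_of_nonneg hρ.le]
        exact mul_le_of_le_one_right hρ.le hc)
      refine ⟨a / ρ, p, fun z hz => ?_⟩
      rw [mul_div_assoc', le_div_iff₀ hρ] at hz
      have h := hp (ρ • z) (by rw [norm_smul, Real.norm_of_nonneg hρ.le]; linarith)
      rw [real_inner_smul_right, show x + ρ • c + ρ • z = x + ρ • (c + z) by module] at h
      have e : zoom u x ρ (c + z) - a / ρ - ⟪p, z⟫ =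
          (u (x + ρ • (c + z)) - a - ρ * ⟪p, z⟫) / ρ := by
        simp only [Flat.zoom]
        field_simp
      rw [e, abs_div, abs_of_pos hρ, mul_div_assoc']
      exact div_le_div_of_nonneg_right h hρ.le
    have h := zyg_flat hu' hδ hδ1 (T := T / ρ) (by positivity) ((div_le_one hρ).2 hTρ) hflat'
      (x := 0) (d := ρ⁻¹ • d) (by simp) (by
        rw [norm_smul, Real.norm_of_nonneg (by positivity), inv_mul_eq_div, mul_div_assoc',
          mul_div_assoc']
        gcongr)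
    rw [sd_zoom, smul_zero, add_zero, smul_inv_smul₀ hρ.ne', norm_smul,
      Real.norm_of_nonneg (by positivity), inv_mul_eq_div, abs_div, abs_of_pos hρ,
      mul_div_assoc', div_le_div_iff_of_pos_right hρ] at h
    exact h
  · obtain ⟨a, p, hp⟩ := hflat x (by simp; exact hρ.le)
    obtain ⟨p1, p2⟩ := abs_le.1 (hp d hd)
    obtain ⟨m1, m2⟩ := abs_le.1 (hp (-d) (by rwa [norm_neg]))
    obtain ⟨z1, z2⟩ := abs_le.1 (hp 0 (by simp; positivity))
    rw [inner_neg_right, ← sub_eq_add_neg] at m1 m2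
    rw [add_zero, inner_zero_right] at z1 z2
    have hb := mul_le_mul_of_nonneg_left hbig.le (Real.sqrt_nonneg δ)
    rw [← mul_assoc, Real.mul_self_sqrt hδ.le] at hb
    simp only [sd]
    exact abs_le.2 ⟨by linarith, by linarith⟩

end Vale.Agent.P080.C1
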