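import Vale.Agent.P080.C1.Fin
import Vale.Agent.P080.C1.ZygScales

/-!
B1: second differences at all small scales from flat windows, uniformly in `δ`.
-/

namespace Vale.Agent.P080.C1

open Metric Set Filter Topology
open scoped RealInnerProductSpace

set_option linter.unusedSectionVars false

variable {E : Type*} [NormedAddCommGroup E] [InnerProductSpace ℝ E] [FiniteDimensional ℝ E]

/-- A window contains the ball of radius `√δ` around its centre. -/
theorem FitWin.on_ball {u : E → ℝ} {x p : E} {δ : ℝ} (h : FitWin u x p 1 δ) (hp : ‖p‖ ≤ 16)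
    (hδ : 0 ≤ δ) (hδ1 : δ ≤ 1) {d : E} (hd : ‖d‖ ≤ Real.sqrt δ) :
    |u (x + d) - u x - ⟪p, d⟫| ≤ 16 * δ := by
  have hs1 : Real.sqrt δ ≤ 1 := Real.sqrt_le_one.2 hδ1
  have hproj : ‖d - (⟪p, d⟫ / ‖p‖ ^ 2) • p‖ ≤ ‖d‖ := by
    rw [← pow_le_pow_iff_left₀ (norm_nonneg _) (norm_nonneg _) two_ne_zero, norm_sub_sq_real,
      real_inner_smul_right, norm_smul, mul_pow, Real.norm_eq_abs, sq_abs, real_inner_comm p d]
    rcases eq_or_ne ‖p‖ 0 with hp0 | hp0
    · simp [hp0]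
    · have e : (⟪p, d⟫ / ‖p‖ ^ 2) ^ 2 * ‖p‖ ^ 2 = ⟪p, d⟫ / ‖p‖ ^ 2 * ⟪p, d⟫ := by
        field_simp
      rw [e]
      have : 0 ≤ ⟪p, d⟫ / ‖p‖ ^ 2 * ⟪p, d⟫ := by
        rw [div_mul_eq_mul_div]
        exact div_nonneg (mul_self_nonneg _) (sq_nonneg _)
      linarith
  refine (h d ?_ ?_).trans ?_
  · rw [one_mul]
    exact (abs_real_inner_le_norm p d).trans
      (mul_le_of_le_one_right (norm_nonneg p) (hd.trans hs1))
  · linarith [Real.sqrt_nonneg δ]
  · rw [mul_one, mul_comm 16 δ]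
    exact mul_le_mul_of_nonneg_left hp hδ

/-- Chaining windows along a segment. -/
theorem Flat₁.increment_le {u : E → ℝ} {δ : ℝ} (h : Flat₁ u δ) (hδ : 0 < δ)
    (hδ1 : δ ≤ 1) {x z : E} (hseg : ∀ t : ℝ, 0 ≤ t → t ≤ 1 → x + t • z ∈ ball (0 : E) 4) :
    |u (x + z) - u x| ≤ 32 * ‖z‖ + 32 * δ := by
  have hs : 0 < Real.sqrt δ := Real.sqrt_pos.2 hδ
  obtain ⟨n, hn, hn1⟩ : ∃ n : ℕ, ‖z‖ / Real.sqrt δ ≤ n ∧ (n : ℝ) ≤ ‖z‖ / Real.sqrt δ + 1 :=
    ⟨⌈‖z‖ / Real.sqrt δ⌉₊, Nat.le_ceil _, (Nat.ceil_lt_add_one (by positivity)).le⟩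
  rcases Nat.eq_zero_or_pos n with rfl | hnpos
  · have : ‖z‖ = 0 := by
      have := (div_le_iff₀ hs).1 hn
      simp at this
      exact le_antisymm (by simpa using this) (norm_nonneg z)
    rw [norm_eq_zero.1 this]
    simp
    positivity
  have hnR : (0 : ℝ) < n := by exact_mod_cast hnpos
  set d : E := (n : ℝ)⁻¹ • z with hddef
  have hdn : ‖d‖ = ‖z‖ / n := by
    rw [hddef, norm_smul, Real.norm_of_nonneg (by positivity), inv_mul_eq_div]
  have hds : ‖d‖ ≤ Real.sqrt δ := by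
    rw [hdn, div_le_iff₀ hnR]
    have := (div_le_iff₀ hs).1 hn
    linarith
  have key : ∀ k : ℕ, k ≤ n → |u (x + (k : ℝ) • d) - u x| ≤ k * (16 * ‖d‖ + 16 * δ) := by
    intro k
    induction k with
    | zero => intro _; simp
    | succ k ih =>
      intro hk
      have h1 := ih (by omega)
      have hmem : x + (k : ℝ) • d ∈ ball (0 : E) 4 := by
        rw [hddef, smul_smul]
        refine hseg _ (by positivity) ?_
        rw [← div_eq_mul_inv, div_le_one hnR]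
        exact_mod_cast Nat.le_of_succ_le hk
      obtain ⟨p, -, hp2, hwin⟩ := h _ hmem
      have h2 := hwin.on_ball hp2 hδ.le hδ1 hds
      have h3 : |⟪p, d⟫| ≤ 16 * ‖d‖ :=
        (abs_real_inner_le_norm p d).trans (mul_le_mul_of_nonneg_right hp2 (norm_nonneg d))
      push_cast
      rw [add_smul, one_smul, ← add_assoc]
      have h4 := abs_le.1 h1
      have h5 := abs_le.1 h2
      have h6 := abs_le.1 h3
      exact abs_le.2 ⟨by linarith, by linarith⟩
  have h7 := key n le_rfl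
  rw [hddef, smul_inv_smul₀ hnR.ne', ← hddef, hdn] at h7
  refine h7.trans ?_
  rw [mul_add, mul_div_assoc', mul_div_cancel₀ _ hnR.ne']
  have h8 : Real.sqrt δ * (n : ℝ) ≤ ‖z‖ + Real.sqrt δ := by
    have := mul_le_mul_of_nonneg_left hn1 hs.le
    rwa [mul_add, mul_div_cancel₀ _ hs.ne', mul_one] at this
  have h9 := mul_le_mul_of_nonneg_left h8 hs.le
  rw [← mul_assoc, mul_add, Real.mul_self_sqrt hδ.le] at h9
  have h10 := mul_le_of_le_one_left (norm_nonneg z) (Real.sqrt_le_one.2 hδ1)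
  linarith

/-- The normalised Zygmund bound. -/
theorem zygmund_flat : ∃ δ₁ c : ℝ, 0 < δ₁ ∧ 0 < c ∧ ∀ {u : E → ℝ} {δ : ℝ},
    Visc (ball 0 8) u → 0 < δ → δ ≤ δ₁ → Flat₁ u δ →
    ∀ x d : E, ‖x‖ ≤ 1 → ‖d‖ ≤ Real.sqrt δ →
      |u (x + d) + u (x - d) - 2 * u x| ≤ c * Real.sqrt δ * ‖d‖ := by
  refine ⟨1 / 64, 30000000, by norm_num, by norm_num, fun {u δ} hv hδ hδ64 hflat x d hx hd => ?_⟩
  have hδ1 : δ ≤ 1 := by linarith
  have hs : 0 < Real.sqrt δ := Real.sqrt_pos.2 hδ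
  have hsq := Real.mul_self_sqrt hδ.le
  have hs1 : Real.sqrt δ ≤ 1 := Real.sqrt_le_one.2 hδ1
  have hd0 := norm_nonneg d
  have hxs : x ∈ ball (0 : E) 4 := by rw [mem_ball_zero_iff]; linarith
  rcases le_or_gt (32 * ‖d‖) (3 * Real.sqrt δ) with hsmall | hbig
  · have hball : closedBall x (2 * (3 / 8)) ⊆ ball (0 : E) 4 := fun y hy => by
      rw [mem_closedBall, dist_eq_norm] at hy
      rw [mem_ball_zero_iff]
      linarith [norm_le_norm_add_norm_sub' y x]
    have hball8 : closedBall x (2 * (3 / 8)) ⊆ ball (0 : E) 8 :=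
      hball.trans (ball_subset_ball (by norm_num))
    have hinc : ∀ y ∈ closedBall x (2 * (3 / 8)), |u y - u x| ≤ 25 := by
      intro y hy
      rw [mem_closedBall, dist_eq_norm] at hy
      have h := hflat.increment_le hδ hδ1 (x := x) (z := y - x) fun t ht0 ht1 => hball (by
        rw [mem_closedBall, dist_eq_norm, add_sub_cancel_left, norm_smul,
          Real.norm_of_nonneg ht0]
        exact (mul_le_of_le_one_left (norm_nonneg _) ht1).trans hy)
      rw [add_sub_cancel] at h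
      linarith
    have hosc : ∀ v ∈ closedBall x (2 * (3 / 8)), ∀ w ∈ closedBall x (2 * (3 / 8)),
        u v - u w ≤ 64 := fun v hv' w hw' => by
      linarith [(abs_le.1 (hinc v hv')).2, (abs_le.1 (hinc w hw')).1]
    have hgood := Flat.good_of_visc (hv.cont) hv.sub hv.sup (c := x) (σ := 3 / 8) (K := 64)
      (by norm_num) (by norm_num) hball8 hosc
    have hfl : ∀ c : E, ‖c - 0‖ ≤ 1 / 4 → ∃ (a : ℝ) (p : E), ∀ z : E,
        ‖z‖ ≤ Real.sqrt δ * (1 / 4) →
          |u (x + (3 / 8 : ℝ) • (c + z)) / 64 - a - ⟪p, z⟫| ≤ δ * (1 / 4) := by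
      intro c hc
      rw [sub_zero] at hc
      obtain ⟨p, -, hp2, hwin⟩ := hflat (x + (3 / 8 : ℝ) • c) (hball (by
        rw [mem_closedBall, dist_eq_norm, add_sub_cancel_left, norm_smul,
          Real.norm_of_nonneg (by norm_num)]
        linarith))
      refine ⟨u (x + (3 / 8 : ℝ) • c) / 64, (3 / 512 : ℝ) • p, fun z hz => ?_⟩
      have h := hwin.on_ball hp2 hδ.le hδ1 (d := (3 / 8 : ℝ) • z) (by
        rw [norm_smul, Real.norm_of_nonneg (by norm_num)]
        linarith)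
      rw [real_inner_smul_right, show x + (3 / 8 : ℝ) • c + (3 / 8 : ℝ) • z =
        x + (3 / 8 : ℝ) • (c + z) by module] at h
      rw [real_inner_smul_left]
      obtain ⟨h1, h2⟩ := abs_le.1 h
      exact abs_le.2 ⟨by linarith, by linarith⟩
    have hnd : ‖(8 / 3 : ℝ) • d‖ = 8 / 3 * ‖d‖ := by
      rw [norm_smul, Real.norm_of_nonneg (by norm_num)]
    have h := zyg_ball hgood hδ hδ1 (T := 1 / 4) (ρ := 1 / 4) (by norm_num) le_rfl (x := 0)
      (by simp) hfl (d := (8 / 3 : ℝ) • d) (by rw [hnd]; linarith)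
    simp only [Flat.sd, zero_add, zero_sub, smul_neg, smul_zero, smul_smul, add_zero,
      ← sub_eq_add_neg, hnd] at h
    norm_num at h
    obtain ⟨h1, h2⟩ := abs_le.1 h
    have := mul_nonneg hs.le hd0
    exact abs_le.2 ⟨by linarith, by linarith⟩
  · obtain ⟨p, -, hp2, hwin⟩ := hflat x hxs
    obtain ⟨p1, p2⟩ := abs_le.1 (hwin.on_ball hp2 hδ.le hδ1 hd)
    obtain ⟨m1, m2⟩ := abs_le.1 (hwin.on_ball hp2 hδ.le hδ1 (d := -d) (by rwa [norm_neg]))
    rw [inner_neg_right, ← sub_eq_add_neg] at m1 m2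
    have hb := mul_le_mul_of_nonneg_left hbig.le hs.le
    have := mul_nonneg hs.le hd0
    exact abs_le.2 ⟨by linarith, by linarith⟩

end Vale.Agent.P080.C1
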