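import Vale.Agent.P080.C1.Improvement
import Vale.Agent.P080.C1.Iterate

/-!
B7, B8: iteration of the improvement; infinity-harmonic functions are C¹.
-/

namespace Vale.Agent.P080.C1

open Metric Set Filter Topology
open scoped RealInnerProductSpace

set_option linter.unusedSectionVars false

variable {E : Type} [NormedAddCommGroup E] [InnerProductSpace ℝ E] [FiniteDimensional ℝ E]

/-- Interior gradient estimate. -/
theorem c1alpha : ∃ α C : ℝ, 0 < α ∧ 0 < C ∧ ∀ {x₀ : E} {R K : ℝ} {u : E → ℝ}, 0 < R →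
    Visc (ball x₀ R) u → (∀ z ∈ ball x₀ R, ∀ w ∈ ball x₀ R, u z - u w ≤ K) →
    ∀ x ∈ closedBall x₀ (R / 2), ∀ y ∈ closedBall x₀ (R / 2),
      DifferentiableAt ℝ u x ∧
        ‖gradient u x - gradient u y‖ ≤ C * K / R * (‖x - y‖ / R) ^ α := by
  obtain ⟨θ, δ₀, c, hθ, hθ4, hδ₀, hc, himp⟩ := improvement (E := E)
  obtain ⟨ε, m, α, C, hε, hm, hα, hC, H⟩ := flatHolder_of_step hθ hθ4 hδ₀ hc
    (fun _ _ hu hδ hδ0 hflat p h1 h2 hp => himp hu hδ hδ0 hflat p h1 h2 hp)
  exact c1alpha_of hε hm hα hC H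

/-- Infinity-harmonic functions are continuously differentiable. -/
theorem contDiffOn_one {s : Set E} {u : E → ℝ} (hs : IsOpen s) (hu : Visc s u) :
    ContDiffOn ℝ 1 u s := by
  obtain ⟨α, C, hα, -, h⟩ := c1alpha (E := E)
  exact contDiffOn_one_of hα h hs hu

end Vale.Agent.P080.C1
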