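import Vale.Agent.P080.C1.Key
import Vale.Agent.P080.C1.Jensen
import Vale.Agent.P080.C1.Limit
import Vale.Agent.P080.C1.Propagate.Zone

/-!
A7: propagation of saturation to all smaller scales and to a larger one.
-/

namespace Vale.Agent.P080.C1

open Set Filter Topology
open scoped RealInnerProductSpace

set_option linter.unusedSectionVars false

variable {F : Type*} [NormedAddCommGroup F] [InnerProductSpace ℝ F] [FiniteDimensional ℝ F]
variable {C : ℝ} {w : ℝ → F → ℝ}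

/-- Below a bound on the potential the excess is nonpositive. -/
theorem excess_nonpos_of {G C₁ β N R s t Λ : ℝ} {y : F} {ι : Type*} [Fintype ι] {l : ι → ℝ}
    {η : ι → F} (hs : 0 ≤ s) (hN : 0 ≤ N) (h : pot w s t y l η - G * spread l η ≤ Λ * s)
    (hprof : Λ ≤ Barrier.prof C₁ β (spread l η)) : excess w G C₁ β N R s t y l η ≤ 0 := by
  have h1 := mul_le_mul_of_nonneg_left hprof hs
  have h2 : 0 ≤ s * N / R ^ 2 * (t ^ 2 + ‖y‖ ^ 2) := by positivity
  simp only [excess]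
  linarith

/-- The excess at the starting stencil is positive. -/
theorem excess_start {G C₁ β N R s c : ℝ} {ι : Type*} [Fintype ι] {l : ι → ℝ} {η : ι → F}
    (hs : 0 < s) (hρ : spread l η = 1) (hprof : Barrier.prof C₁ β 1 = -C₁) (hc : c < C₁)
    (h : s * (-c) ≤ pot w s 0 0 l η - G * spread l η) : 0 < excess w G C₁ β N R s 0 0 l η := by
  have h1 := mul_lt_mul_of_pos_left hc hs
  simp only [excess]
  rw [hρ] at h ⊢
  rw [hprof, norm_zero]
  linarith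

/-- No saturated stencil with bounded slopes in the zone. -/
def NoneIn (w : ℝ → F → ℝ) (G R lo hi K : ℝ) : Prop :=
  ∀ (t : ℝ) (y : F) (l : Fin (Module.finrank ℝ F + 2) → ℝ)
    (η : Fin (Module.finrank ℝ F + 2) → F), Saturated G w t y l η → lo ≤ spread l η →
      spread l η ≤ hi → t ^ 2 + ‖y‖ ^ 2 ≤ R ^ 2 →
      ¬ ∀ h, 0 < h → -(K + G ^ 2 / 2) ≤ Sp w h t y + 2 * Sm w (2 * h) t y

/-- The two contradictions: a negated conclusion on a collar clashes with the start. -/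
theorem propagate_aux (C G : ℝ) (hG : 0 < G) : ∃ R K : ℝ, 1 ≤ R ∧ 0 < K ∧ ∀ {w : ℝ → F → ℝ},
    Prof C w → GapLe G w → IsWin C w 0 0 1 0 0 →
    ∀ {m : ℕ} {l : Fin m → ℝ} {η : Fin m → F}, Saturated G w 0 0 l η → spread l η = 1 →
      (∀ a : ℝ, 0 < a → a ≤ 1 / 2 → ¬ NoneIn w G (2 * R) (a / 2) a K) ∧
        ¬ NoneIn w G (2 * R) 2 3 K := by
  obtain ⟨cv, hcv, hzone⟩ := barrier_zone (F := F) C G hG
  obtain ⟨cs, hcs, hsat⟩ := saturated_slope (F := F) C G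
  obtain ⟨cu, hcu, hups⟩ := upper_slopes (F := F) C
  set C₁ := cs + 1 with hC₁
  have hC₁0 : 0 < C₁ := by rw [hC₁]; linarith
  set k := 15 * cu + 5 * G ^ 2 + 6 * C₁ + 13 + cv with hk
  have hk0 : 0 < k := by rw [hk]; positivity
  obtain ⟨R, hR, hrad⟩ := Barrier.exists_radius hG hk0.le
  set Λ := 3 * cu * (1 + Real.log R) ^ 2 + G ^ 2 / 2 with hΛ
  have hΛ0 : 0 ≤ Λ := by rw [hΛ]; positivity
  set K := 4 * Λ + 5 * C₁ + 13 with hK
  have hK0 : 0 < K := by rw [hK]; linarith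
  set N := Λ + K with hN
  have hN0 : 0 ≤ N := by rw [hN]; linarith
  have hlR : 0 ≤ Real.log R := Real.log_nonneg hR
  have hm : 1 ≤ (1 + Real.log R) ^ 2 := one_le_pow₀ (by linarith)
  have hNk : N ≤ k * (1 + Real.log R) ^ 2 := by
    have h1 := mul_le_mul_of_nonneg_left hm (sq_nonneg G)
    have h2 := mul_le_mul_of_nonneg_left hm hC₁0.le
    have h3 := mul_le_mul_of_nonneg_left hm hcv.le
    rw [hN, hK, hΛ, hk]
    nlinarith
  have hradius : ∀ ρ, 0 < ρ → ρ ≤ 3 →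
      (64 * N ^ 2 + N * (3 * (cv * (1 + Real.log R + |Real.log ρ|)) ^ 2 + 2)) / R ^ 2
        < G ^ 2 / (16 * Real.sqrt ρ) := fun ρ h1 h3 =>
    hrad R le_rfl ρ N _ h1 h3 hN0 hNk (by positivity)
      (mul_le_mul_of_nonneg_right (by rw [hk]; nlinarith) (by positivity))
  refine ⟨R, K, hR, hK0, fun {w} hw hgap hwin {m l₀ η₀} hs₀ hρ₀ => ?_⟩
  obtain ⟨l, η, hst, hρe, hpe⟩ : ∃ (l : Fin (Module.finrank ℝ F + 2) → ℝ)
      (η : Fin (Module.finrank ℝ F + 2) → F), IsStencil l η ∧ spread l η = 1 ∧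
      ∀ s, 0 < s → s ≤ 1 / 2 → s * (-cs) ≤ pot w s 0 0 l η - G * spread l η := by
    obtain ⟨l, η, hst, hρe, hsum⟩ := caratheodory hs₀.1 (fun z => w 0 (0 + z))
    have hsat' : Saturated G w 0 0 l η := by
      refine ⟨hst, le_antisymm (hgap _ 0 0 l η hst) ?_⟩
      have h1 := hs₀.2
      rw [hρe]
      simp only [gap] at *
      linarith
    rw [hρ₀] at hρe
    refine ⟨l, η, hst, hρe, fun s hs hs1 => ?_⟩
    have := (hsat hw hgap hG hsat' (by rw [hρe]; exact one_pos) (by rwa [hρe]) s hs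
      (by rw [hρe]; linarith)).2.2
    linarith
  have hup : ∀ s, 0 < s → s ≤ 1 → ∀ (t : ℝ) (y : F) (l : Fin (Module.finrank ℝ F + 2) → ℝ)
      (η : Fin (Module.finrank ℝ F + 2) → F), IsStencil l η → t ^ 2 + ‖y‖ ^ 2 ≤ (2 * R) ^ 2 →
      pot w s t y l η - G * spread l η ≤ Λ * s := fun s hs hs1 t y l η hst hX => by
    have ht : |t| ≤ 2 * R := abs_le_of_sq_le_sq (by linarith [sq_nonneg ‖y‖]) (by linarith)
    have hy : ‖y‖ ≤ 2 * R := le_of_sq_le_sq (by linarith [sq_nonneg t]) (by linarith)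
    have h1 := (hups hw hwin hR (by linarith) (y := y) (by linarith) hs (by linarith) (t := t)).1
    have h2 := (hups hw hwin hR (by linarith) (y := y) (by linarith) (h := 2 * s) (by linarith)
      (by linarith) (t := t)).2
    refine (pot_le hw hG.le hgap hst hs).trans ?_
    rw [mul_comm Λ, hΛ]
    exact mul_le_mul_of_nonneg_left (by linarith) hs.le
  have hclash : ∀ lo lo' hi' β, 0 < lo → lo < lo' → hi' < 3 → lo ≤ 1 → Barrier.prof C₁ β 1 = -C₁ →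
      (∀ ρ, 0 ≤ ρ → ρ ≤ 3 → -K ≤ Barrier.prof C₁ β ρ) →
      (∃ s₁ : ℝ, 0 < s₁ ∧ ∀ s, 0 < s → s ≤ s₁ → ∀ (t : ℝ) (y : F)
        (l : Fin (Module.finrank ℝ F + 2) → ℝ) (η : Fin (Module.finrank ℝ F + 2) → F),
        IsStencil l η → (lo ≤ spread l η ∧ spread l η ≤ lo' ∨ hi' ≤ spread l η ∧ spread l η ≤ 3) →
        t ^ 2 + ‖y‖ ^ 2 ≤ (2 * R) ^ 2 → excess w G C₁ β N R s t y l η ≤ 0) → False := by
    intro lo lo' hi' β h1 h2 h3 h4 hp1 hpK hcol
    obtain ⟨s₀, hs₀', hall⟩ := hzone hw hwin hR h1 h2 h3 le_rfl hN0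
      (fun ρ a b => hradius ρ (by linarith) b)
      (fun ρ a b => ⟨hpK ρ (by linarith) b, by have := hpK ρ (by linarith) b; rw [hN]; linarith⟩)
      hup hcol
    have hs : 0 < min s₀ (1 / 2) := lt_min hs₀' (by norm_num)
    have h5 := hall _ hs (min_le_left _ _) 0 0 l η hst (by rw [hρe]; exact h4)
      (by rw [hρe]; norm_num) (by simp; positivity)
    have h6 := excess_start (N := N) (R := R) hs hρe hp1 (by rw [hC₁]; linarith)
      (hpe _ hs (min_le_right _ _))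
    linarith
  refine ⟨fun a ha ha2 hno => ?_, fun hno => ?_⟩
  · obtain ⟨hp1, hpup, hplo⟩ := Barrier.prof_descent hC₁0.le hΛ0
    have hplo' : ∀ ρ, 0 ≤ ρ → ρ ≤ 3 → -K ≤ Barrier.prof C₁ (Λ + C₁ + 7) ρ := fun ρ h1 h2 => by
      have := hplo ρ h1 h2
      rw [hK]
      linarith
    obtain ⟨s₁, hs₁, hc⟩ := collar hw hG hgap (by linarith : 0 < a / 2) hno
    refine hclash (a / 2) a 2 _ (by linarith) (by linarith) (by norm_num) (by linarith) hp1 hplo'
      ⟨min s₁ 1, lt_min hs₁ one_pos, fun s hs hs' t y l η hst hcase hX => ?_⟩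
    rcases hcase with ⟨h1, h2⟩ | ⟨h1, h2⟩
    · have h3 := hc hs (hs'.trans (min_le_left _ _)) hst h1 h2
        hX
      exact excess_nonpos_of hs.le hN0 (Λ := -K) (by linarith) (hplo' _ (by linarith) (by linarith))
    · exact excess_nonpos_of hs.le hN0 (hup s hs (hs'.trans (min_le_right _ _)) t y l η hst hX)
        (hpup _ h1 h2)
  · obtain ⟨hp1, hpup, hplo⟩ := Barrier.prof_ascent hC₁0.le hΛ0
    have hplo' : ∀ ρ, 0 ≤ ρ → ρ ≤ 3 → -K ≤ Barrier.prof C₁ (-(2 * (Λ + C₁))) ρ := fun ρ h1 h2 => by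
      have := hplo ρ h1 h2
      rw [hK]
      linarith
    obtain ⟨s₁, hs₁, hc⟩ := collar hw hG hgap (by norm_num : (0 : ℝ) < 2) hno
    refine hclash (1 / 4) (1 / 2) 2 _ (by norm_num) (by norm_num) (by norm_num) (by norm_num) hp1
      hplo' ⟨min s₁ 1, lt_min hs₁ one_pos, fun s hs hs' t y l η hst hcase hX => ?_⟩
    rcases hcase with ⟨h1, h2⟩ | ⟨h1, h2⟩
    · exact excess_nonpos_of hs.le hN0 (hup s hs (hs'.trans (min_le_right _ _)) t y l η hst hX)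
        (hpup _ (by linarith) h2)
    · have h3 := hc hs (hs'.trans (min_le_left _ _)) hst h1 h2
        hX
      exact excess_nonpos_of hs.le hN0 (Λ := -K) (by linarith) (hplo' _ (by linarith) h2)

/-- Descent and ascent from a normalised saturated stencil. -/
theorem propagate (C G : ℝ) (hG : 0 < G) : ∃ R K : ℝ, 0 < R ∧ 0 < K ∧ ∀ {w : ℝ → F → ℝ},
    Prof C w → GapLe G w → w 0 0 = 0 → IsWin C w 0 0 1 0 0 →
    ∀ {m : ℕ} {l : Fin m → ℝ} {η : Fin m → F}, Saturated G w 0 0 l η → spread l η = 1 →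
      (∀ a : ℝ, 0 < a → a ≤ 1 / 2 → ∃ (t : ℝ) (y : F) (l' : Fin (Module.finrank ℝ F + 2) → ℝ)
        (η' : Fin (Module.finrank ℝ F + 2) → F), Saturated G w t y l' η' ∧
          a / 2 ≤ spread l' η' ∧ spread l' η' ≤ a ∧ |t| ≤ R ∧ ‖y‖ ≤ R ∧
          ∀ h, 0 < h → -K ≤ Sp w h t y + 2 * Sm w (2 * h) t y) ∧
      ∃ (t : ℝ) (y : F) (l' : Fin (Module.finrank ℝ F + 2) → ℝ)
        (η' : Fin (Module.finrank ℝ F + 2) → F), Saturated G w t y l' η' ∧
          2 ≤ spread l' η' ∧ spread l' η' ≤ 3 ∧ |t| ≤ R ∧ ‖y‖ ≤ R := by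
  obtain ⟨R, K, hR, hK, h⟩ := propagate_aux (F := F) C G hG
  refine ⟨2 * R, K + G ^ 2 / 2, by linarith, by positivity,
    fun {w} hw hgap _ hwin {m l₀ η₀} hs₀ hρ₀ => ?_⟩
  obtain ⟨hd, ha⟩ := h hw hgap hwin hs₀ hρ₀
  have hb : ∀ (t : ℝ) (y : F), t ^ 2 + ‖y‖ ^ 2 ≤ (2 * R) ^ 2 → |t| ≤ 2 * R ∧ ‖y‖ ≤ 2 * R :=
    fun t y hX => ⟨abs_le_of_sq_le_sq (by linarith [sq_nonneg ‖y‖]) (by linarith),
      le_of_sq_le_sq (by linarith [sq_nonneg t]) (by linarith)⟩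
  refine ⟨fun a ha1 ha2 => ?_, ?_⟩
  · by_contra hc
    refine hd a ha1 ha2 fun t y l η hsat hlo hhi hX hsl => hc ?_
    exact ⟨t, y, l, η, hsat, hlo, hhi, (hb t y hX).1, (hb t y hX).2, hsl⟩
  · by_contra hc
    refine ha fun t y l η hsat hlo hhi hX _ => hc ?_
    exact ⟨t, y, l, η, hsat, hlo, hhi, (hb t y hX).1, (hb t y hX).2⟩

end Vale.Agent.P080.C1
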